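import Vale.Agent.P237.MathlibUsed
import Vale.Agent.P227.PL

section

/-!
# P237: basic definitions

`V` is a finite-dimensional real inner product space with its Lebesgue measure `volume`.
-/

open MeasureTheory Metric Set
open scoped Pointwise

namespace Vale.Agent.P237

variable {V : Type*} [NormedAddCommGroup V] [InnerProductSpace ℝ V] [FiniteDimensional ℝ V]
  [MeasurableSpace V] [BorelSpace V]

/-- Convex body: compact, convex, with nonempty interior. -/
structure IsBody (K : Set V) : Prop where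
  convex : Convex ℝ K
  compact : IsCompact K
  int : (interior K).Nonempty

/-- Origin-symmetric convex body. -/
structure IsSymBody (K : Set V) : Prop extends IsBody K where
  symm : ∀ x ∈ K, -x ∈ K

/-- real-valued volume -/
noncomputable def vol (K : Set V) : ℝ := (volume K).toReal

/-- Support function. -/
noncomputable def supp (K : Set V) (v : V) : ℝ := sSup ((fun x => inner ℝ x v) '' K)

/-- Volume (of one dimension less) of the orthogonal projection of `K` onto the hyperplane
`u^⊥`. -/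
noncomputable def shadow (K : Set V) (u : V) : ℝ :=
  (volume ((ℝ ∙ u)ᗮ.orthogonalProjectionOnto '' K)).toReal

/-- The projection body. -/
def projBody (K : Set V) : Set V := {y | ∀ u : V, ‖u‖ = 1 → inner ℝ y u ≤ shadow K u}

/-- Intrinsic version of the shadow: `β_K(v) = |K + [0,v]| - |K|`. -/
noncomputable def beta (K : Set V) (v : V) : ℝ := vol (K + segment ℝ 0 v) - vol K

/-- Wulff shape of `h`. -/
def wulff (h : V → ℝ) : Set V := {y | ∀ v : V, inner ℝ y v ≤ h v}

/-- The unit ball lies in `K` and has maximal volume among the linear images of the unit ball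
contained in `K`. -/
def JohnPos (K : Set V) : Prop :=
  closedBall (0 : V) 1 ⊆ K ∧
    ∀ T : V →ₗ[ℝ] V, T '' closedBall (0 : V) 1 ⊆ K → |LinearMap.det T| ≤ 1

/-- Area of the slice `{z ∈ u^⊥ : z + y u ∈ K}`. -/
def slice (K : Set V) (u : V) (y : ℝ) : Set ((ℝ ∙ u)ᗮ : Submodule ℝ V) :=
  {z | (z : V) + y • u ∈ K}

end Vale.Agent.P237
end

section

/-!
Measure-preserving decomposition `ℝ × u^⊥ ≃ V`, `(y, z) ↦ z + y u`, for a unit vector `u`.
-/

open MeasureTheory Metric Set Module
open scoped Pointwise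

namespace Vale.Agent.P237

variable {V : Type*} [NormedAddCommGroup V] [InnerProductSpace ℝ V] [FiniteDimensional ℝ V]
  [MeasurableSpace V] [BorelSpace V]

/-- the equivalence `ℝ × u^⊥ ≃ V`, `(y, z) ↦ z + y u` -/
noncomputable def prodEquiv (u : V) (hu : ‖u‖ = 1) : (ℝ × ((ℝ ∙ u)ᗮ : Submodule ℝ V)) ≃ᵐ V :=
  ((MeasurableEquiv.prodCongr
      (LinearIsometryEquiv.toSpanUnitSingleton (𝕜 := ℝ) u hu).toHomeomorph.toMeasurableEquiv
      (MeasurableEquiv.refl _)).trans (MeasurableEquiv.toLp 2 _)).trans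
    (ℝ ∙ u).orthogonalDecomposition.symm.toHomeomorph.toMeasurableEquiv

theorem prodEquiv_apply (u : V) (hu : ‖u‖ = 1) (p : ℝ × ((ℝ ∙ u)ᗮ : Submodule ℝ V)) :
    prodEquiv u hu p = (p.2 : V) + p.1 • u := by
  have h : prodEquiv u hu p =
    ((LinearIsometryEquiv.toSpanUnitSingleton (𝕜 := ℝ) u hu p.1 : (ℝ ∙ u)) : V) + (p.2 : V) := by
    show (ℝ ∙ u).orthogonalDecomposition.symm (WithLp.toLp 2
      (LinearIsometryEquiv.toSpanUnitSingleton (𝕜 := ℝ) u hu p.1, p.2)) = _
    rw [Submodule.orthogonalDecomposition_symm_apply]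
    rfl
  rw [h, add_comm]
  rfl

theorem prodEquiv_measurePreserving (u : V) (hu : ‖u‖ = 1) :
    MeasurePreserving (prodEquiv u hu) := by
  refine MeasurePreserving.trans (MeasurePreserving.trans ?_
    (WithLp.volume_preserving_toLp (ℝ ∙ u) ((ℝ ∙ u)ᗮ : Submodule ℝ V))) ?_
  · exact MeasurePreserving.prod
      (LinearIsometryEquiv.toSpanUnitSingleton (𝕜 := ℝ) u hu).measurePreserving
      (MeasurePreserving.id volume)
  · exact (ℝ ∙ u).orthogonalDecomposition.symm.measurePreserving

/-- Fubini: the volume is the integral over `z ∈ u^⊥` of the lengths of the fibres. -/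
theorem volume_eq_lintegral_fibre (u : V) (hu : ‖u‖ = 1) {s : Set V} (hs : MeasurableSet s) :
    volume s = ∫⁻ z : ((ℝ ∙ u)ᗮ : Submodule ℝ V), volume {y : ℝ | (z : V) + y • u ∈ s} := by
  rw [← (prodEquiv_measurePreserving u hu).measure_preimage hs.nullMeasurableSet,
    Measure.volume_eq_prod, Measure.prod_apply_symm ((prodEquiv u hu).measurable hs)]
  refine lintegral_congr fun z => ?_
  congr 1
  ext y
  simp only [mem_preimage, prodEquiv_apply, mem_ofPred_eq]

/-- Fubini: the volume is the integral over `y ∈ ℝ` of the volumes of the slices. -/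
theorem volume_eq_lintegral_slice (u : V) (hu : ‖u‖ = 1) {s : Set V} (hs : MeasurableSet s) :
    volume s = ∫⁻ y : ℝ, volume (slice s u y) := by
  rw [← (prodEquiv_measurePreserving u hu).measure_preimage hs.nullMeasurableSet,
    Measure.volume_eq_prod, Measure.prod_apply ((prodEquiv u hu).measurable hs)]
  refine lintegral_congr fun y => ?_
  congr 1
  ext z
  simp only [mem_preimage, prodEquiv_apply, slice, mem_ofPred_eq]

/-- Fubini for integrals. -/
theorem integral_eq_integral_prod (u : V) (hu : ‖u‖ = 1) (f : V → ℝ) :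
    ∫ x, f x = ∫ p : ℝ × ((ℝ ∙ u)ᗮ : Submodule ℝ V), f ((p.2 : V) + p.1 • u) := by
  rw [← (prodEquiv_measurePreserving u hu).integral_comp' f]
  refine integral_congr_ae (Filter.Eventually.of_forall fun p => ?_)
  simp only [prodEquiv_apply]

omit [FiniteDimensional ℝ V] [MeasurableSpace V] [BorelSpace V] in
theorem inner_prod_point {u : V} (hu : ‖u‖ = 1) (z : ((ℝ ∙ u)ᗮ : Submodule ℝ V)) (y : ℝ) :
    inner ℝ ((z : V) + y • u) u = y := by
  have h1 : inner ℝ (z : V) u = 0 := by
    rw [real_inner_comm]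
    exact Submodule.mem_orthogonal_singleton_iff_inner_right.mp z.2
  rw [inner_add_left, h1, inner_smul_left, real_inner_self_eq_norm_sq, hu]
  simp

omit [FiniteDimensional ℝ V] [MeasurableSpace V] [BorelSpace V] in
theorem proj_prod_point {u : V} (z : ((ℝ ∙ u)ᗮ : Submodule ℝ V)) (y : ℝ) :
    (ℝ ∙ u)ᗮ.orthogonalProjectionOnto ((z : V) + y • u) = z := by
  rw [map_add, Submodule.orthogonalProjectionOnto_mem_subspace_eq_self, map_smul]
  have : (ℝ ∙ u)ᗮ.orthogonalProjectionOnto u = 0 := by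
    rw [Submodule.orthogonalProjectionOnto_eq_zero_iff, Submodule.orthogonal_orthogonal]
    exact Submodule.mem_span_singleton_self u
  rw [this, smul_zero, add_zero]

/-- every point is of the form `z + y u` -/
theorem eq_prod_point {u : V} (hu : ‖u‖ = 1) (x : V) :
    x = (((ℝ ∙ u)ᗮ.orthogonalProjectionOnto x : ((ℝ ∙ u)ᗮ : Submodule ℝ V)) : V)
      + (inner ℝ x u) • u := by
  obtain ⟨p, rfl⟩ := (prodEquiv u hu).surjective x
  rw [prodEquiv_apply, proj_prod_point, inner_prod_point hu]

end Vale.Agent.P237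
end

section

/-!
Volume of `K + [0, t u]`, and the basic properties of `beta`.
-/

open MeasureTheory Metric Set Module
open scoped Pointwise

namespace Vale.Agent.P237

variable {V : Type*} [NormedAddCommGroup V] [InnerProductSpace ℝ V] [FiniteDimensional ℝ V]
  [MeasurableSpace V] [BorelSpace V]

/-! ### fibres -/

omit [FiniteDimensional ℝ V] [MeasurableSpace V] [BorelSpace V] in
theorem fibre_isCompact {K : Set V} (hK : IsCompact K) {u : V} (hu : ‖u‖ = 1)
    (z : ((ℝ ∙ u)ᗮ : Submodule ℝ V)) : IsCompact {y : ℝ | (z : V) + y • u ∈ K} := by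
  refine Metric.isCompact_of_isClosed_isBounded ?_ ?_
  · exact hK.isClosed.preimage (by fun_prop)
  · refine (hK.image (f := fun x : V => (inner ℝ x u : ℝ)) (by fun_prop)).isBounded.subset ?_
    intro y hy
    exact ⟨_, hy, inner_prod_point hu z y⟩

omit [FiniteDimensional ℝ V] [MeasurableSpace V] [BorelSpace V] in
theorem fibre_convex {K : Set V} (hc : Convex ℝ K) {u : V}
    (z : ((ℝ ∙ u)ᗮ : Submodule ℝ V)) : Convex ℝ {y : ℝ | (z : V) + y • u ∈ K} := by
  intro x hx y hy a b ha hb hab
  have h := hc hx hy ha hb hab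
  have h2 : a • ((z : V) + x • u) + b • ((z : V) + y • u) = (z : V) + (a • x + b • y) • u := by
    have : (z : V) = (a + b) • (z : V) := by rw [hab, one_smul]
    rw [smul_add, smul_add, smul_smul, smul_smul, add_smul, smul_eq_mul, smul_eq_mul]
    nth_rewrite 3 [this]
    rw [add_smul]
    abel
  rw [h2] at h
  exact h

omit [FiniteDimensional ℝ V] [MeasurableSpace V] [BorelSpace V] in
theorem segment_eq_image_smul (v : V) : segment ℝ 0 v = (fun r : ℝ => r • v) '' Icc 0 1 := by
  rw [segment_eq_image']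
  simp only [sub_zero, zero_add]

omit [FiniteDimensional ℝ V] [MeasurableSpace V] [BorelSpace V] in
theorem segment_smul_eq_image {t : ℝ} (ht : 0 ≤ t) (v : V) :
    segment ℝ 0 (t • v) = (fun r : ℝ => r • v) '' Icc 0 t := by
  rw [segment_eq_image_smul]
  ext x
  constructor
  · rintro ⟨r, hr, rfl⟩
    refine ⟨r * t, ⟨mul_nonneg hr.1 ht, ?_⟩, ?_⟩
    · exact mul_le_of_le_one_left ht hr.2
    · simp [smul_smul]
  · rintro ⟨r, hr, rfl⟩
    rcases ht.eq_or_lt with h | h
    · have hr0 : r = 0 := le_antisymm (by rw [h]; exact hr.2) hr.1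
      exact ⟨0, ⟨le_rfl, zero_le_one⟩, by simp only [zero_smul, hr0]⟩
    · refine ⟨r / t, ⟨div_nonneg hr.1 ht, (div_le_one h).mpr hr.2⟩, ?_⟩
      show (r / t) • t • v = r • v
      rw [smul_smul, div_mul_cancel₀ _ h.ne']

omit [FiniteDimensional ℝ V] [MeasurableSpace V] [BorelSpace V] in
theorem isCompact_segment' (v w : V) : IsCompact (segment ℝ v w) := by
  rw [segment_eq_image]
  exact isCompact_Icc.image (by (clear * -; fun_prop))

omit [FiniteDimensional ℝ V] [MeasurableSpace V] [BorelSpace V] in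
theorem fibre_add_segment (K : Set V) {u : V} {t : ℝ} (ht : 0 ≤ t)
    (z : ((ℝ ∙ u)ᗮ : Submodule ℝ V)) :
    {y : ℝ | (z : V) + y • u ∈ K + segment ℝ 0 (t • u)}
      = {y : ℝ | (z : V) + y • u ∈ K} + Icc 0 t := by
  ext y
  show (z : V) + y • u ∈ K + segment ℝ 0 (t • u) ↔ _
  rw [segment_smul_eq_image ht, Set.mem_add, Set.mem_add]
  constructor
  · rintro ⟨a, ha, b, ⟨r, hr, rfl⟩, hab⟩
    refine ⟨y - r, ?_, r, hr, by ring⟩
    show (z : V) + (y - r) • u ∈ K
    have : (z : V) + (y - r) • u = a := by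
      rw [sub_smul]
      have h2 : a + r • u = (z : V) + y • u := hab
      rw [← add_sub_assoc, ← h2]
      abel
    rw [this]
    exact ha
  · rintro ⟨x, hx, r, hr, rfl⟩
    refine ⟨(z : V) + x • u, hx, r • u, ⟨r, hr, rfl⟩, ?_⟩
    rw [add_smul]
    abel

theorem fibre_nonempty_iff (K : Set V) {u : V} (hu : ‖u‖ = 1)
    (z : ((ℝ ∙ u)ᗮ : Submodule ℝ V)) :
    {y : ℝ | (z : V) + y • u ∈ K}.Nonempty ↔
      z ∈ (ℝ ∙ u)ᗮ.orthogonalProjectionOnto '' K := by
  constructor
  · rintro ⟨y, hy⟩
    exact ⟨_, hy, proj_prod_point z y⟩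
  · rintro ⟨x, hx, rfl⟩
    refine ⟨inner ℝ x u, ?_⟩
    show _ ∈ K
    rw [← eq_prod_point hu x]
    exact hx

theorem volume_interval_add {F : Set ℝ} (hF : IsCompact F) (hc : Convex ℝ F) (hne : F.Nonempty)
    {t : ℝ} (ht : 0 ≤ t) : volume (F + Icc 0 t) = volume F + ENNReal.ofReal t := by
  have hconn : IsConnected F := ⟨hne, hc.isPreconnected⟩
  rw [eq_Icc_of_connected_compact hconn hF]
  have hle : sInf F ≤ sSup F := by
    obtain ⟨x, hx⟩ := hne
    exact (csInf_le hF.bddBelow hx).trans (le_csSup hF.bddAbove hx)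
  rw [Set.Icc_add_Icc hle ht, Real.volume_Icc, Real.volume_Icc, ← ENNReal.ofReal_add (by (clear * - hle; linarith)) ht]
  congr 1
  ring

/-! ### the main formula -/

theorem volume_add_segment {K : Set V} (hK : IsCompact K) (hc : Convex ℝ K) {u : V}
    (hu : ‖u‖ = 1) {t : ℝ} (ht : 0 ≤ t) :
    volume (K + segment ℝ 0 (t • u)) = volume K +
      ENNReal.ofReal t * volume ((ℝ ∙ u)ᗮ.orthogonalProjectionOnto '' K) := by
  have hP : MeasurableSet ((ℝ ∙ u)ᗮ.orthogonalProjectionOnto '' K) :=
    (hK.image (by fun_prop)).isClosed.measurableSet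
  have h1 : ∀ z : ((ℝ ∙ u)ᗮ : Submodule ℝ V),
      volume {y : ℝ | (z : V) + y • u ∈ K + segment ℝ 0 (t • u)}
        = volume {y : ℝ | (z : V) + y • u ∈ K}
          + ((ℝ ∙ u)ᗮ.orthogonalProjectionOnto '' K).indicator (fun _ => ENNReal.ofReal t) z := by
    intro z
    rw [fibre_add_segment K ht z]
    by_cases hz : z ∈ (ℝ ∙ u)ᗮ.orthogonalProjectionOnto '' K
    · rw [indicator_of_mem hz]
      exact volume_interval_add (fibre_isCompact hK hu z) (fibre_convex hc z)
        ((fibre_nonempty_iff K hu z).mpr hz) ht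
    · rw [indicator_of_notMem hz]
      have h2 : {y : ℝ | (z : V) + y • u ∈ K} = ∅ := by
        rw [← Set.not_nonempty_iff_eq_empty, fibre_nonempty_iff K hu z]
        exact hz
      rw [h2]
      simp only [empty_add, measure_empty, add_zero]
  rw [volume_eq_lintegral_fibre u hu (hK.add (isCompact_segment' _ _)).isClosed.measurableSet,
    volume_eq_lintegral_fibre u hu hK.isClosed.measurableSet]
  simp_rw [h1]
  rw [lintegral_add_right _ (measurable_const.indicator hP), lintegral_indicator_const hP]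

theorem shadow_nonneg (K : Set V) (u : V) : 0 ≤ shadow K u := ENNReal.toReal_nonneg

theorem volume_proj_ne_top {K : Set V} (hK : IsCompact K) (u : V) :
    volume ((ℝ ∙ u)ᗮ.orthogonalProjectionOnto '' K) ≠ ⊤ :=
  (hK.image (by (clear * -; fun_prop))).measure_lt_top.ne

theorem vol_add_segment {K : Set V} (hK : IsCompact K) (hc : Convex ℝ K) {u : V} (hu : ‖u‖ = 1)
    {t : ℝ} (ht : 0 ≤ t) : vol (K + segment ℝ 0 (t • u)) = vol K + t * shadow K u := by
  unfold vol shadow
  rw [volume_add_segment hK hc hu ht, ENNReal.toReal_add hK.measure_lt_top.ne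
    (ENNReal.mul_ne_top ENNReal.ofReal_ne_top (volume_proj_ne_top hK u)), ENNReal.toReal_mul,
    ENNReal.toReal_ofReal ht]

theorem beta_smul_unit {K : Set V} (hK : IsCompact K) (hc : Convex ℝ K) {u : V} (hu : ‖u‖ = 1)
    {t : ℝ} (ht : 0 ≤ t) : beta K (t • u) = t * shadow K u := by
  unfold beta
  rw [vol_add_segment hK hc hu ht]
  ring

theorem beta_unit {K : Set V} (hK : IsCompact K) (hc : Convex ℝ K) {u : V} (hu : ‖u‖ = 1) :
    beta K u = shadow K u := by
  have h := beta_smul_unit hK hc hu zero_le_one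
  rwa [one_smul, one_mul] at h

theorem beta_zero (K : Set V) : beta K 0 = 0 := by
  unfold beta
  rw [segment_same, Set.singleton_zero, add_zero, sub_self]

omit [FiniteDimensional ℝ V] [MeasurableSpace V] [BorelSpace V] in
theorem norm_smul_unit {v : V} (hv : v ≠ 0) : ‖v‖ • (‖v‖⁻¹ • v) = v := by
  rw [smul_smul, mul_inv_cancel₀ (norm_ne_zero_iff.mpr hv), one_smul]

omit [FiniteDimensional ℝ V] [MeasurableSpace V] [BorelSpace V] in
theorem norm_unit {v : V} (hv : v ≠ 0) : ‖(‖v‖⁻¹ • v)‖ = 1 := by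
  rw [norm_smul, norm_inv, norm_norm, inv_mul_cancel₀ (norm_ne_zero_iff.mpr hv)]

theorem beta_eq_norm_mul {K : Set V} (hK : IsCompact K) (hc : Convex ℝ K) {v : V} (hv : v ≠ 0) :
    beta K v = ‖v‖ * shadow K (‖v‖⁻¹ • v) := by
  conv_lhs => rw [← norm_smul_unit hv]
  exact beta_smul_unit hK hc (norm_unit hv) (norm_nonneg v)

theorem volume_image_add_left (a : V) (s : Set V) : volume ((fun x => a + x) '' s) = volume s := by
  rw [image_add_left]
  exact measure_preimage_add _ _ _

theorem vol_image_add_left (a : V) (s : Set V) : vol ((fun x => a + x) '' s) = vol s := by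
  unfold vol
  rw [volume_image_add_left]

theorem beta_neg (K : Set V) (v : V) : beta K (-v) = beta K v := by
  unfold beta
  have h : K + segment ℝ 0 (-v) = (fun x => -v + x) '' (K + segment ℝ 0 v) := by
    ext x
    rw [segment_symm ℝ 0 v]
    constructor
    · rintro ⟨k, hk, s, hs, rfl⟩
      refine ⟨k + (v + s), ⟨k, hk, v + s, ?_, rfl⟩, ?_⟩
      · have h2 := (segment_translate_image ℝ v 0 (-v))
        have h3 : v + s ∈ (fun x => v + x) '' segment ℝ 0 (-v) := ⟨s, hs, rfl⟩
        rw [h2] at h3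
        simpa only [add_zero, add_neg_cancel] using h3
      · show -v + (k + (v + s)) = k + s
        module
    · rintro ⟨y, ⟨k, hk, s, hs, rfl⟩, rfl⟩
      refine ⟨k, hk, -v + s, ?_, ?_⟩
      · have h2 := (segment_translate_image ℝ (-v) v 0)
        have h3 : -v + s ∈ (fun x => -v + x) '' segment ℝ v 0 := ⟨s, hs, rfl⟩
        rw [h2] at h3
        simpa only [neg_add_cancel, add_zero] using h3
      · show k + (-v + s) = -v + (k + s)
        module
  rw [h, vol_image_add_left]

theorem beta_smul_of_nonneg {K : Set V} (hK : IsCompact K) (hc : Convex ℝ K) {t : ℝ}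
    (ht : 0 ≤ t) (v : V) : beta K (t • v) = t * beta K v := by
  by_cases hv : v = 0
  · rw [hv, smul_zero, beta_zero, mul_zero]
  · rw [beta_eq_norm_mul hK hc hv]
    conv_lhs => rw [← norm_smul_unit hv, smul_smul]
    rw [beta_smul_unit hK hc (norm_unit hv) (mul_nonneg ht (norm_nonneg v)), mul_assoc]

theorem beta_smul {K : Set V} (hK : IsCompact K) (hc : Convex ℝ K) (t : ℝ) (v : V) :
    beta K (t • v) = |t| * beta K v := by
  rcases le_total 0 t with ht | ht
  · rw [abs_of_nonneg ht, beta_smul_of_nonneg hK hc ht]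
  · rw [abs_of_nonpos ht, ← beta_neg K (t • v), ← neg_smul,
      beta_smul_of_nonneg hK hc (neg_nonneg.mpr ht)]

theorem beta_nonneg {K : Set V} (hK : IsCompact K) (hc : Convex ℝ K) (v : V) :
    0 ≤ beta K v := by
  by_cases hv : v = 0
  · rw [hv, beta_zero]
  · rw [beta_eq_norm_mul hK hc hv]
    exact mul_nonneg (norm_nonneg _) (shadow_nonneg _ _)

theorem shadow_mono {K L : Set V} (hL : IsCompact L) (h : K ⊆ L) (u : V) :
    shadow K u ≤ shadow L u := by
  unfold shadow
  exact ENNReal.toReal_mono (volume_proj_ne_top hL u) (measure_mono (image_mono h))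

theorem beta_mono {K L : Set V} (hK : IsCompact K) (hc : Convex ℝ K) (hL : IsCompact L)
    (hcL : Convex ℝ L) (h : K ⊆ L) (v : V) : beta K v ≤ beta L v := by
  by_cases hv : v = 0
  · rw [hv, beta_zero, beta_zero]
  · rw [beta_eq_norm_mul hK hc hv, beta_eq_norm_mul hL hcL hv]
    exact mul_le_mul_of_nonneg_left (shadow_mono hL h _) (norm_nonneg _)

omit [FiniteDimensional ℝ V] [MeasurableSpace V] [BorelSpace V] in
theorem image_segment_zero {W : Type*} [NormedAddCommGroup W] [InnerProductSpace ℝ W]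
    (f : V →ₗ[ℝ] W) (v : V) : f '' segment ℝ 0 v = segment ℝ 0 (f v) := by
  have h := image_segment ℝ f.toAffineMap 0 v
  simpa using h

omit [FiniteDimensional ℝ V] [MeasurableSpace V] [BorelSpace V] in
theorem image_add_segment {W : Type*} [NormedAddCommGroup W] [InnerProductSpace ℝ W]
    (f : V →ₗ[ℝ] W) (K : Set V) (v : V) :
    f '' (K + segment ℝ 0 v) = f '' K + segment ℝ 0 (f v) := by
  rw [Set.image_add, image_segment_zero]

theorem shadow_add_segment {K : Set V} (hK : IsCompact K) (hc : Convex ℝ K) (u v : V) {s : ℝ}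
    (hs : 0 ≤ s) : shadow (K + segment ℝ 0 (s • v)) u = shadow K u +
      s * beta ((ℝ ∙ u)ᗮ.orthogonalProjectionOnto '' K) ((ℝ ∙ u)ᗮ.orthogonalProjectionOnto v) := by
  have hcP : Convex ℝ ((ℝ ∙ u)ᗮ.orthogonalProjectionOnto '' K) :=
    hc.linear_image ((ℝ ∙ u)ᗮ.orthogonalProjectionOnto : V →ₗ[ℝ] ((ℝ ∙ u)ᗮ : Submodule ℝ V))
  have hKP : IsCompact ((ℝ ∙ u)ᗮ.orthogonalProjectionOnto '' K) := hK.image (by (clear * -; fun_prop))
  rw [← beta_smul_of_nonneg hKP hcP hs]
  unfold shadow beta vol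
  have h := image_add_segment
    ((ℝ ∙ u)ᗮ.orthogonalProjectionOnto : V →ₗ[ℝ] ((ℝ ∙ u)ᗮ : Submodule ℝ V)) K (s • v)
  rw [map_smul] at h
  have h' : (ℝ ∙ u)ᗮ.orthogonalProjectionOnto '' (K + segment ℝ 0 (s • v))
    = (ℝ ∙ u)ᗮ.orthogonalProjectionOnto '' K
      + segment ℝ 0 (s • (ℝ ∙ u)ᗮ.orthogonalProjectionOnto v) := h
  rw [h']
  ring

theorem beta_add_le {K : Set V} (hK : IsCompact K) (hc : Convex ℝ K) (v w : V) :
    beta K (v + w) ≤ beta K v + beta K w := by
  by_cases hw : w = 0
  · rw [hw, add_zero, beta_zero, add_zero]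
  set u : V := ‖w‖⁻¹ • w with hu
  set β : ℝ := beta ((ℝ ∙ u)ᗮ.orthogonalProjectionOnto '' K)
    ((ℝ ∙ u)ᗮ.orthogonalProjectionOnto v) with hβ
  have hcP : Convex ℝ ((ℝ ∙ u)ᗮ.orthogonalProjectionOnto '' K) :=
    hc.linear_image ((ℝ ∙ u)ᗮ.orthogonalProjectionOnto : V →ₗ[ℝ] ((ℝ ∙ u)ᗮ : Submodule ℝ V))
  have hKP : IsCompact ((ℝ ∙ u)ᗮ.orthogonalProjectionOnto '' K) := hK.image (by (clear * -; fun_prop))
  have hβ0 : 0 ≤ β := beta_nonneg hKP hcP _
  have key : ∀ s : ℝ, 0 < s → beta K (v + w) ≤ beta K v + beta K w + s * (‖w‖ * β) := by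
    intro s hs
    have hK' : IsCompact (K + segment ℝ 0 (s • v)) := hK.add (isCompact_segment' _ _)
    have hc' : Convex ℝ (K + segment ℝ 0 (s • v)) := hc.add (convex_segment _ _)
    have h1 : s * beta K (v + w) ≤ s * (beta K v + beta K w + s * (‖w‖ * β)) := by
      have hsub : K + segment ℝ 0 (s • (v + w)) ⊆
          (K + segment ℝ 0 (s • v)) + segment ℝ 0 (s • w) := by
        rw [add_assoc]
        refine Set.add_subset_add_left ?_
        rw [smul_add]
        intro x hx
        rw [segment_eq_image_smul] at hx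
        obtain ⟨r, hr, rfl⟩ := hx
        refine ⟨r • (s • v), ?_, r • (s • w), ?_, ?_⟩
        · rw [segment_eq_image_smul]; exact ⟨r, hr, rfl⟩
        · rw [segment_eq_image_smul]; exact ⟨r, hr, rfl⟩
        · show r • s • v + r • s • w = r • (s • v + s • w)
          rw [smul_add]
      have h2 : vol (K + segment ℝ 0 (s • (v + w))) ≤
          vol ((K + segment ℝ 0 (s • v)) + segment ℝ 0 (s • w)) := by
        unfold vol
        exact ENNReal.toReal_mono (hK'.add (isCompact_segment' _ _)).measure_lt_top.ne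
          (measure_mono hsub)
      have h3 : beta K (s • (v + w)) = s * beta K (v + w) := beta_smul_of_nonneg hK hc hs.le _
      have h4 : beta K (s • v) = s * beta K v := beta_smul_of_nonneg hK hc hs.le _
      have h5 : beta (K + segment ℝ 0 (s • v)) (s • w)
          = s * beta (K + segment ℝ 0 (s • v)) w := beta_smul_of_nonneg hK' hc' hs.le _
      have h6 : beta (K + segment ℝ 0 (s • v)) w = beta K w + s * (‖w‖ * β) := by
        rw [beta_eq_norm_mul hK' hc' hw, beta_eq_norm_mul hK hc hw, ← hu,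
          shadow_add_segment hK hc u v hs.le]
        ring
      rw [← h3]
      rw [h6] at h5
      have h7 : beta K (s • (v + w)) = vol (K + segment ℝ 0 (s • (v + w))) - vol K := rfl
      have h8 : beta K (s • v) = vol (K + segment ℝ 0 (s • v)) - vol K := rfl
      have h9 : beta (K + segment ℝ 0 (s • v)) (s • w) =
        vol ((K + segment ℝ 0 (s • v)) + segment ℝ 0 (s • w))
          - vol (K + segment ℝ 0 (s • v)) := rfl
      (clear hw hu hβ hcP hKP hβ0 hc' h3 h6; nlinarith [h2, h4, h5, h7, h8, h9])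
    exact le_of_mul_le_mul_left h1 hs
  refine le_of_forall_pos_le_add fun ε hε => ?_
  have hc0 : 0 ≤ ‖w‖ * β := mul_nonneg (norm_nonneg _) hβ0
  have h1 := key (ε / (‖w‖ * β + 1)) (by positivity)
  have h2 : ε / (‖w‖ * β + 1) * (‖w‖ * β) ≤ ε := by
    rw [div_mul_eq_mul_div, div_le_iff₀ (by positivity)]
    nlinarith only [hε]
  linarith

theorem vol_image_linearEquiv (T : V ≃ₗ[ℝ] V) (K : Set V) :
    vol (T '' K) = |LinearMap.det (T : V →ₗ[ℝ] V)| * vol K := by
  unfold vol
  have h := Measure.addHaar_image_linearMap (volume : Measure V) (T : V →ₗ[ℝ] V) K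
  have h' : volume (T '' K) = ENNReal.ofReal |LinearMap.det (T : V →ₗ[ℝ] V)| * volume K := h
  rw [h', ENNReal.toReal_mul, ENNReal.toReal_ofReal (abs_nonneg _)]

theorem beta_image (T : V ≃ₗ[ℝ] V) (K : Set V) (v : V) :
    beta (T '' K) (T v) = |LinearMap.det (T : V →ₗ[ℝ] V)| * beta K v := by
  unfold beta
  have h : T '' (K + segment ℝ 0 v) = T '' K + segment ℝ 0 (T v) :=
    image_add_segment (T : V →ₗ[ℝ] V) K v
  rw [← h, vol_image_linearEquiv, vol_image_linearEquiv]
  ring

theorem beta_translate (K : Set V) (a v : V) : beta ((fun x => a + x) '' K) v = beta K v := by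
  unfold beta
  have h : (fun x => a + x) '' K + segment ℝ 0 v = (fun x => a + x) '' (K + segment ℝ 0 v) := by
    ext x
    constructor
    · rintro ⟨_, ⟨k, hk, rfl⟩, s, hs, rfl⟩
      exact ⟨k + s, ⟨k, hk, s, hs, rfl⟩, by simp only [add_assoc]⟩
    · rintro ⟨_, ⟨k, hk, s, hs, rfl⟩, rfl⟩
      exact ⟨a + k, ⟨k, hk, rfl⟩, s, hs, by simp only [add_assoc]⟩
  rw [h, vol_image_add_left, vol_image_add_left]

theorem vol_smul_set_of_nonneg {r : ℝ} (hr : 0 ≤ r) (S : Set V) :
    vol (r • S) = r ^ finrank ℝ V * vol S := by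
  unfold vol
  rw [Measure.addHaar_smul_of_nonneg _ hr, ENNReal.toReal_mul,
    ENNReal.toReal_ofReal (by positivity)]

theorem beta_smul_set {K : Set V} (hK : IsCompact K) (hc : Convex ℝ K) {r : ℝ} (hr : 0 < r)
    (v : V) : beta (r • K) v = r ^ (finrank ℝ V - 1) * beta K v := by
  by_cases hd : finrank ℝ V = 0
  · have : Subsingleton V := finrank_zero_iff.mp hd
    rw [Subsingleton.elim v 0, beta_zero, beta_zero, mul_zero]
  · have h1 : r • K + segment ℝ 0 v = r • (K + segment ℝ 0 (r⁻¹ • v)) := by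
      have h2 : segment ℝ 0 v = r • segment ℝ 0 (r⁻¹ • v) := by
        have h3 := image_segment_zero (LinearMap.lsmul ℝ V r) (r⁻¹ • v)
        simp only [LinearMap.lsmul_apply] at h3
        rw [smul_smul, mul_inv_cancel₀ hr.ne', one_smul] at h3
        rw [← h3]
        rfl
      rw [smul_add, ← h2]
    have h4 : vol (K + segment ℝ 0 (r⁻¹ • v)) = vol K + r⁻¹ * beta K v := by
      have h5 := beta_smul_of_nonneg hK hc (inv_nonneg.mpr hr.le) v
      have h6 : beta K (r⁻¹ • v) = vol (K + segment ℝ 0 (r⁻¹ • v)) - vol K := rfl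
      linarith
    show vol (r • K + segment ℝ 0 v) - vol (r • K) = _
    rw [h1, vol_smul_set_of_nonneg hr.le, vol_smul_set_of_nonneg hr.le, h4]
    obtain ⟨n, hn⟩ : ∃ n, finrank ℝ V = n + 1 := Nat.exists_eq_succ_of_ne_zero hd
    rw [hn, Nat.add_sub_cancel, pow_succ]
    field_simp
    ring

theorem shadow_pos {K : Set V} (hK : IsBody K) (u : V) : 0 < shadow K u := by
  unfold shadow
  refine ENNReal.toReal_pos ?_ (volume_proj_ne_top hK.compact u)
  have hsurj : Function.Surjective (ℝ ∙ u)ᗮ.orthogonalProjectionOnto := fun z =>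
    ⟨z, Submodule.orthogonalProjectionOnto_mem_subspace_eq_self z⟩
  have hopen : IsOpen ((ℝ ∙ u)ᗮ.orthogonalProjectionOnto '' interior K) :=
    ((ℝ ∙ u)ᗮ.orthogonalProjectionOnto).isOpenMap hsurj _ isOpen_interior
  have h1 := hopen.measure_pos volume (hK.int.image _)
  exact (lt_of_lt_of_le h1 (measure_mono (image_mono interior_subset))).ne'

theorem beta_pos {K : Set V} (hK : IsBody K) {v : V} (hv : v ≠ 0) : 0 < beta K v := by
  rw [beta_eq_norm_mul hK.compact hK.convex hv]
  exact mul_pos (norm_pos_iff.mpr hv) (shadow_pos hK _)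

end Vale.Agent.P237
end

section

/-!
# P237-B: Brunn-Minkowski inequality in a finite-dimensional inner product space
-/

open MeasureTheory Metric Set Module
open scoped Pointwise ENNReal

namespace Vale.Agent.P237

variable {V : Type*} [NormedAddCommGroup V] [InnerProductSpace ℝ V] [FiniteDimensional ℝ V]
  [MeasurableSpace V] [BorelSpace V]

/-- volume preserving linear coordinates -/
noncomputable def coordEquiv (V : Type*) [NormedAddCommGroup V] [InnerProductSpace ℝ V]
    [FiniteDimensional ℝ V] : V ≃L[ℝ] (Fin (finrank ℝ V) → ℝ) :=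
  (stdOrthonormalBasis ℝ V).repr.toContinuousLinearEquiv.trans
    (PiLp.continuousLinearEquiv 2 ℝ (fun _ : Fin (finrank ℝ V) => ℝ))

theorem coordEquiv_measurePreserving : MeasurePreserving (coordEquiv V) volume volume := by
  have h1 := (stdOrthonormalBasis ℝ V).repr.measurePreserving
  have h2 := PiLp.volume_preserving_ofLp (Fin (finrank ℝ V))
  exact h2.comp h1

theorem volume_coord_image {K : Set V} (hK : IsCompact K) :
    volume (coordEquiv V '' K) = volume K := by
  have hc : IsCompact (coordEquiv V '' K) := hK.image (coordEquiv V).continuous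
  rw [← coordEquiv_measurePreserving.measure_preimage hc.measurableSet.nullMeasurableSet,
    preimage_image_eq _ (coordEquiv V).injective]

/-- multiplicative Brunn-Minkowski inequality (extended real version) -/
theorem bm_mul_volume {s t : ℝ} (hs : 0 < s) (ht : 0 < t) (hst : s + t = 1) {K L : Set V}
    (hK : IsCompact K) (hL : IsCompact L) :
    volume K ^ s * volume L ^ t ≤ volume (s • K + t • L) := by
  have hC : IsCompact (s • K + t • L) := (hK.smul s).add (hL.smul t)
  rw [← volume_coord_image hK, ← volume_coord_image hL, ← volume_coord_image hC]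
  refine P227.bm_mul hs ht hst (hK.image (coordEquiv V).continuous).measurableSet
    (hL.image (coordEquiv V).continuous).measurableSet
    (hC.image (coordEquiv V).continuous).measurableSet ?_
  rintro _ ⟨a, ha, rfl⟩ _ ⟨b, hb, rfl⟩
  refine ⟨s • a + t • b, add_mem_add (smul_mem_smul_set ha) (smul_mem_smul_set hb), ?_⟩
  simp

/-- multiplicative Brunn-Minkowski inequality -/
theorem bm_mul {s t : ℝ} (hs : 0 < s) (ht : 0 < t) (hst : s + t = 1) {K L : Set V}
    (hK : IsCompact K) (hL : IsCompact L) :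
    vol K ^ s * vol L ^ t ≤ vol (s • K + t • L) := by
  have hC : IsCompact (s • K + t • L) := (hK.smul s).add (hL.smul t)
  have h := ENNReal.toReal_mono hC.measure_lt_top.ne (bm_mul_volume hs ht hst hK hL)
  rw [ENNReal.toReal_mul, ← ENNReal.toReal_rpow, ← ENNReal.toReal_rpow] at h
  exact h

theorem vol_smul_set (r : ℝ) (K : Set V) : vol (r • K) = |r| ^ finrank ℝ V * vol K := by
  unfold vol
  rw [Measure.addHaar_smul, ENNReal.toReal_mul, ENNReal.toReal_ofReal (abs_nonneg _), abs_pow]

theorem vol_nonneg (K : Set V) : 0 ≤ vol K := ENNReal.toReal_nonneg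

theorem vol_mono {K L : Set V} (hL : IsCompact L) (h : K ⊆ L) : vol K ≤ vol L :=
  ENNReal.toReal_mono hL.measure_lt_top.ne (measure_mono h)

theorem vol_vadd_set (a : V) (K : Set V) : vol ({a} + K) = vol K := by
  unfold vol
  rw [singleton_add, Set.image_add_left, measure_preimage_add]

theorem brunn_minkowski {K L : Set V} (hK : IsCompact K) (hL : IsCompact L)
    (nK : K.Nonempty) (nL : L.Nonempty) (hd : 0 < finrank ℝ V) :
    vol K ^ ((1 : ℝ) / finrank ℝ V) + vol L ^ ((1 : ℝ) / finrank ℝ V) ≤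
      vol (K + L) ^ ((1 : ℝ) / finrank ℝ V) := by
  have hdR : (0 : ℝ) < finrank ℝ V := by exact_mod_cast hd
  have hKL : IsCompact (K + L) := hK.add hL
  have hle1 : vol K ≤ vol (K + L) := by
    obtain ⟨b, hb⟩ := nL
    have h1 : {b} + K ⊆ K + L := by
      rw [add_comm K L]
      exact add_subset_add (singleton_subset_iff.2 hb) subset_rfl
    have := vol_mono hKL h1
    rwa [vol_vadd_set] at this
  have hle2 : vol L ≤ vol (K + L) := by
    obtain ⟨a, ha⟩ := nK
    have h1 : {a} + L ⊆ K + L := add_subset_add (singleton_subset_iff.2 ha) subset_rfl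
    have := vol_mono hKL h1
    rwa [vol_vadd_set] at this
  have hexp : (0 : ℝ) < 1 / finrank ℝ V := by positivity
  rcases (vol_nonneg K).eq_or_lt with hK0 | hK0
  · rw [← hK0, Real.zero_rpow hexp.ne', zero_add]
    exact Real.rpow_le_rpow (vol_nonneg _) hle2 hexp.le
  rcases (vol_nonneg L).eq_or_lt with hL0 | hL0
  · rw [← hL0, Real.zero_rpow hexp.ne', add_zero]
    exact Real.rpow_le_rpow (vol_nonneg _) hle1 hexp.le
  set k := vol K ^ ((1 : ℝ) / finrank ℝ V) with hk
  set l := vol L ^ ((1 : ℝ) / finrank ℝ V) with hl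
  have hkpos : 0 < k := Real.rpow_pos_of_pos hK0 _
  have hlpos : 0 < l := Real.rpow_pos_of_pos hL0 _
  have hkd : k ^ finrank ℝ V = vol K := by
    rw [hk, ← Real.rpow_natCast, ← Real.rpow_mul hK0.le, one_div,
      inv_mul_cancel₀ hdR.ne', Real.rpow_one]
  have hld : l ^ finrank ℝ V = vol L := by
    rw [hl, ← Real.rpow_natCast, ← Real.rpow_mul hL0.le, one_div,
      inv_mul_cancel₀ hdR.ne', Real.rpow_one]
  have h := bm_mul (V := V) (s := k / (k + l)) (t := l / (k + l)) (by (clear hK hL nK nL hd hdR hKL hle1 hle2 hexp hk hl hkpos hlpos hkd hld; positivity)) (by (clear hK hL nK nL hd hdR hKL hle1 hle2 hexp hk hl hkpos hlpos hkd hld; positivity))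
    (by (clear * - hkpos hlpos; field_simp)) (hK.smul k⁻¹) (hL.smul l⁻¹)
  rw [vol_smul_set, vol_smul_set, abs_of_pos (inv_pos.2 hkpos), abs_of_pos (inv_pos.2 hlpos),
    inv_pow, inv_pow, hkd, hld, inv_mul_cancel₀ hK0.ne', inv_mul_cancel₀ hL0.ne',
    Real.one_rpow, Real.one_rpow, mul_one, smul_smul, smul_smul] at h
  have e1 : k / (k + l) * k⁻¹ = (k + l)⁻¹ := by (clear * - hkpos hlpos; field_simp)
  have e2 : l / (k + l) * l⁻¹ = (k + l)⁻¹ := by (clear * - hlpos hkpos; field_simp)
  rw [e1, e2, ← smul_add, vol_smul_set, abs_of_pos (by (clear hK hL nK nL hd hdR hKL hle1 hle2 hexp hk hl hkpos hlpos hkd hld h e1 e2; positivity)), inv_pow,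
    ← div_eq_inv_mul, le_div_iff₀ (by (clear hK hL nK nL hd hdR hKL hle1 hle2 hexp hk hl hkpos hlpos hkd hld h e1 e2; positivity)), one_mul] at h
  calc k + l = ((k + l) ^ finrank ℝ V) ^ ((1 : ℝ) / finrank ℝ V) := by
        rw [← Real.rpow_natCast, ← Real.rpow_mul (by (clear hK hL nK nL hd hdR hKL hle1 hle2 hexp hk hl hkpos hlpos hkd hld h e1 e2; positivity)), mul_one_div_cancel hdR.ne',
          Real.rpow_one]
    _ ≤ vol (K + L) ^ ((1 : ℝ) / finrank ℝ V) := Real.rpow_le_rpow (by (clear hK hL nK nL hd hdR hKL hle1 hle2 hexp hk hl hkpos hlpos hkd hld h e1 e2; positivity)) h hexp.le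

theorem isCompact_sum {m : ℕ} {K : Fin m → Set V} (hK : ∀ i, IsCompact (K i)) :
    IsCompact (∑ i, K i) := by
  induction m with
  | zero => simpa using (isCompact_singleton (x := (0 : V)))
  | succ m ih =>
    rw [Fin.sum_univ_succ]
    exact (hK 0).add (ih fun i => hK i.succ)

theorem nonempty_sum {m : ℕ} {K : Fin m → Set V} (nK : ∀ i, (K i).Nonempty) :
    (∑ i, K i).Nonempty := by
  induction m with
  | zero => simp
  | succ m ih =>
    rw [Fin.sum_univ_succ]
    exact (nK 0).add (ih fun i => nK i.succ)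

theorem bm_sum {m : ℕ} {K : Fin m → Set V} (hK : ∀ i, IsCompact (K i)) (nK : ∀ i, (K i).Nonempty)
    (hd : 0 < finrank ℝ V) :
    ∑ i, vol (K i) ^ ((1 : ℝ) / finrank ℝ V) ≤ vol (∑ i, K i) ^ ((1 : ℝ) / finrank ℝ V) := by
  induction m with
  | zero => simpa only [Finset.univ_eq_empty, one_div, Finset.sum_empty] using Real.rpow_nonneg (vol_nonneg _) _
  | succ m ih =>
    rw [Fin.sum_univ_succ, Fin.sum_univ_succ]
    refine (add_le_add le_rfl (ih (fun i => hK i.succ) fun i => nK i.succ)).trans ?_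
    exact brunn_minkowski (hK 0) (isCompact_sum fun i => hK i.succ) (nK 0)
      (nonempty_sum fun i => nK i.succ) hd

end Vale.Agent.P237
end

section

open MeasureTheory Set Filter Topology
open scoped Pointwise ENNReal NNReal

namespace Vale.Agent.P237
namespace BMEq

/-- quantile function -/
theorem exists_quantile {a : ℝ → ℝ} {α α' V : ℝ} (hα : α < α')
    (hc : ContinuousOn a (Ioo α α')) (hp : ∀ y ∈ Ioo α α', 0 < a y)
    (hi : IntervalIntegrable a volume α α') (hV : ∫ y in α..α', a y = V) :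
    ∃ P : ℝ → ℝ, (∀ l ∈ Ioo 0 V, P l ∈ Ioo α α' ∧ ∫ y in α..(P l), a y = l) ∧
      (∀ y ∈ Ioo α α', (∫ t in α..y, a t) ∈ Ioo 0 V ∧ P (∫ t in α..y, a t) = y) ∧
      (∀ l ∈ Ioo 0 V, HasDerivAt P (a (P l))⁻¹ l) ∧ StrictMonoOn P (Ioo 0 V) := by
  set F : ℝ → ℝ := fun y => ∫ t in α..y, a t with hF
  have hii : ∀ y ∈ Icc α α', ∀ z ∈ Icc α α', IntervalIntegrable a volume y z := by
    intro y hy z hz
    apply hi.mono_set
    rw [uIcc_of_le hα.le]
    exact uIcc_subset_Icc hy hz
  have hFmono : StrictMonoOn F (Icc α α') := by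
    intro y hy z hz hyz
    have h1 : F z = F y + ∫ t in y..z, a t :=
      (intervalIntegral.integral_add_adjacent_intervals
        (hii α (left_mem_Icc.mpr hα.le) y hy) (hii y hy z hz)).symm
    have h2 : 0 < ∫ t in y..z, a t :=
      intervalIntegral.intervalIntegral_pos_of_pos_on (hii y hy z hz)
        (fun x hx => hp x ⟨lt_of_le_of_lt hy.1 hx.1, lt_of_lt_of_le hx.2 hz.2⟩) hyz
    rw [h1]; linarith only [h2]
  have hFα : F α = 0 := intervalIntegral.integral_same
  have hFα' : F α' = V := hV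
  have hV0 : 0 < V := by
    rw [← hFα, ← hFα']
    exact hFmono (left_mem_Icc.mpr hα.le) (right_mem_Icc.mpr hα.le) hα
  have hFc : ContinuousOn F (Icc α α') := by
    have := intervalIntegral.continuousOn_primitive_interval' (μ := volume) (f := a)
      (b₁ := α) (b₂ := α') (a := α) hi left_mem_uIcc
    rwa [uIcc_of_le hα.le] at this
  have hFd : ∀ y ∈ Ioo α α', HasDerivAt F (a y) y := by
    intro y hy
    exact intervalIntegral.integral_hasDerivAt_right
      (hii α (left_mem_Icc.mpr hα.le) y (Ioo_subset_Icc_self hy))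
      (hc.stronglyMeasurableAtFilter isOpen_Ioo y hy)
      (hc.continuousAt (isOpen_Ioo.mem_nhds hy))
  have hFm : ∀ y ∈ Ioo α α', F y ∈ Ioo 0 V := by
    intro y hy
    constructor
    · rw [← hFα]; exact hFmono (left_mem_Icc.mpr hα.le) (Ioo_subset_Icc_self hy) hy.1
    · rw [← hFα']; exact hFmono (Ioo_subset_Icc_self hy) (right_mem_Icc.mpr hα.le) hy.2
  have hsurj : ∀ l, ∃ y, l ∈ Ioo 0 V → y ∈ Ioo α α' ∧ F y = l := by
    intro l
    by_cases hl : l ∈ Ioo 0 V
    · rw [← hFα, ← hFα'] at hl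
      obtain ⟨y, hy, hy2⟩ := intermediate_value_Ioo hα.le hFc hl
      exact ⟨y, fun _ => ⟨hy, hy2⟩⟩
    · exact ⟨0, fun h => absurd h hl⟩
  choose P hP using hsurj
  have hPinv : ∀ y ∈ Ioo α α', P (F y) = y := by
    intro y hy
    have h1 := hP (F y) (hFm y hy)
    exact hFmono.injOn (Ioo_subset_Icc_self h1.1) (Ioo_subset_Icc_self hy) h1.2
  have hPmono : StrictMonoOn P (Ioo 0 V) := by
    intro l hl m hm hlm
    by_contra hcon
    push Not at hcon
    have h1 := hFmono.monotoneOn (Ioo_subset_Icc_self (hP m hm).1)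
      (Ioo_subset_Icc_self (hP l hl).1) hcon
    rw [(hP m hm).2, (hP l hl).2] at h1
    linarith
  have hPc : ∀ l ∈ Ioo 0 V, ContinuousAt P l := by
    intro l hl
    apply hPmono.continuousAt_of_image_mem_nhds (isOpen_Ioo.mem_nhds hl)
    apply mem_of_superset (isOpen_Ioo.mem_nhds (hP l hl).1)
    intro y hy
    exact ⟨F y, hFm y hy, hPinv y hy⟩
  refine ⟨P, fun l hl => hP l hl, fun y hy => ⟨hFm y hy, hPinv y hy⟩, fun l hl => ?_, hPmono⟩
  apply HasDerivAt.of_local_left_inverse (hPc l hl) (hFd _ (hP l hl).1) (hp _ (hP l hl).1).ne'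
  filter_upwards [isOpen_Ioo.mem_nhds hl] with m hm
  exact (hP m hm).2

theorem amgm_eq {x y : ℝ} (hx : 0 < x) (hy : 0 < y) :
    1 ≤ (x⁻¹ + y⁻¹) / 2 * Real.sqrt (x * y) ∧
      ((x⁻¹ + y⁻¹) / 2 * Real.sqrt (x * y) = 1 → x = y) := by
  have hs : Real.sqrt (x * y) = Real.sqrt x * Real.sqrt y := Real.sqrt_mul hx.le y
  have hp : 0 < Real.sqrt x := Real.sqrt_pos.mpr hx
  have hq : 0 < Real.sqrt y := Real.sqrt_pos.mpr hy
  have hx2 : x = Real.sqrt x ^ 2 := (Real.sq_sqrt hx.le).symm
  have hy2 : y = Real.sqrt y ^ 2 := (Real.sq_sqrt hy.le).symm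
  rw [hs]
  generalize Real.sqrt x = p at *
  generalize Real.sqrt y = q at *
  subst hx2
  subst hy2
  have key : ((p ^ 2)⁻¹ + (q ^ 2)⁻¹) / 2 * (p * q) = 1 + (p - q) ^ 2 / (2 * p * q) := by
    field_simp
    ring
  rw [key]
  constructor
  · have : 0 ≤ (p - q) ^ 2 / (2 * p * q) := by (clear * - hp hq; positivity)
    linarith only [this]
  · intro h
    have h1 : (p - q) ^ 2 / (2 * p * q) = 0 := by linarith only [h]
    rw [div_eq_zero_iff] at h1
    rcases h1 with h1 | h1
    · have : p - q = 0 := by simpa only [ne_eq, OfNat.ofNat_ne_zero, not_false_eq_true, pow_eq_zero_iff] using h1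
      have : p = q := by linarith only [this]
      rw [this]
    · have : 0 < 2 * p * q := by positivity
      linarith only [h1, this]

/-- Equality case of the one-dimensional Prekopa-Leindler inequality. -/
theorem oneD {a b : ℝ → ℝ} {e : ℝ → ℝ≥0∞} {α α' β β' V : ℝ} (hα : α < α') (hβ : β < β')
    (hac : ContinuousOn a (Ioo α α')) (hap : ∀ y ∈ Ioo α α', 0 < a y)
    (hai : IntervalIntegrable a volume α α') (haV : ∫ y in α..α', a y = V)
    (hbc : ContinuousOn b (Ioo β β')) (hbp : ∀ y ∈ Ioo β β', 0 < b y)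
    (hbi : IntervalIntegrable b volume β β') (hbV : ∫ y in β..β', b y = V)
    (he : ∀ y ∈ Ioo α α', ∀ z ∈ Ioo β β', ENNReal.ofReal (Real.sqrt (a y * b z)) ≤ e ((y + z) / 2))
    (heV : ∫⁻ s, e s ≤ ENNReal.ofReal V) :
    ∃ k : ℝ, ∀ y ∈ Ioo α α', y + k ∈ Ioo β β' ∧ ∫ t in β..(y + k), b t = ∫ t in α..y, a t := by
  obtain ⟨P, hP1, hP2, hP3, hP4⟩ := exists_quantile hα hac hap hai haV
  obtain ⟨Q, hQ1, hQ2, hQ3, hQ4⟩ := exists_quantile hβ hbc hbp hbi hbV
  have hPc : ContinuousOn P (Ioo 0 V) := fun l hl => (hP3 l hl).continuousAt.continuousWithinAt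
  have hQc : ContinuousOn Q (Ioo 0 V) := fun l hl => (hQ3 l hl).continuousAt.continuousWithinAt
  set s : ℝ → ℝ := fun l => (P l + Q l) / 2 with hs
  set s' : ℝ → ℝ := fun l => ((a (P l))⁻¹ + (b (Q l))⁻¹) / 2 with hs'
  have hsd : ∀ l ∈ Ioo 0 V, HasDerivAt s (s' l) l := fun l hl =>
    ((hP3 l hl).add (hQ3 l hl)).div_const 2
  have hsm : StrictMonoOn s (Ioo 0 V) := by
    intro l hl m hm hlm
    have h1 := hP4 hl hm hlm
    have h2 := hQ4 hl hm hlm
    simp only [hs]
    linarith only [h1, h2]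
  have h1 : ∫⁻ x in s '' (Ioo 0 V), e x = ∫⁻ l in Ioo 0 V, ENNReal.ofReal |s' l| * e (s l) :=
    lintegral_image_eq_lintegral_abs_deriv_mul measurableSet_Ioo
      (fun l hl => (hsd l hl).hasDerivWithinAt) hsm.injOn e
  set φ : ℝ → ℝ := fun l => s' l * Real.sqrt (a (P l) * b (Q l)) with hφ
  have hac' : ContinuousOn (fun l => a (P l)) (Ioo 0 V) :=
    hac.comp hPc fun l hl => (hP1 l hl).1
  have hbc' : ContinuousOn (fun l => b (Q l)) (Ioo 0 V) :=
    hbc.comp hQc fun l hl => (hQ1 l hl).1
  have hφc : ContinuousOn φ (Ioo 0 V) := by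
    apply ContinuousOn.mul
    · exact ((hac'.inv₀ fun l hl => (hap _ (hP1 l hl).1).ne').add
        (hbc'.inv₀ fun l hl => (hbp _ (hQ1 l hl).1).ne')).div_const 2
    · exact (hac'.mul hbc').sqrt
  have h2 : ∫⁻ l in Ioo 0 V, ENNReal.ofReal (φ l) ≤ ENNReal.ofReal V := by
    calc ∫⁻ l in Ioo 0 V, ENNReal.ofReal (φ l)
        ≤ ∫⁻ l in Ioo 0 V, ENNReal.ofReal |s' l| * e (s l) := by
          apply setLIntegral_mono' measurableSet_Ioo
          intro l hl
          have h0 : 0 < s' l := by
            have h1 := hap _ (hP1 l hl).1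
            have h2 := hbp _ (hQ1 l hl).1
            simp only [hs']
            (clear * - h1 h2; positivity)
          rw [hφ, ENNReal.ofReal_mul h0.le, abs_of_pos h0]
          exact mul_le_mul' le_rfl (he _ (hP1 l hl).1 _ (hQ1 l hl).1)
      _ = ∫⁻ x in s '' (Ioo 0 V), e x := h1.symm
      _ ≤ ∫⁻ x, e x := setLIntegral_le_lintegral _ _
      _ ≤ _ := heV
  have hφ1 : ∀ l ∈ Ioo 0 V, 1 ≤ φ l := fun l hl =>
    (amgm_eq (hap _ (hP1 l hl).1) (hbp _ (hQ1 l hl).1)).1
  have h3 : (fun _ => (1 : ℝ≥0∞)) =ᵐ[volume.restrict (Ioo 0 V)] fun l => ENNReal.ofReal (φ l) := by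
    apply ae_eq_of_ae_le_of_lintegral_le
    · filter_upwards [ae_restrict_mem measurableSet_Ioo] with l hl
      rw [← ENNReal.ofReal_one]
      exact ENNReal.ofReal_le_ofReal (hφ1 l hl)
    · simp only [lintegral_const, MeasurableSet.univ, Measure.restrict_apply, univ_inter, Real.volume_Ioo, sub_zero, one_mul, ne_eq, ENNReal.ofReal_ne_top, not_false_eq_true]
    · exact (hφc.aemeasurable measurableSet_Ioo).ennreal_ofReal
    · refine h2.trans (le_of_eq ?_)
      simp only [lintegral_const, MeasurableSet.univ, Measure.restrict_apply, univ_inter, Real.volume_Ioo, sub_zero, one_mul]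
  have h4 : (fun _ => (1 : ℝ)) =ᵐ[volume.restrict (Ioo 0 V)] φ := by
    filter_upwards [h3, ae_restrict_mem measurableSet_Ioo] with l hl hl2
    have h5 : (0 : ℝ) ≤ φ l := zero_le_one.trans (hφ1 l hl2)
    have h6 := congrArg ENNReal.toReal hl
    rwa [ENNReal.toReal_ofReal h5, ENNReal.toReal_one] at h6
  have h5 : EqOn (fun _ => (1 : ℝ)) φ (Ioo 0 V) :=
    Measure.eqOn_open_of_ae_eq h4 isOpen_Ioo continuousOn_const hφc
  have h6 : ∀ l ∈ Ioo 0 V, a (P l) = b (Q l) := fun l hl =>
    (amgm_eq (hap _ (hP1 l hl).1) (hbp _ (hQ1 l hl).1)).2 (h5 hl).symm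
  have h7 : ∀ l ∈ Ioo 0 V, HasDerivAt (fun l => Q l - P l) 0 l := by
    intro l hl
    have := (hQ3 l hl).sub (hP3 l hl)
    rwa [h6 l hl, sub_self] at this
  obtain ⟨k, hk⟩ := isOpen_Ioo.exists_is_const_of_deriv_eq_zero (s := Ioo 0 V)
    (f := fun l => Q l - P l) isPreconnected_Ioo
    (fun l hl => (h7 l hl).differentiableAt.differentiableWithinAt)
    (fun l hl => (h7 l hl).deriv)
  refine ⟨k, fun y hy => ?_⟩
  have h8 := hP2 y hy
  have h9 : Q _ - P _ = k := hk _ h8.1
  rw [h8.2] at h9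
  have h10 : Q (∫ t in α..y, a t) = y + k := by linarith only [h9]
  rw [← h10]
  exact hQ1 _ h8.1

end BMEq
end Vale.Agent.P237
end

section

open MeasureTheory Set Filter Topology
open scoped Pointwise ENNReal NNReal

namespace Vale.Agent.P237
namespace BMEq

/-- the splitting of the first coordinate -/
noncomputable def spl (n : ℕ) : (Fin (n + 1) → ℝ) ≃ᵐ ℝ × (Fin n → ℝ) :=
  MeasurableEquiv.piFinSuccAbove (fun _ : Fin (n + 1) => ℝ) 0

theorem spl_mp (n : ℕ) : MeasurePreserving (spl n) volume volume :=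
  volume_preserving_piFinSuccAbove (fun _ : Fin (n + 1) => ℝ) 0

theorem spl_symm_zero (n : ℕ) (t : ℝ) (z : Fin n → ℝ) : (spl n).symm (t, z) 0 = t := by
  simp [spl, MeasurableEquiv.piFinSuccAbove]

theorem spl_symm_succ (n : ℕ) (t : ℝ) (z : Fin n → ℝ) (j : Fin n) :
    (spl n).symm (t, z) j.succ = z j := by
  simp [spl, MeasurableEquiv.piFinSuccAbove]

theorem spl_symm_comb (n : ℕ) (s t : ℝ) (a b : ℝ) (x y : Fin n → ℝ) :
    s • (spl n).symm (a, x) + t • (spl n).symm (b, y) = (spl n).symm (s * a + t * b, s • x + t • y) := by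
  funext i
  refine Fin.cases ?_ (fun j => ?_) i
  · simp [spl_symm_zero]
  · simp [spl_symm_succ]

theorem continuous_spl_symm (n : ℕ) : Continuous fun p : ℝ × (Fin n → ℝ) => (spl n).symm p := by
  apply continuous_pi
  intro i
  refine Fin.cases ?_ (fun j => ?_) i
  · have : (fun p : ℝ × (Fin n → ℝ) => (spl n).symm p 0) = fun p => p.1 := by
      funext p; exact spl_symm_zero n p.1 p.2
    rw [this]; fun_prop
  · have : (fun p : ℝ × (Fin n → ℝ) => (spl n).symm p j.succ) = fun p => p.2 j := by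
      funext p; exact spl_symm_succ n p.1 p.2 j
    rw [this]; fun_prop

/-- slice -/
def sl {n : ℕ} (K : Set (Fin (n + 1) → ℝ)) (t : ℝ) : Set (Fin n → ℝ) :=
  {z | (spl n).symm (t, z) ∈ K}

theorem measurableSet_sl {n : ℕ} {K : Set (Fin (n + 1) → ℝ)} (hK : MeasurableSet K) (t : ℝ) :
    MeasurableSet (sl K t) :=
  ((spl n).symm.measurable.comp measurable_prodMk_left) hK

theorem measurable_vol_sl {n : ℕ} {K : Set (Fin (n + 1) → ℝ)} (hK : MeasurableSet K) :
    Measurable fun t => volume (sl K t) :=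
  measurable_measure_prodMk_left (ν := (volume : Measure (Fin n → ℝ)))
    ((spl n).symm.measurable hK)

theorem volume_eq {n : ℕ} {K : Set (Fin (n + 1) → ℝ)} (hK : MeasurableSet K) :
    volume K = ∫⁻ t, volume (sl K t) := by
  have h1 : volume K = volume ((spl n).symm ⁻¹' K) :=
    ((spl_mp n).symm.measure_preimage hK.nullMeasurableSet).symm
  rw [h1]
  exact Measure.prod_apply ((spl n).symm.measurable hK)

theorem volume_inter {n : ℕ} {K : Set (Fin (n + 1) → ℝ)} (hK : MeasurableSet K) {T : Set ℝ}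
    (hT : MeasurableSet T) :
    volume (K ∩ {x | x 0 ∈ T}) = ∫⁻ t in T, volume (sl K t) := by
  have hm : MeasurableSet {x : Fin (n + 1) → ℝ | x 0 ∈ T} := measurable_pi_apply 0 hT
  rw [volume_eq (hK.inter hm), ← lintegral_indicator hT]
  apply lintegral_congr
  intro t
  by_cases ht : t ∈ T
  · rw [indicator_of_mem ht]
    congr 1
    ext z
    simp only [sl, mem_inter_iff, mem_ofPred_eq, spl_symm_zero, ht, and_true]
  · rw [indicator_of_notMem ht]
    have : sl (K ∩ {x | x 0 ∈ T}) t = ∅ := by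
      ext z
      simp only [sl, mem_inter_iff, mem_ofPred_eq, spl_symm_zero, ht, and_false,
        mem_empty_iff_false]
    rw [this, measure_empty]

/-- slice volume -/
noncomputable def sv {n : ℕ} (K : Set (Fin (n + 1) → ℝ)) (t : ℝ) : ℝ := (volume (sl K t)).toReal

theorem isCompact_sl {n : ℕ} {K : Set (Fin (n + 1) → ℝ)} (hK : IsCompact K) (t : ℝ) :
    IsCompact (sl K t) := by
  have h1 : sl K t = (fun x : Fin (n + 1) → ℝ => fun j : Fin n => x j.succ) '' (K ∩ {x | x 0 = t}) := by
    ext z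
    constructor
    · intro hz
      refine ⟨(spl n).symm (t, z), ⟨hz, spl_symm_zero n t z⟩, ?_⟩
      funext j
      exact spl_symm_succ n t z j
    · rintro ⟨x, ⟨hx, hx0⟩, rfl⟩
      show (spl n).symm (t, fun j : Fin n => x j.succ) ∈ K
      have : (spl n).symm (t, fun j : Fin n => x j.succ) = x := by
        funext i
        refine Fin.cases ?_ (fun j => ?_) i
        · rw [spl_symm_zero]; exact hx0.symm
        · rw [spl_symm_succ]
      rw [this]; exact hx
  rw [h1]
  apply IsCompact.image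
  · exact hK.inter_right (isClosed_eq (continuous_apply 0) continuous_const)
  · fun_prop

theorem sv_lt_top {n : ℕ} {K : Set (Fin (n + 1) → ℝ)} (hK : IsCompact K) (t : ℝ) :
    volume (sl K t) < ∞ := (isCompact_sl hK t).measure_lt_top

theorem ofReal_sv {n : ℕ} {K : Set (Fin (n + 1) → ℝ)} (hK : IsCompact K) (t : ℝ) :
    ENNReal.ofReal (sv K t) = volume (sl K t) := ENNReal.ofReal_toReal (sv_lt_top hK t).ne

theorem integrable_sv {n : ℕ} {K : Set (Fin (n + 1) → ℝ)} (hK : IsCompact K) :
    Integrable (sv K) := by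
  apply integrable_toReal_of_lintegral_ne_top (measurable_vol_sl hK.measurableSet).aemeasurable
  rw [← volume_eq hK.measurableSet]
  exact hK.measure_lt_top.ne

theorem setIntegral_sv {n : ℕ} {K : Set (Fin (n + 1) → ℝ)} (hK : IsCompact K) {T : Set ℝ}
    (hT : MeasurableSet T) : ∫ t in T, sv K t = (volume (K ∩ {x | x 0 ∈ T})).toReal := by
  rw [volume_inter hK.measurableSet hT]
  exact integral_toReal (measurable_vol_sl hK.measurableSet).aemeasurable
    (Eventually.of_forall fun t => sv_lt_top hK t)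

/-- log-concavity and two-body version -/
theorem sl_mul {n : ℕ} {K M E : Set (Fin (n + 1) → ℝ)} (hK : IsCompact K) (hM : IsCompact M)
    (hE : IsCompact E) {s t : ℝ} (hs : 0 < s) (ht : 0 < t) (hst : s + t = 1)
    (h : ∀ x ∈ K, ∀ y ∈ M, s • x + t • y ∈ E) (y z : ℝ) :
    sv K y ^ s * sv M z ^ t ≤ sv E (s * y + t * z) := by
  have h1 := Vale.Agent.P227.bm_mul hs ht hst (isCompact_sl hK y).measurableSet
    (isCompact_sl hM z).measurableSet (isCompact_sl hE (s * y + t * z)).measurableSet (by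
      intro p hp q hq
      show (spl n).symm (s * y + t * z, s • p + t • q) ∈ E
      rw [← spl_symm_comb]
      exact h _ hp _ hq)
  have h2 := ENNReal.toReal_mono (sv_lt_top hE _).ne h1
  rwa [ENNReal.toReal_mul, ← ENNReal.toReal_rpow, ← ENNReal.toReal_rpow] at h2

/-- lower end of the projection -/
noncomputable def lo {n : ℕ} (K : Set (Fin (n + 1) → ℝ)) : ℝ := sInf ((fun x => x 0) '' K)
/-- upper end of the projection -/
noncomputable def hi {n : ℕ} (K : Set (Fin (n + 1) → ℝ)) : ℝ := sSup ((fun x => x 0) '' K)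

structure PBody {n : ℕ} (K : Set (Fin (n + 1) → ℝ)) : Prop where
  convex : Convex ℝ K
  compact : IsCompact K
  int : (interior K).Nonempty

variable {n : ℕ} {K M : Set (Fin (n + 1) → ℝ)}

theorem PBody.img_compact (hK : PBody K) : IsCompact ((fun x : Fin (n + 1) → ℝ => x 0) '' K) :=
  hK.compact.image (continuous_apply 0)

theorem PBody.nonempty (hK : PBody K) : K.Nonempty := hK.int.mono interior_subset

theorem PBody.mem_Icc (hK : PBody K) {x : Fin (n + 1) → ℝ} (hx : x ∈ K) :
    x 0 ∈ Icc (lo K) (hi K) :=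
  ⟨csInf_le hK.img_compact.bddBelow ⟨x, hx, rfl⟩, le_csSup hK.img_compact.bddAbove ⟨x, hx, rfl⟩⟩

theorem PBody.exists_int (hK : PBody K) {t : ℝ} (ht : t ∈ Ioo (lo K) (hi K)) :
    ∃ x ∈ interior K, x 0 = t := by
  obtain ⟨c, hc⟩ := hK.int
  obtain ⟨p, hp, hp0⟩ := hK.img_compact.sInf_mem (hK.nonempty.image _)
  obtain ⟨q, hq, hq0⟩ := hK.img_compact.sSup_mem (hK.nonempty.image _)
  have hp1 : p 0 < t := by
    have : p 0 = lo K := hp0
    rw [this]; exact ht.1
  have hq1 : t < q 0 := by
    have : q 0 = hi K := hq0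
    rw [this]; exact ht.2
  have key : ∀ r ∈ K, ∀ s : ℝ, 0 < s → s ≤ 1 → (s • c + (1 - s) • r) ∈ interior K := by
    intro r hr s hs hs1
    exact hK.convex.combo_interior_self_mem_interior hc hr hs (by linarith only [hs1]) (by ring)
  rcases lt_trichotomy (c 0) t with h | h | h
  · refine ⟨_, key q hq ((q 0 - t) / (q 0 - c 0)) (by apply div_pos <;> linarith)
      ((div_le_one (by linarith)).mpr (by linarith)), ?_⟩
    have : q 0 - c 0 ≠ 0 := by linarith
    simp only [Pi.add_apply, Pi.smul_apply, smul_eq_mul]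
    field_simp
    ring
  · exact ⟨c, hc, h⟩
  · refine ⟨_, key p hp ((t - p 0) / (c 0 - p 0)) (by apply div_pos <;> linarith)
      ((div_le_one (by linarith)).mpr (by linarith)), ?_⟩
    have : c 0 - p 0 ≠ 0 := by linarith
    simp only [Pi.add_apply, Pi.smul_apply, smul_eq_mul]
    field_simp
    ring

theorem PBody.lo_lt_hi (hK : PBody K) : lo K < hi K := by
  obtain ⟨c, hc⟩ := hK.int
  have h1 : Tendsto (fun s : ℝ => c + s • (Pi.single 0 1 : Fin (n + 1) → ℝ)) (𝓝 0) (𝓝 c) := by
    have : Continuous fun s : ℝ => c + s • (Pi.single 0 1 : Fin (n + 1) → ℝ) := by fun_prop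
    have h2 := this.tendsto 0
    simpa only [zero_smul, add_zero] using h2
  have h2 : ∀ᶠ s in 𝓝 (0 : ℝ), c + s • (Pi.single 0 1 : Fin (n + 1) → ℝ) ∈ K :=
    h1 (mem_interior_iff_mem_nhds.mp hc)
  obtain ⟨s, hs, hs0⟩ := (h2.filter_mono nhdsWithin_le_nhds |>.and
    (self_mem_nhdsWithin : Ioi (0 : ℝ) ∈ 𝓝[>] 0)).exists
  have h3 := hK.mem_Icc hs
  have h4 := hK.mem_Icc (interior_subset hc)
  have h5 : (c + s • (Pi.single 0 1 : Fin (n + 1) → ℝ)) 0 = c 0 + s := by simp
  rw [h5] at h3
  have : (0 : ℝ) < s := hs0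
  linarith [h3.2, h4.1]

theorem PBody.sv_pos (hK : PBody K) {t : ℝ} (ht : t ∈ Ioo (lo K) (hi K)) : 0 < sv K t := by
  apply ENNReal.toReal_pos _ (sv_lt_top hK.compact t).ne
  obtain ⟨x, hx, hx0⟩ := hK.exists_int ht
  have ho : IsOpen {z : Fin n → ℝ | (spl n).symm (t, z) ∈ interior K} :=
    isOpen_interior.preimage ((continuous_spl_symm n).comp (by fun_prop))
  have hne : {z : Fin n → ℝ | (spl n).symm (t, z) ∈ interior K}.Nonempty := by
    refine ⟨fun j => x j.succ, ?_⟩
    show (spl n).symm (t, fun j : Fin n => x j.succ) ∈ interior K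
    have : (spl n).symm (t, fun j : Fin n => x j.succ) = x := by
      funext i
      refine Fin.cases ?_ (fun j => ?_) i
      · rw [spl_symm_zero]; exact hx0.symm
      · rw [spl_symm_succ]
    rw [this]; exact hx
  have h1 := ho.measure_pos volume hne
  have h2 : {z : Fin n → ℝ | (spl n).symm (t, z) ∈ interior K} ⊆ sl K t := by
    intro z hz
    have h3 : (spl n).symm (t, z) ∈ interior K := hz
    exact interior_subset (s := K) h3
  exact (lt_of_lt_of_le h1 (measure_mono h2)).ne'

theorem PBody.sv_cont (hK : PBody K) : ContinuousOn (sv K) (Ioo (lo K) (hi K)) := by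
  have hconc : ConcaveOn ℝ (Ioo (lo K) (hi K)) fun t => Real.log (sv K t) := by
    refine ⟨convex_Ioo _ _, ?_⟩
    intro y hy z hz s t hs ht hst
    rcases hs.eq_or_lt with rfl | hs
    · have : t = 1 := by linarith
      subst this; simp
    rcases ht.eq_or_lt with rfl | ht
    · have : s = 1 := by linarith only [hst]
      subst this; simp
    have h1 := sl_mul hK.compact hK.compact hK.compact hs ht hst
      (fun x hx y hy => hK.convex hx hy hs.le ht.le hst) y z
    have hy0 := hK.sv_pos hy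
    have hz0 := hK.sv_pos hz
    have h2 := Real.log_le_log (by (clear * - hy0 hz0; positivity)) h1
    rw [Real.log_mul (by (clear * - hy0; positivity)) (by (clear * - hz0; positivity)), Real.log_rpow hy0, Real.log_rpow hz0] at h2
    simpa only [smul_eq_mul] using h2
  have h1 : ContinuousOn (fun t => Real.log (sv K t)) (Ioo (lo K) (hi K)) :=
    hconc.continuousOn isOpen_Ioo
  have h2 : ContinuousOn (fun t => Real.exp (Real.log (sv K t))) (Ioo (lo K) (hi K)) := h1.rexp
  refine h2.congr ?_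
  intro t ht
  exact (Real.exp_log (hK.sv_pos ht)).symm

theorem PBody.integral_lo (hK : PBody K) {y : ℝ} (hy : lo K ≤ y) :
    ∫ t in (lo K)..y, sv K t = (volume (K ∩ {x | x 0 ≤ y})).toReal := by
  rw [intervalIntegral.integral_of_le hy, ← integral_Icc_eq_integral_Ioc,
    setIntegral_sv hK.compact measurableSet_Icc]
  congr 2
  ext x
  simp only [mem_inter_iff, mem_ofPred_eq, Set.mem_Icc]
  constructor
  · rintro ⟨h1, h2, h3⟩; exact ⟨h1, h3⟩
  · rintro ⟨h1, h3⟩; exact ⟨h1, (hK.mem_Icc h1).1, h3⟩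

theorem PBody.integral_lo_hi (hK : PBody K) :
    ∫ t in (lo K)..(hi K), sv K t = (volume K).toReal := by
  rw [hK.integral_lo hK.lo_lt_hi.le]
  congr 2
  ext x
  simp only [mem_inter_iff, mem_ofPred_eq]
  constructor
  · rintro ⟨h1, h3⟩; exact h1
  · intro h1; exact ⟨h1, (hK.mem_Icc h1).2⟩

/-- Equality in Brunn-Minkowski implies equal distributions (up to a shift) of the first
coordinate. -/
theorem first_coord (hK : PBody K) (hM : PBody M) (h1 : volume K = volume M)
    (h2 : volume ((2⁻¹ : ℝ) • (K + M)) ≤ volume K) :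
    ∃ k : ℝ, ∀ y, volume (M ∩ {x | x 0 ≤ y + k}) = volume (K ∩ {x | x 0 ≤ y}) := by
  set E := (2⁻¹ : ℝ) • (K + M) with hE
  have hEc : IsCompact E := (hK.compact.add hM.compact).smul _
  obtain ⟨k, hk⟩ := oneD (e := fun t => volume (sl E t)) (V := (volume K).toReal)
    hK.lo_lt_hi hM.lo_lt_hi hK.sv_cont (fun y hy => hK.sv_pos hy)
    (integrable_sv hK.compact).intervalIntegrable hK.integral_lo_hi hM.sv_cont
    (fun y hy => hM.sv_pos hy) (integrable_sv hM.compact).intervalIntegrable
    (by rw [hM.integral_lo_hi, h1])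
    (by
      intro y hy z hz
      have h3 := sl_mul hK.compact hM.compact hEc (s := 2⁻¹) (t := 2⁻¹) (by norm_num)
        (by norm_num) (by norm_num) (by
          intro p hp q hq
          rw [← smul_add]
          exact smul_mem_smul_set (add_mem_add hp hq)) y z
      rw [← ofReal_sv hEc]
      apply ENNReal.ofReal_le_ofReal
      have h4 : (2⁻¹ : ℝ) * y + 2⁻¹ * z = (y + z) / 2 := by ring
      rw [h4] at h3
      refine le_trans (le_of_eq ?_) h3
      rw [Real.sqrt_eq_rpow, Real.mul_rpow (hK.sv_pos hy).le (hM.sv_pos hz).le]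
      norm_num)
    (by
      rw [← volume_eq hEc.measurableSet, ENNReal.ofReal_toReal hK.compact.measure_lt_top.ne]
      exact h2)
  have hfinK : ∀ y, volume (K ∩ {x | x 0 ≤ y}) ≠ ∞ := fun y =>
    ne_top_of_le_ne_top hK.compact.measure_lt_top.ne (measure_mono inter_subset_left)
  have hfinM : ∀ y, volume (M ∩ {x | x 0 ≤ y}) ≠ ∞ := fun y =>
    ne_top_of_le_ne_top hM.compact.measure_lt_top.ne (measure_mono inter_subset_left)
  refine ⟨k, ?_⟩
  have hmid : ∀ y ∈ Ioo (lo K) (hi K),
      volume (M ∩ {x | x 0 ≤ y + k}) = volume (K ∩ {x | x 0 ≤ y}) := by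
    intro y hy
    obtain ⟨h3, h4⟩ := hk y hy
    rw [hM.integral_lo h3.1.le, hK.integral_lo hy.1.le] at h4
    exact (ENNReal.toReal_eq_toReal_iff' (hfinM _) (hfinK _)).mp h4
  have hPc : ContinuousOn (fun y => ∫ t in (lo K)..y, sv K t) (Icc (lo K) (hi K)) := by
    have := intervalIntegral.continuousOn_primitive_interval' (μ := volume) (f := sv K)
      (b₁ := lo K) (b₂ := hi K) (a := lo K) (integrable_sv hK.compact).intervalIntegrable
      left_mem_uIcc
    rwa [uIcc_of_le hK.lo_lt_hi.le] at this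
  intro y
  rcases le_or_gt y (lo K) with hy | hy
  · -- both sides vanish
    have h3 : volume (K ∩ {x | x 0 ≤ y}) = 0 := by
      have h4 := hK.integral_lo le_rfl
      rw [intervalIntegral.integral_same] at h4
      have h5 : volume (K ∩ {x | x 0 ≤ lo K}) = 0 :=
        ((ENNReal.toReal_eq_zero_iff _).mp h4.symm).resolve_right (hfinK _)
      refine measure_mono_null ?_ h5
      intro x hx
      have h6 : x 0 ≤ y := hx.2
      exact ⟨hx.1, show x 0 ≤ lo K from h6.trans hy⟩
    rw [h3]
    have h6 : Tendsto (fun y => ∫ t in (lo K)..y, sv K t) (𝓝[>] (lo K)) (𝓝 0) := by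
      have h7 := hPc (lo K) (left_mem_Icc.mpr hK.lo_lt_hi.le)
      have h8 : Tendsto (fun y => ∫ t in (lo K)..y, sv K t) (𝓝[Icc (lo K) (hi K)] (lo K))
          (𝓝 (∫ t in (lo K)..(lo K), sv K t)) := h7
      rw [intervalIntegral.integral_same] at h8
      apply h8.mono_left
      rw [← nhdsWithin_Ioo_eq_nhdsGT hK.lo_lt_hi]
      exact nhdsWithin_mono _ Ioo_subset_Icc_self
    have h9 : (volume (M ∩ {x | x 0 ≤ y + k})).toReal ≤ 0 := by
      apply ge_of_tendsto h6
      rw [← nhdsWithin_Ioo_eq_nhdsGT hK.lo_lt_hi]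
      filter_upwards [self_mem_nhdsWithin] with w hw
      rw [hK.integral_lo hw.1.le, ← hmid w hw]
      apply ENNReal.toReal_mono (hfinM _)
      apply measure_mono
      intro x hx
      have h11 : x 0 ≤ y + k := hx.2
      refine ⟨hx.1, show x 0 ≤ w + k from ?_⟩
      linarith only [hy, h11, hw.1]
    have h10 : (volume (M ∩ {x | x 0 ≤ y + k})).toReal = 0 :=
      le_antisymm h9 ENNReal.toReal_nonneg
    exact ((ENNReal.toReal_eq_zero_iff _).mp h10).resolve_right (hfinM _)
  · rcases lt_or_ge y (hi K) with hy2 | hy2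
    · exact hmid y ⟨hy, hy2⟩
    · have h3 : volume (K ∩ {x | x 0 ≤ y}) = volume K := by
        congr 1
        ext x
        simp only [mem_inter_iff, mem_ofPred_eq]
        exact ⟨fun h => h.1, fun h => ⟨h, (hK.mem_Icc h).2.trans hy2⟩⟩
      rw [h3]
      apply le_antisymm
      · rw [h1]; exact measure_mono inter_subset_left
      · have h6 : Tendsto (fun y => ∫ t in (lo K)..y, sv K t) (𝓝[<] (hi K))
            (𝓝 (volume K).toReal) := by
          have h7 := hPc (hi K) (right_mem_Icc.mpr hK.lo_lt_hi.le)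
          have h8 : Tendsto (fun y => ∫ t in (lo K)..y, sv K t) (𝓝[Icc (lo K) (hi K)] (hi K))
              (𝓝 (∫ t in (lo K)..(hi K), sv K t)) := h7
          rw [hK.integral_lo_hi] at h8
          apply h8.mono_left
          rw [← nhdsWithin_Ioo_eq_nhdsLT hK.lo_lt_hi]
          exact nhdsWithin_mono _ Ioo_subset_Icc_self
        have h9 : (volume K).toReal ≤ (volume (M ∩ {x | x 0 ≤ y + k})).toReal := by
          apply le_of_tendsto h6
          rw [← nhdsWithin_Ioo_eq_nhdsLT hK.lo_lt_hi]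
          filter_upwards [self_mem_nhdsWithin] with w hw
          rw [hK.integral_lo hw.1.le, ← hmid w hw]
          apply ENNReal.toReal_mono (hfinM _)
          apply measure_mono
          intro x hx
          have h11 : x 0 ≤ w + k := hx.2
          refine ⟨hx.1, show x 0 ≤ y + k from ?_⟩
          linarith only [hy2, h11, hw.2]
        exact (ENNReal.toReal_le_toReal hK.compact.measure_lt_top.ne (hfinM _)).mp h9

end BMEq
end Vale.Agent.P237
end

section

open MeasureTheory Metric Set Module Filter Topology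
open scoped Pointwise ENNReal NNReal

namespace Vale.Agent.P237

variable {V : Type*} [NormedAddCommGroup V] [InnerProductSpace ℝ V] [FiniteDimensional ℝ V]
  [MeasurableSpace V] [BorelSpace V]

namespace BMEq

theorem dir_shift {K M : Set V} (hK : IsBody K) (hM : IsBody M) (h1 : volume K = volume M)
    (h2 : volume ((2⁻¹ : ℝ) • (K + M)) ≤ volume K) {u : V} (hu : ‖u‖ = 1) :
    ∃ k : ℝ, ∀ y, volume (M ∩ {x | inner ℝ u x ≤ y + k}) = volume (K ∩ {x | inner ℝ u x ≤ y}) := by
  have hu0 : u ≠ 0 := by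
    intro h; rw [h, norm_zero] at hu; exact zero_ne_one hu
  have : Nontrivial V := ⟨u, 0, hu0⟩
  obtain ⟨n, hn⟩ : ∃ n, finrank ℝ V = n + 1 := Nat.exists_eq_succ_of_ne_zero finrank_pos.ne'
  have ho : Orthonormal ℝ (({0} : Set (Fin (n + 1))).domRestrict (fun _ => u)) := by
    constructor
    · intro i; exact hu
    · intro i j hij
      exact absurd (Subsingleton.elim i j) hij
  obtain ⟨b, hb⟩ := ho.exists_orthonormalBasis_extension_of_card_eq (by simpa only [Fintype.card_fin] using hn)
  have hb0 : b 0 = u := hb 0 rfl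
  let Φ : V ≃L[ℝ] (Fin (n + 1) → ℝ) :=
    b.repr.toContinuousLinearEquiv.trans (EuclideanSpace.equiv (Fin (n + 1)) ℝ)
  have hΦ : MeasurePreserving Φ volume volume :=
    (PiLp.volume_preserving_ofLp (Fin (n + 1))).comp b.measurePreserving_repr
  have hΦ0 : ∀ x, Φ x 0 = inner ℝ u x := by
    intro x
    show b.repr x 0 = _
    rw [b.repr_apply_apply, hb0]
  have hvol : ∀ A : Set V, MeasurableSet A → volume (Φ '' A) = volume A := by
    intro A hA
    have h3 : MeasurableSet (Φ '' A) := Φ.toHomeomorph.measurableEmbedding.measurableSet_image.mpr hA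
    rw [← hΦ.measure_preimage h3.nullMeasurableSet, preimage_image_eq _ Φ.injective]
  have hbody : ∀ A : Set V, IsBody A → PBody (Φ '' A) := by
    intro A hA
    refine ⟨hA.convex.linear_image (Φ : V →ₗ[ℝ] (Fin (n + 1) → ℝ)), hA.compact.image Φ.continuous,
      ?_⟩
    have : interior (Φ '' A) = Φ '' interior A := (Φ.toHomeomorph.image_interior A).symm
    rw [this]
    exact hA.int.image _
  have hsec : ∀ (A : Set V) (y : ℝ), Φ '' (A ∩ {x | inner ℝ u x ≤ y}) = Φ '' A ∩ {x | x 0 ≤ y} := by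
    intro A y
    ext z
    constructor
    · rintro ⟨x, ⟨hx, hxy⟩, rfl⟩
      exact ⟨⟨x, hx, rfl⟩, show Φ x 0 ≤ y by rw [hΦ0]; exact hxy⟩
    · rintro ⟨⟨x, hx, rfl⟩, hxy⟩
      refine ⟨x, ⟨hx, show inner ℝ u x ≤ y from ?_⟩, rfl⟩
      rw [← hΦ0]; exact hxy
  have hmeas : ∀ (A : Set V) (y : ℝ), IsBody A → MeasurableSet (A ∩ {x | inner ℝ u x ≤ y}) := by
    intro A y hA
    exact hA.compact.measurableSet.inter
      (isClosed_le (by fun_prop) continuous_const).measurableSet
  obtain ⟨k, hk⟩ := first_coord (hbody K hK) (hbody M hM)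
    (by rw [hvol K hK.compact.measurableSet, hvol M hM.compact.measurableSet, h1])
    (by
      have h3 : (2⁻¹ : ℝ) • (Φ '' K + Φ '' M) = Φ '' ((2⁻¹ : ℝ) • (K + M)) := by
        rw [image_smul_set, image_add]
      rw [h3, hvol _ ((hK.compact.add hM.compact).smul _).measurableSet,
        hvol K hK.compact.measurableSet]
      exact h2)
  refine ⟨k, fun y => ?_⟩
  have h4 := hk y
  rw [← hsec, ← hsec, hvol _ (hmeas M _ hM), hvol _ (hmeas K _ hK)] at h4
  exact h4

theorem integral_shift {K M : Set V} (hK : IsBody K) (hM : IsBody M)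
    {u : V} {k : ℝ} (hk : ∀ y, volume (M ∩ {x | inner ℝ u x ≤ y + k}) =
      volume (K ∩ {x | inner ℝ u x ≤ y})) :
    ∫ x in M, inner ℝ u x = (∫ x in K, inner ℝ u x) + k * vol K := by
  have hm : Measurable fun x : V => inner ℝ u x := by (clear K M hK hM k hk; fun_prop)
  have : IsFiniteMeasure (volume.restrict K) := ⟨by simpa only [MeasurableSet.univ, Measure.restrict_apply, univ_inter] using hK.compact.measure_lt_top⟩
  have : IsFiniteMeasure (volume.restrict M) := ⟨by simpa only [MeasurableSet.univ, Measure.restrict_apply, univ_inter] using hM.compact.measure_lt_top⟩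
  have hI : ∀ A : Set V, IsBody A → Integrable (fun x : V => inner ℝ u x) (volume.restrict A) := by
    intro A hA
    have hc : ContinuousOn (fun x : V => inner ℝ u x) A := by fun_prop
    exact hc.integrableOn_compact hA.compact
  have hmap : (volume.restrict M).map (fun x => inner ℝ u x) =
      (volume.restrict K).map (fun x => inner ℝ u x + k) := by
    apply Measure.ext_of_Iic
    intro y
    rw [Measure.map_apply hm measurableSet_Iic, Measure.map_apply (hm.add_const k) measurableSet_Iic,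
      Measure.restrict_apply (hm measurableSet_Iic),
      Measure.restrict_apply ((hm.add_const k) measurableSet_Iic)]
    have h3 := hk (y - k)
    rw [sub_add_cancel] at h3
    have e1 : (fun x : V => inner ℝ u x) ⁻¹' Iic y ∩ M = M ∩ {x | inner ℝ u x ≤ y} := by
      rw [inter_comm]; rfl
    have e2 : (fun x : V => inner ℝ u x + k) ⁻¹' Iic y ∩ K = K ∩ {x | inner ℝ u x ≤ y - k} := by
      rw [inter_comm]
      congr 1
      ext x
      simp only [mem_preimage, Set.mem_Iic, mem_ofPred_eq]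
      constructor <;> intro h <;> linarith only [h]
    rw [e1, e2, h3]
  have h2 : ∫ x in M, inner ℝ u x = ∫ y, y ∂((volume.restrict M).map (fun x => inner ℝ u x)) :=
    (integral_map (f := fun y : ℝ => y) hm.aemeasurable
      measurable_id.aestronglyMeasurable).symm
  have h3 : ∫ x in K, (inner ℝ u x + k) =
      ∫ y, y ∂((volume.restrict K).map (fun x => inner ℝ u x + k)) :=
    (integral_map (f := fun y : ℝ => y) (hm.add_const k).aemeasurable
      measurable_id.aestronglyMeasurable).symm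
  rw [h2, hmap, ← h3, integral_add (hI K hK) (integrable_const _)]
  simp only [integral_const, smul_eq_mul]
  rw [vol, Measure.real, Measure.restrict_apply_univ, mul_comm]

theorem sub_mem {K M : Set V} (hK : IsBody K) (hM : IsBody M) (h1 : volume K = volume M)
    (h2 : volume ((2⁻¹ : ℝ) • (K + M)) ≤ volume K) {x : V} (hx : x ∈ M) :
    x - (vol K)⁻¹ • ((∫ y in M, y) - ∫ y in K, y) ∈ K := by
  set c : V := (vol K)⁻¹ • ((∫ y in M, y) - ∫ y in K, y) with hc
  have hV : 0 < vol K := by
    apply ENNReal.toReal_pos _ hK.compact.measure_lt_top.ne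
    exact (lt_of_lt_of_le (isOpen_interior.measure_pos volume hK.int)
      (measure_mono interior_subset)).ne'
  by_contra hcon
  obtain ⟨f, r, hf1, hf2⟩ := geometric_hahn_banach_closed_point hK.convex hK.compact.isClosed hcon
  set w : V := (InnerProductSpace.toDual ℝ V).symm f with hw
  have hfw : ∀ z, f z = inner ℝ w z := by
    intro z
    rw [hw, InnerProductSpace.toDual_symm_apply]
  obtain ⟨p, hp⟩ := hK.int
  have hpK := interior_subset hp
  have hw0 : w ≠ 0 := by
    intro h0
    have h3 := hf1 p hpK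
    rw [hfw, h0, inner_zero_left] at h3
    rw [hfw, h0, inner_zero_left] at hf2
    linarith only [hf2, h3]
  have hwn : 0 < ‖w‖ := norm_pos_iff.mpr hw0
  set u : V := ‖w‖⁻¹ • w with hu
  have hu1 : ‖u‖ = 1 := by
    rw [hu, norm_smul, norm_inv, norm_norm, inv_mul_cancel₀ hwn.ne']
  have hfu : ∀ z, inner ℝ u z = ‖w‖⁻¹ * f z := by
    intro z
    rw [hu, real_inner_smul_left, hfw]
  obtain ⟨k, hk⟩ := dir_shift hK hM h1 h2 hu1
  have hI := integral_shift hK hM hk
  have hidn : ∀ A : Set V, IsBody A → ∫ y in A, inner ℝ u y = inner ℝ u (∫ y in A, y) := by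
    intro A hA
    have hi : Integrable (fun y : V => y) (volume.restrict A) :=
      (continuous_id.continuousOn).integrableOn_compact hA.compact
    exact integral_inner hi u
  have hkc : k = inner ℝ u c := by
    rw [hidn M hM, hidn K hK] at hI
    rw [hc, real_inner_smul_right, inner_sub_right, hI]
    field_simp
    ring
  set t : ℝ := ‖w‖⁻¹ * r with ht
  have ht1 : ∀ z ∈ K, inner ℝ u z ≤ t := by
    intro z hz
    rw [hfu, ht]
    exact mul_le_mul_of_nonneg_left (hf1 z hz).le (by positivity)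
  have ht2 : t + k < inner ℝ u x := by
    have h3 : t < inner ℝ u (x - c) := by
      rw [hfu, ht]
      exact mul_lt_mul_of_pos_left hf2 (by positivity)
    rw [inner_sub_right, ← hkc] at h3
    linarith only [h3]
  have h3 : volume (M ∩ {x | inner ℝ u x ≤ t + k}) = volume M := by
    rw [hk t, ← h1]
    congr 1
    ext z
    constructor
    · exact fun h => h.1
    · exact fun h => ⟨h, ht1 z h⟩
  -- the complementary part is null
  have hcl : IsClosed {x : V | inner ℝ u x ≤ t + k} := isClosed_le (by fun_prop) continuous_const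
  have h4 : volume (M \ {x | inner ℝ u x ≤ t + k}) = 0 := by
    have h5 := measure_inter_add_sdiff (μ := volume) M hcl.measurableSet
    rw [h3] at h5
    have h6 : volume M + volume (M \ {x | inner ℝ u x ≤ t + k}) = volume M + 0 := by
      rw [add_zero]; exact h5
    exact (ENNReal.add_right_inj hM.compact.measure_lt_top.ne).mp h6
  have h5 : x ∈ closure (interior M) := by
    rw [hM.convex.closure_interior_eq_closure_of_nonempty_interior hM.int]
    exact subset_closure hx
  have h6 : ({x : V | inner ℝ u x ≤ t + k}ᶜ ∩ interior M).Nonempty := by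
    apply mem_closure_iff.mp h5 _ hcl.isOpen_compl
    intro h7
    have h8 : inner ℝ u x ≤ t + k := h7
    linarith only [ht2, h8]
  have h7 := (hcl.isOpen_compl.inter isOpen_interior).measure_pos volume h6
  have h8 : volume ({x : V | inner ℝ u x ≤ t + k}ᶜ ∩ interior M) ≤
      volume (M \ {x | inner ℝ u x ≤ t + k}) := by
    apply measure_mono
    rintro z ⟨hz1, hz2⟩
    exact ⟨interior_subset hz2, hz1⟩
  rw [h4] at h8
  exact absurd h7 (not_lt.mpr h8)

end BMEq

theorem bm_equality {K M : Set V} (hK : IsBody K) (hM : IsBody M) (h1 : vol K = vol M)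
    (h2 : vol ((2⁻¹ : ℝ) • (K + M)) = vol K) : ∃ c : V, M = (fun x => c + x) '' K := by
  have hcE : IsCompact ((2⁻¹ : ℝ) • (K + M)) := (hK.compact.add hM.compact).smul _
  have h1' : volume K = volume M :=
    (ENNReal.toReal_eq_toReal_iff' hK.compact.measure_lt_top.ne hM.compact.measure_lt_top.ne).mp h1
  have h2' : volume ((2⁻¹ : ℝ) • (K + M)) = volume K :=
    (ENNReal.toReal_eq_toReal_iff' hcE.measure_lt_top.ne hK.compact.measure_lt_top.ne).mp h2
  set c : V := (vol K)⁻¹ • ((∫ y in M, y) - ∫ y in K, y) with hc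
  refine ⟨c, ?_⟩
  ext x
  constructor
  · intro hx
    refine ⟨x - c, BMEq.sub_mem hK hM h1' h2'.le hx, ?_⟩
    simp
  · rintro ⟨z, hz, rfl⟩
    have h3 := BMEq.sub_mem hM hK h1'.symm (by rw [add_comm M K, h2', h1']) hz
    have h4 : z - (vol M)⁻¹ • ((∫ y in K, y) - ∫ y in M, y) = c + z := by
      rw [← h1, hc, ← neg_sub (∫ y in M, y) (∫ y in K, y), smul_neg, sub_neg_eq_add, add_comm]
    rwa [h4] at h3

end Vale.Agent.P237
end

section

open MeasureTheory Metric Set Module
open scoped Pointwise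

namespace Vale.Agent.P237

variable {V : Type*} [NormedAddCommGroup V] [InnerProductSpace ℝ V] [FiniteDimensional ℝ V]
  [MeasurableSpace V] [BorelSpace V]

private lemma mx_vol_translate (a : V) (K : Set V) : vol ((fun x => a + x) '' K) = vol K := by
  unfold vol
  rw [image_add_left, measure_preimage_add]

omit [FiniteDimensional ℝ V] [MeasurableSpace V] [BorelSpace V] in
private lemma mx_smul_half_segment (t : ℝ) (v : V) :
    t • segment ℝ (-(2⁻¹ : ℝ) • v) ((2⁻¹ : ℝ) • v) =
      (fun x => (-(t / 2)) • v + x) '' segment ℝ 0 (t • v) := by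
  have h1 : t • segment ℝ (-(2⁻¹ : ℝ) • v) ((2⁻¹ : ℝ) • v) =
      segment ℝ (t • (-(2⁻¹ : ℝ) • v)) (t • ((2⁻¹ : ℝ) • v)) := by
    have := image_segment ℝ (LinearMap.lsmul ℝ V t).toAffineMap (-(2⁻¹ : ℝ) • v) ((2⁻¹ : ℝ) • v)
    exact this
  have h2 : (fun x => (-(t / 2)) • v + x) '' segment ℝ 0 (t • v) =
      segment ℝ ((-(t / 2)) • v + 0) ((-(t / 2)) • v + t • v) :=
    segment_translate_image ℝ _ _ _
  rw [h1, h2]
  congr 1
  · module
  · module

/-- Adding a symmetric segment increases the volume by `β`. -/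
private lemma mx_vol_add_half_segment (K : Set V) (t : ℝ) (v : V) :
    vol (K + t • segment ℝ (-(2⁻¹ : ℝ) • v) ((2⁻¹ : ℝ) • v)) = vol K + beta K (t • v) := by
  rw [mx_smul_half_segment]
  have : K + (fun x => (-(t / 2)) • v + x) '' segment ℝ 0 (t • v) =
      (fun x => (-(t / 2)) • v + x) '' (K + segment ℝ 0 (t • v)) := by
    ext x
    constructor
    · rintro ⟨k, hk, _, ⟨s, hs, rfl⟩, rfl⟩
      exact ⟨k + s, ⟨k, hk, s, hs, rfl⟩, by simp only; abel⟩
    · rintro ⟨_, ⟨k, hk, s, hs, rfl⟩, rfl⟩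
      exact ⟨k, hk, _, ⟨s, hs, rfl⟩, by simp only; abel⟩
  rw [this, mx_vol_translate]
  unfold beta
  ring

/-- The zonotope of a partial family. -/
private def mxZ {ι : Type*} (v : ι → V) (s : Finset ι) : Set V :=
  ∑ j ∈ s, segment ℝ (-(2⁻¹ : ℝ) • v j) ((2⁻¹ : ℝ) • v j)

omit [InnerProductSpace ℝ V] [FiniteDimensional ℝ V] [MeasurableSpace V] [BorelSpace V] in
private lemma mx_isCompact_sum [NormedSpace ℝ V] {ι : Type*} (S : ι → Set V) (s : Finset ι)
    (h : ∀ i, IsCompact (S i)) : IsCompact (∑ j ∈ s, S j) := by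
  classical
  induction s using Finset.induction_on with
  | empty => simp only [Finset.sum_empty]; exact isCompact_singleton
  | insert a s ha ih => rw [Finset.sum_insert ha]; exact (h a).add ih

omit [InnerProductSpace ℝ V] [FiniteDimensional ℝ V] [MeasurableSpace V] [BorelSpace V] in
private lemma mx_convex_sum [NormedSpace ℝ V] {ι : Type*} (S : ι → Set V) (s : Finset ι)
    (h : ∀ i, Convex ℝ (S i)) : Convex ℝ (∑ j ∈ s, S j) := by
  classical
  induction s using Finset.induction_on with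
  | empty => simp only [Finset.sum_empty]; exact convex_singleton 0
  | insert a s ha ih => rw [Finset.sum_insert ha]; exact (h a).add ih

omit [FiniteDimensional ℝ V] [MeasurableSpace V] [BorelSpace V] in
private lemma mx_segment_compact (a b : V) : IsCompact (segment ℝ a b) := by
  rw [segment_eq_image]
  exact isCompact_Icc.image (by fun_prop)

omit [FiniteDimensional ℝ V] [MeasurableSpace V] [BorelSpace V] in
private lemma mx_norm_le {ι : Type*} (v : ι → V) (s : Finset ι) (z : V) (hz : z ∈ mxZ v s) :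
    ‖z‖ ≤ ∑ j ∈ s, ‖v j‖ := by
  classical
  unfold mxZ at hz
  induction s using Finset.induction_on generalizing z with
  | empty =>
    simp only [Finset.sum_empty] at hz
    have : z = 0 := hz
    simp [this]
  | insert a s ha ih =>
    rw [Finset.sum_insert ha] at hz
    obtain ⟨x, hx, y, hy, rfl⟩ := hz
    rw [Finset.sum_insert ha]
    refine (norm_add_le _ _).trans (add_le_add ?_ (ih y hy))
    have h1 : segment ℝ (-(2⁻¹ : ℝ) • v a) ((2⁻¹ : ℝ) • v a) ⊆ closedBall (0 : V) ‖v a‖ := by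
      refine (convex_closedBall (0 : V) ‖v a‖).segment_subset ?_ ?_
      · rw [mem_closedBall_zero_iff, norm_smul, norm_neg, Real.norm_of_nonneg (by norm_num)]
        have := norm_nonneg (v a)
        linarith
      · rw [mem_closedBall_zero_iff, norm_smul, Real.norm_of_nonneg (by norm_num)]
        have := norm_nonneg (v a)
        linarith
    exact mem_closedBall_zero_iff.1 (h1 hx)

theorem zonotope_bound {K : Set V} (hK : IsBody K) {r : ℝ} (hr : 0 < r)
    (hr' : closedBall (0 : V) r ⊆ K) {m : ℕ} (v : Fin m → V) {t : ℝ} (ht : 0 ≤ t) :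
    vol (K + t • ∑ j, segment ℝ (-(2⁻¹ : ℝ) • v j) ((2⁻¹ : ℝ) • v j)) ≤
      vol K + t * (1 + t * (∑ j, ‖v j‖) / r) ^ (finrank ℝ V - 1) * ∑ j, beta K (v j) := by
  classical
  set L : ℝ := ∑ j, ‖v j‖ with hL
  have hL0 : 0 ≤ L := Finset.sum_nonneg fun j _ => norm_nonneg _
  set c : ℝ := 1 + t * L / r with hc
  have hc0 : 0 < c := by (clear * - ht hr; positivity)
  have key : ∀ s : Finset (Fin m), vol (K + t • mxZ v s) ≤
      vol K + t * c ^ (finrank ℝ V - 1) * ∑ j ∈ s, beta K (v j) := by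
    intro s
    induction s using Finset.induction_on with
    | empty =>
      have : t • mxZ v ∅ = {0} := by
        unfold mxZ
        simp only [Finset.sum_empty]
        change t • ({0} : Set V) = {0}
        simp
      rw [this]
      simp only [add_singleton, add_zero, image_id', Finset.sum_empty, mul_zero, Std.le_refl]
    | insert a s ha ih =>
      have hZc : IsCompact (mxZ v s) := mx_isCompact_sum _ s fun j => mx_segment_compact _ _
      have hZv : Convex ℝ (mxZ v s) := mx_convex_sum _ s fun j => convex_segment _ _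
      have hK'c : IsCompact (K + t • mxZ v s) := hK.compact.add (hZc.smul t)
      have hK'v : Convex ℝ (K + t • mxZ v s) := hK.convex.add (hZv.smul t)
      have e1 : K + t • mxZ v (insert a s) =
          (K + t • mxZ v s) + t • segment ℝ (-(2⁻¹ : ℝ) • v a) ((2⁻¹ : ℝ) • v a) := by
        unfold mxZ
        rw [Finset.sum_insert ha, smul_add, add_comm (t • segment ℝ _ _), add_assoc]
      rw [e1, mx_vol_add_half_segment, beta_smul hK'c hK'v, abs_of_nonneg ht,
        Finset.sum_insert ha]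
      have h1 : K + t • mxZ v s ⊆ c • K := by
        rintro _ ⟨x, hx, _, ⟨z, hz, rfl⟩, rfl⟩
        have hzn : ‖z‖ ≤ L := (mx_norm_le v s z hz).trans
          (Finset.sum_le_sum_of_subset_of_nonneg (Finset.subset_univ s)
            fun j _ _ => norm_nonneg _)
        rw [hc, hK.convex.add_smul zero_le_one (by (clear * - ht hr; positivity)), one_smul]
        refine ⟨x, hx, t • z, ?_, rfl⟩
        rcases eq_or_lt_of_le ht with rfl | ht'
        · refine ⟨x, hx, ?_⟩
          simp
        rcases eq_or_lt_of_le hL0 with hL1 | hL1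
        · have : z = 0 := by
            rw [← norm_le_zero_iff]
            rw [← hL1] at hzn
            exact hzn
          refine ⟨x, hx, ?_⟩
          simp only [← hL1, mul_zero, zero_div, zero_smul, this, smul_zero]
        · refine ⟨(r / L) • z, hr' ?_, ?_⟩
          · rw [mem_closedBall_zero_iff, norm_smul, Real.norm_of_nonneg (by (clear * - hr hL1; positivity))]
            calc r / L * ‖z‖ ≤ r / L * L := by (clear * - hzn hr hL1; gcongr)
              _ = r := by (clear * - hL1 hr; field_simp)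
          · simp only [smul_smul]
            congr 1
            (clear * - hL1 hr ht'; field_simp)
      have h2 : beta (K + t • mxZ v s) (v a) ≤ c ^ (finrank ℝ V - 1) * beta K (v a) := by
        rw [← beta_smul_set hK.compact hK.convex hc0]
        exact beta_mono hK'c hK'v (hK.compact.smul c) (hK.convex.smul c) h1 _
      have h3 := mul_le_mul_of_nonneg_left h2 ht
      nlinarith [ih, h3]
  exact key Finset.univ


omit [FiniteDimensional ℝ V] [MeasurableSpace V] [BorelSpace V] in
private lemma mx_le_supp {N : Set V} (hN : IsCompact N) {x : V} (hx : x ∈ N) (v : V) :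
    inner ℝ x v ≤ supp N v := by
  refine le_csSup ?_ ⟨x, hx, rfl⟩
  exact (hN.image (by fun_prop)).bddAbove

omit [FiniteDimensional ℝ V] [MeasurableSpace V] [BorelSpace V] in
private lemma mx_zero_mem_interior {N : Set V} (hN : IsSymBody N) : (0 : V) ∈ interior N := by
  obtain ⟨x, hx⟩ := hN.int
  have h1 : -x ∈ interior N := by
    have h2 : -N = N := by
      ext y
      constructor
      · intro hy
        have := hN.symm _ hy
        rwa [neg_neg] at this
      · intro hy
        exact hN.symm _ hy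
    have h3 : interior N = -interior N := by
      conv_lhs => rw [← h2]
      exact ((Homeomorph.neg V).preimage_interior N).symm
    rw [h3]
    simpa using hx
  have h2 := hN.convex.interior hx h1 (by norm_num : (0 : ℝ) ≤ 1 / 2)
    (by norm_num : (0 : ℝ) ≤ 1 / 2) (by norm_num)
  have h3 : (1 / 2 : ℝ) • x + (1 / 2 : ℝ) • -x = 0 := by module
  rwa [h3] at h2

omit [InnerProductSpace ℝ V] [FiniteDimensional ℝ V] [MeasurableSpace V] [BorelSpace V] in
private lemma mx_exists_ball {N : Set V} (h : (0 : V) ∈ interior N) :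
    ∃ ρ : ℝ, 0 < ρ ∧ closedBall (0 : V) ρ ⊆ N :=
  Metric.nhds_basis_closedBall.mem_iff.1 (mem_interior_iff_mem_nhds.1 h)

omit [FiniteDimensional ℝ V] [MeasurableSpace V] [BorelSpace V] in
private lemma mx_supp_ge {N : Set V} (hN : IsCompact N) {ρ : ℝ} (hρ : 0 < ρ)
    (h : closedBall (0 : V) ρ ⊆ N) (v : V) : ρ * ‖v‖ ≤ supp N v := by
  rcases eq_or_ne v 0 with rfl | hv
  · have := mx_le_supp hN (h (mem_closedBall_self hρ.le)) (0 : V)
    simpa only [norm_zero, mul_zero, ge_iff_le, inner_self_eq_norm_sq_to_K, Real.ringHom_apply, ne_eq,     OfNat.ofNat_ne_zero, not_false_eq_true, zero_pow] using this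
  · have hv' : 0 < ‖v‖ := norm_pos_iff.2 hv
    have hx : (ρ / ‖v‖) • v ∈ N := by
      apply h
      rw [mem_closedBall_zero_iff, norm_smul, Real.norm_of_nonneg (by positivity)]
      have : ρ / ‖v‖ * ‖v‖ = ρ := by field_simp
      rw [this]
    have := mx_le_supp hN hx v
    rw [real_inner_smul_left, real_inner_self_eq_norm_sq] at this
    have h2 : ρ / ‖v‖ * ‖v‖ ^ 2 = ρ * ‖v‖ := by field_simp
    rwa [h2] at this

omit [FiniteDimensional ℝ V] [MeasurableSpace V] [BorelSpace V] in
/-- A point of the zonotope with extremal inner product. -/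
private lemma mx_exists_zono {m : ℕ} (v : Fin m → V) (u : V) :
    ∃ z ∈ ∑ j, segment ℝ (-(2⁻¹ : ℝ) • v j) ((2⁻¹ : ℝ) • v j),
      inner ℝ z u = 2⁻¹ * ∑ j, |inner ℝ (v j) u| := by
  have h : ∀ j, ∃ z ∈ segment ℝ (-(2⁻¹ : ℝ) • v j) ((2⁻¹ : ℝ) • v j),
      inner ℝ z u = 2⁻¹ * |inner ℝ (v j) u| := by
    intro j
    rcases le_total 0 (inner ℝ (v j) u) with h | h
    · exact ⟨_, right_mem_segment _ _ _, by rw [real_inner_smul_left, abs_of_nonneg h]⟩
    · exact ⟨_, left_mem_segment _ _ _, by rw [real_inner_smul_left, abs_of_nonpos h]; ring⟩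
  choose z hz hz' using h
  refine ⟨∑ j, z j, Set.finsetSum_mem_finsetSum _ _ _ fun j _ => hz j, ?_⟩
  rw [sum_inner, Finset.mul_sum]
  exact Finset.sum_congr rfl fun j _ => hz' j

/-- `mixed_bound`, given the approximation of `N` by zonotopes. -/
theorem mixed_bound_of_approx {K N M : Set V} (hK : IsBody K) (h0 : (0 : V) ∈ interior K)
    (hN : IsSymBody N) (hM : IsCompact M)
    (zonotope_approx : ∀ ε : ℝ, 0 < ε → ε < 1 → ∃ (m : ℕ) (v : Fin m → V),
      (∀ u : V, (1 - ε) * beta N u ≤ 2⁻¹ * ∑ j, |inner ℝ (v j) u|) ∧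
      ∑ j, supp N (v j) ≤ (1 + ε) * (finrank ℝ V * vol N))
    (h1 : ∀ v, beta K v ≤ supp N v) (h2 : ∀ v, supp M v ≤ beta N v) :
    ∃ C : ℝ, 0 ≤ C ∧ ∀ t : ℝ, 0 ≤ t → vol (K + t • M) ≤
      vol K + t * (1 + t * C) ^ (finrank ℝ V - 1) * (finrank ℝ V * vol N) := by
  obtain ⟨r, hr, hrK⟩ := mx_exists_ball h0
  obtain ⟨ρ, hρ, hρN⟩ := mx_exists_ball (mx_zero_mem_interior hN)
  set D : ℝ := finrank ℝ V * vol N with hD
  have hD0 : 0 ≤ D := mul_nonneg (Nat.cast_nonneg _) ENNReal.toReal_nonneg
  refine ⟨D / ρ / r, by (clear * - hD0 hρ hr; positivity), fun t ht => ?_⟩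
  have key : ∀ ε : ℝ, 0 < ε → ε < 1 → vol (K + t • M) ≤ vol K + t / (1 - ε) *
      (1 + t / (1 - ε) * (((1 + ε) * D) / ρ) / r) ^ (finrank ℝ V - 1) * ((1 + ε) * D) := by
    intro ε hε hε1
    have hε' : 0 < 1 - ε := by linarith only [hε1]
    obtain ⟨m, v, hv1, hv2⟩ := zonotope_approx ε hε hε1
    set Z : Set V := ∑ j, segment ℝ (-(2⁻¹ : ℝ) • v j) ((2⁻¹ : ℝ) • v j) with hZ
    have hZc : IsCompact Z := mx_isCompact_sum _ _ fun j => mx_segment_compact _ _
    have hZv : Convex ℝ Z := mx_convex_sum _ _ fun j => convex_segment _ _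
    have hMZ : ∀ x ∈ M, (1 - ε) • x ∈ Z := by
      intro x hx
      by_contra hxZ
      obtain ⟨f, s, hf1, hf2⟩ := geometric_hahn_banach_closed_point hZv hZc.isClosed hxZ
      set u : V := (InnerProductSpace.toDual ℝ V).symm f with hu
      have hfu : ∀ y, f y = inner ℝ y u := by
        intro y
        rw [real_inner_comm, hu, InnerProductSpace.toDual_symm_apply]
      obtain ⟨z, hz, hz'⟩ := mx_exists_zono v u
      have h3 := hf1 z hz
      rw [hfu, hz'] at h3
      rw [hfu, real_inner_smul_left] at hf2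
      have h4 := hv1 u
      have h5 := mx_le_supp hM hx u
      have h6 := h2 u
      have h7 : (1 - ε) * inner ℝ x u ≤ (1 - ε) * beta N u :=
        mul_le_mul_of_nonneg_left (h5.trans h6) hε'.le
      (clear K hK h0 hN h1 r hr hrK ρ hρ hρN D zonotope_approx hD hD0 t ht hε hv2 Z hZ hZc hZv hxZ hf1 hu hfu z hz hz'; linarith)
    have hsub : K + t • M ⊆ K + (t / (1 - ε)) • Z := by
      refine add_subset_add_left ?_
      rintro _ ⟨x, hx, rfl⟩
      refine ⟨(1 - ε) • x, hMZ x hx, ?_⟩
      simp only [smul_smul]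
      congr 1
      (clear * - hε'; field_simp)
    have hfin : volume (K + (t / (1 - ε)) • Z) ≠ ⊤ :=
      (hK.compact.add (hZc.smul _)).measure_lt_top.ne
    have hle : vol (K + t • M) ≤ vol (K + (t / (1 - ε)) • Z) :=
      ENNReal.toReal_mono hfin (measure_mono hsub)
    have ht' : 0 ≤ t / (1 - ε) := div_nonneg ht hε'.le
    have hzb := zonotope_bound hK hr hrK v ht'
    refine hle.trans (hzb.trans ?_)
    have hb0 : ∀ j, 0 ≤ beta K (v j) := fun j => beta_nonneg hK.compact hK.convex _
    have hsum : ∑ j, beta K (v j) ≤ (1 + ε) * D :=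
      (Finset.sum_le_sum fun j _ => h1 (v j)).trans hv2
    have hsum0 : 0 ≤ ∑ j, beta K (v j) := Finset.sum_nonneg fun j _ => hb0 j
    have hL : ∑ j, ‖v j‖ ≤ ((1 + ε) * D) / ρ := by
      rw [le_div_iff₀ hρ, mul_comm, Finset.mul_sum]
      exact (Finset.sum_le_sum fun j _ => mx_supp_ge hN.compact hρ hρN (v j)).trans hv2
    have hL0 : 0 ≤ ∑ j, ‖v j‖ := Finset.sum_nonneg fun j _ => norm_nonneg _
    (clear M h0 hM h2 hrK zonotope_approx hD hε' hv1 Z hZ hZc hZv hMZ hsub hfin hle ht' hzb hL0; gcongr)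
  have hlim : Filter.Tendsto (fun ε : ℝ => vol K + t / (1 - ε) *
      (1 + t / (1 - ε) * (((1 + ε) * D) / ρ) / r) ^ (finrank ℝ V - 1) * ((1 + ε) * D))
      (nhdsWithin 0 (Ioi 0)) (nhds (vol K + t / (1 - 0) *
      (1 + t / (1 - 0) * (((1 + 0) * D) / ρ) / r) ^ (finrank ℝ V - 1) * ((1 + 0) * D))) := by
    refine Filter.Tendsto.mono_left ?_ nhdsWithin_le_nhds
    refine ContinuousAt.tendsto (f := fun ε : ℝ => vol K + t / (1 - ε) *
      (1 + t / (1 - ε) * (((1 + ε) * D) / ρ) / r) ^ (finrank ℝ V - 1) * ((1 + ε) * D)) ?_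
    have h3 : ContinuousAt (fun ε : ℝ => t / (1 - ε)) 0 :=
      ContinuousAt.div continuousAt_const (continuousAt_const.sub continuousAt_id) (by norm_num)
    (clear M hK h0 hN hM h1 h2 hr hrK hρ hρN zonotope_approx hD hD0 ht key h3; fun_prop (disch := norm_num))
  have hfinal := ge_of_tendsto hlim (by
    filter_upwards [Ioo_mem_nhdsGT (zero_lt_one (α := ℝ))] with ε hε
    exact key ε hε.1 hε.2)
  refine hfinal.trans (le_of_eq ?_)
  simp only [sub_zero, div_one, add_zero, one_mul]
  congr 4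
  ring

end Vale.Agent.P237
end
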