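import Vale.Agent.P237.Bdl.B1

section

/-!
Task P237-D2: approximation of the surface area measure by finitely many vectors, by duality:
if a zonotope `Z = ∑ mᵢ [-uᵢ/2, uᵢ/2]` is contained in `N`, then `∑ mᵢ β_N(uᵢ) ≤ d vol N`.
-/

open MeasureTheory Metric Set Module
open scoped Pointwise

namespace Vale.Agent.P237


variable {V : Type*} [NormedAddCommGroup V] [InnerProductSpace ℝ V] [FiniteDimensional ℝ V]
  [MeasurableSpace V] [BorelSpace V]

namespace ZA

omit [FiniteDimensional ℝ V] [MeasurableSpace V] [BorelSpace V] in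
lemma isCompact_seg (x y : V) : IsCompact (segment ℝ x y) := by
  rw [segment_eq_image]
  exact isCompact_Icc.image (by fun_prop)

omit [FiniteDimensional ℝ V] [MeasurableSpace V] [BorelSpace V] in
lemma bddAbove_supp {N : Set V} (hN : IsCompact N) (v : V) :
    BddAbove ((fun x => inner ℝ x v) '' N) :=
  (hN.image (by fun_prop)).bddAbove

omit [FiniteDimensional ℝ V] [MeasurableSpace V] [BorelSpace V] in
lemma le_supp {N : Set V} (hN : IsCompact N) {x : V} (hx : x ∈ N) (v : V) :
    inner ℝ x v ≤ supp N v :=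
  le_csSup (bddAbove_supp hN v) ⟨x, hx, rfl⟩

omit [FiniteDimensional ℝ V] [MeasurableSpace V] [BorelSpace V] in
lemma supp_le {N : Set V} (hne : N.Nonempty) {v : V} {c : ℝ} (h : ∀ x ∈ N, inner ℝ x v ≤ c) :
    supp N v ≤ c := by
  apply csSup_le (hne.image _)
  rintro _ ⟨x, hx, rfl⟩
  exact h x hx

omit [FiniteDimensional ℝ V] [MeasurableSpace V] [BorelSpace V] in
lemma supp_smul {N : Set V} (hN : IsCompact N) (hne : N.Nonempty) {t : ℝ} (ht : 0 ≤ t) (v : V) :
    supp N (t • v) = t * supp N v := by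
  apply le_antisymm
  · refine supp_le hne fun x hx => ?_
    rw [inner_smul_right]
    exact mul_le_mul_of_nonneg_left (le_supp hN hx v) ht
  · rcases ht.eq_or_lt with rfl | ht
    · obtain ⟨x, hx⟩ := hne
      have h := le_supp hN hx ((0 : ℝ) • v)
      simpa only [zero_mul, zero_smul, ge_iff_le, inner_zero_right] using h
    · have h : supp N v ≤ t⁻¹ * supp N (t • v) := by
        refine supp_le hne fun x hx => ?_
        have h1 := le_supp hN hx (t • v)
        rw [inner_smul_right] at h1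
        rw [inv_mul_eq_div, le_div_iff₀ ht]
        linarith
      calc t * supp N v ≤ t * (t⁻¹ * supp N (t • v)) := mul_le_mul_of_nonneg_left h ht.le
        _ = supp N (t • v) := by field_simp

omit [MeasurableSpace V] [BorelSpace V] in
lemma mem_of_supp {N : Set V} (hN : IsCompact N) (hc : Convex ℝ N) (hne : N.Nonempty) {z : V}
    (h : ∀ v, inner ℝ z v ≤ supp N v) : z ∈ N := by
  by_contra hz
  obtain ⟨f, c, h1, h2⟩ := geometric_hahn_banach_closed_point hc hN.isClosed hz
  set w := (InnerProductSpace.toDual ℝ V).symm f with hw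
  have hf : ∀ x, f x = inner ℝ x w := fun x => by
    rw [real_inner_comm, hw, InnerProductSpace.toDual_symm_apply]
  have h3 : supp N w ≤ c := supp_le hne fun x hx => by
    rw [← hf]
    exact (h1 x hx).le
  have h4 := h w
  rw [← hf] at h4
  linarith

omit [FiniteDimensional ℝ V] [MeasurableSpace V] [BorelSpace V] in
lemma zero_mem {N : Set V} (hN : IsSymBody N) : (0 : V) ∈ N := by
  obtain ⟨x, hx⟩ := hN.int
  have hx' := interior_subset hx
  have h := hN.convex hx' (hN.symm x hx') (show (0 : ℝ) ≤ 1 / 2 by norm_num)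
    (show (0 : ℝ) ≤ 1 / 2 by norm_num) (by norm_num)
  simpa using h

omit [FiniteDimensional ℝ V] [MeasurableSpace V] [BorelSpace V] in
lemma ball_subset {N : Set V} (hN : IsSymBody N) : ∃ ρ > 0, closedBall (0 : V) ρ ⊆ N := by
  obtain ⟨x, hx⟩ := hN.int
  obtain ⟨r, hr, hb⟩ := Metric.mem_nhds_iff.1 (mem_interior_iff_mem_nhds.1 hx)
  refine ⟨r / 2, by positivity, fun y hy => ?_⟩
  rw [mem_closedBall_zero_iff] at hy
  have h1 : x + y ∈ N := hb (by rw [mem_ball_iff_norm]; simp; linarith only [hr, hy])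
  have h2 : x - y ∈ N := hb (by rw [mem_ball_iff_norm]; simp; linarith only [hr, hy])
  have h3 := hN.convex h1 (hN.symm _ h2) (show (0 : ℝ) ≤ 1 / 2 by norm_num)
    (show (0 : ℝ) ≤ 1 / 2 by norm_num) (by norm_num)
  have h4 : (1 / 2 : ℝ) • (x + y) + (1 / 2 : ℝ) • -(x - y) = y := by
    module
  rwa [h4] at h3

omit [FiniteDimensional ℝ V] [MeasurableSpace V] [BorelSpace V] in
lemma supp_ge {N : Set V} (hN : IsCompact N) {ρ : ℝ} (hρ : 0 < ρ)
    (hb : closedBall (0 : V) ρ ⊆ N) (v : V) : ρ * ‖v‖ ≤ supp N v := by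
  rcases eq_or_ne v 0 with rfl | hv
  · have h := le_supp hN (hb (mem_closedBall_self hρ.le)) (0 : V)
    simpa only [norm_zero, mul_zero, ge_iff_le, inner_self_eq_norm_sq_to_K, Real.ringHom_apply, ne_eq,     OfNat.ofNat_ne_zero, not_false_eq_true, zero_pow] using h
  · have hv' : 0 < ‖v‖ := norm_pos_iff.2 hv
    have hx : (ρ / ‖v‖) • v ∈ N := hb (by
      rw [mem_closedBall_zero_iff, norm_smul, Real.norm_eq_abs, abs_of_pos (by positivity)]
      rw [div_mul_cancel₀ _ hv'.ne'])
    have h := le_supp hN hx v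
    rw [real_inner_smul_left, real_inner_self_eq_norm_sq] at h
    calc ρ * ‖v‖ = ρ / ‖v‖ * ‖v‖ ^ 2 := by field_simp
      _ ≤ _ := h

lemma vol_pos {N : Set V} (hN : IsBody N) : 0 < vol N := by
  unfold vol
  refine ENNReal.toReal_pos ?_ hN.compact.measure_lt_top.ne
  exact (Measure.measure_pos_of_nonempty_interior _ hN.int).ne'

lemma vol_mono {A B : Set V} (hB : IsCompact B) (h : A ⊆ B) : vol A ≤ vol B :=
  ENNReal.toReal_mono hB.measure_lt_top.ne (measure_mono h)

lemma vol_smul {A : Set V} {r : ℝ} (hr : 0 ≤ r) : vol (r • A) = r ^ finrank ℝ V * vol A := by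
  unfold vol
  rw [Measure.addHaar_smul, ENNReal.toReal_mul, ENNReal.toReal_ofReal (abs_nonneg _),
    abs_of_nonneg (by positivity)]

lemma vol_translate (w : V) (A : Set V) : vol (w +ᵥ A) = vol A := by
  unfold vol
  rw [measure_vadd]

/-- The key inequality (a mixed volume inequality). -/
lemma sum_beta_le {ι : Type*} [Fintype ι] {N : Set V} (hN : IsSymBody N) (u : ι → V) (m : ι → ℝ)
    (hm : ∀ i, 0 ≤ m i) (h : ∀ v, 2⁻¹ * ∑ i, m i * |inner ℝ v (u i)| ≤ supp N v) :
    ∑ i, m i * beta N (u i) ≤ finrank ℝ V * vol N := by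
  classical
  have hcN := hN.convex
  have hkN := hN.compact
  have hneN : N.Nonempty := ⟨0, zero_mem hN⟩
  -- growth of the volume
  have key : ∀ t : ℝ, 0 < t → t * ∑ i, m i * beta N (u i) ≤
      ((1 + t) ^ finrank ℝ V - 1) * vol N := by
    intro t ht
    set F : Finset ι → Set V := fun s => N + ∑ i ∈ s, segment ℝ 0 ((t * m i) • u i) with hF
    have hFc : ∀ s, IsCompact (F s) ∧ Convex ℝ (F s) ∧ N ⊆ F s ∧
        vol N + t * ∑ i ∈ s, m i * beta N (u i) ≤ vol (F s) := by
      intro s
      induction s using Finset.induction_on with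
      | empty =>
        have h0 : F ∅ = N := by simp [hF]
        rw [h0]
        exact ⟨hkN, hcN, subset_rfl, by simp⟩
      | insert i s hi ih =>
        obtain ⟨h1, h2, h3, h4⟩ := ih
        have h5 : F (insert i s) = F s + segment ℝ 0 ((t * m i) • u i) := by
          simp only [hF]
          rw [Finset.sum_insert hi, add_assoc]
          congr 1
          exact add_comm _ _
        have h6 : beta N ((t * m i) • u i) ≤ beta (F s) ((t * m i) • u i) :=
          beta_mono hkN hcN h1 h2 h3 _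
        rw [beta_smul hkN hcN, abs_of_nonneg (mul_nonneg ht.le (hm i))] at h6
        have h7 : beta (F s) ((t * m i) • u i) = vol (F (insert i s)) - vol (F s) := by
          rw [h5]; rfl
        refine ⟨?_, ?_, ?_, ?_⟩
        · rw [h5]; exact h1.add (isCompact_seg _ _)
        · rw [h5]; exact h2.add (convex_segment _ _)
        · rw [h5]
          intro x hx
          exact ⟨x, h3 hx, 0, left_mem_segment ℝ _ _, add_zero x⟩
        · rw [Finset.sum_insert hi]
          rw [h7] at h6
          (clear hN hm h hcN hkN hneN ht hF hi h1 h2 h3 h5 h7; nlinarith [h6, h4])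
    obtain ⟨-, -, -, hlow⟩ := hFc Finset.univ
    set w : V := ∑ i, (t * m i / 2) • u i with hw
    have hsub : F Finset.univ ⊆ w +ᵥ ((1 + t) • N) := by
      rintro y ⟨x, hx, z', hz', rfl⟩
      rw [Set.mem_fintype_sum] at hz'
      obtain ⟨g, hg, rfl⟩ := hz'
      have hg' : ∀ i, ∃ s ∈ Icc (0 : ℝ) 1, g i = s • ((t * m i) • u i) := by
        intro i
        have h1 := hg i
        rw [segment_eq_image] at h1
        obtain ⟨s, hs, h2⟩ := h1
        exact ⟨s, hs, by rw [← h2]; simp⟩
      choose s hs hgs using hg'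
      set z : V := ∑ i, ((s i - 1 / 2) * m i) • u i with hz
      have hzN : z ∈ N := by
        refine mem_of_supp hkN hcN hneN fun v => le_trans ?_ (h v)
        rw [hz, sum_inner, Finset.mul_sum]
        refine Finset.sum_le_sum fun i _ => ?_
        rw [real_inner_smul_left, real_inner_comm]
        have h1 : |s i - 1 / 2| ≤ 1 / 2 := by
          rw [abs_le]
          constructor <;> linarith only [(hs i).1, (hs i).2]
        have h2 : (s i - 1 / 2) * inner ℝ v (u i) ≤ 1 / 2 * |inner ℝ v (u i)| := by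
          calc (s i - 1 / 2) * inner ℝ v (u i) ≤ |(s i - 1 / 2) * inner ℝ v (u i)| := le_abs_self _
            _ = |s i - 1 / 2| * |inner ℝ v (u i)| := abs_mul _ _
            _ ≤ _ := mul_le_mul_of_nonneg_right h1 (abs_nonneg _)
        have h3 := mul_le_mul_of_nonneg_left h2 (hm i)
        calc (s i - 1 / 2) * m i * inner ℝ v (u i)
            = m i * ((s i - 1 / 2) * inner ℝ v (u i)) := by ring
          _ ≤ m i * (1 / 2 * |inner ℝ v (u i)|) := h3
          _ = _ := by ring
      have hcomb : (1 / (1 + t)) • x + (t / (1 + t)) • z ∈ N :=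
        hcN hx hzN (by positivity) (by positivity) (by field_simp)
      refine ⟨(1 + t) • ((1 / (1 + t)) • x + (t / (1 + t)) • z), ⟨_, hcomb, rfl⟩, ?_⟩
      have h1 : (1 + t) • ((1 / (1 + t)) • x + (t / (1 + t)) • z) = x + t • z := by
        rw [smul_add, smul_smul, smul_smul]
        have h2 : (1 + t) * (1 / (1 + t)) = 1 := by field_simp
        have h3 : (1 + t) * (t / (1 + t)) = t := by field_simp
        rw [h2, h3, one_smul]
      show w + (1 + t) • ((1 / (1 + t)) • x + (t / (1 + t)) • z) = x + ∑ i, g i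
      rw [h1, hw, hz, Finset.smul_sum]
      have h4 : ∑ i, g i = ∑ i, (t * m i / 2) • u i + ∑ i, t • ((s i - 1 / 2) * m i) • u i := by
        rw [← Finset.sum_add_distrib]
        refine Finset.sum_congr rfl fun i _ => ?_
        rw [hgs i]
        module
      rw [h4]
      abel
    have hup : vol (F Finset.univ) ≤ (1 + t) ^ finrank ℝ V * vol N := by
      have h1 := vol_mono ((hkN.smul (1 + t)).vadd w) hsub
      rwa [vol_translate, vol_smul (by positivity)] at h1
    (clear hF hFc; linarith)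
  -- limit `t → 0`
  have hlim : ∀ t : ℝ, 0 < t → ∑ i, m i * beta N (u i) ≤
      finrank ℝ V * (1 + t) ^ (finrank ℝ V) * vol N := by
    intro t ht
    have h1 := key t ht
    have h2 : (1 + t) ^ finrank ℝ V - 1 ≤ t * (finrank ℝ V * (1 + t) ^ finrank ℝ V) := by
      have h3 := one_add_mul_le_pow (show (-2 : ℝ) ≤ -(t / (1 + t)) by
        have : t / (1 + t) ≤ 1 := by rw [div_le_one (by positivity)]; linarith
        linarith) (finrank ℝ V)
      have h4 : 1 + -(t / (1 + t)) = (1 + t)⁻¹ := by field_simp; ring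
      rw [h4, inv_pow] at h3
      have h5 : 0 < (1 + t) ^ finrank ℝ V := by positivity
      have h6 := mul_le_mul_of_nonneg_left h3 h5.le
      rw [mul_inv_cancel₀ h5.ne'] at h6
      have h7 : t / (1 + t) ≤ t := by
        rw [div_le_iff₀ (by positivity)]
        nlinarith only [ht]
      have h8 : (1 + t) ^ finrank ℝ V * (finrank ℝ V * (t / (1 + t))) ≤
          (1 + t) ^ finrank ℝ V * (finrank ℝ V * t) := by (clear * - h7 ht; gcongr)
      linarith
    have h3 : ((1 + t) ^ finrank ℝ V - 1) * vol N ≤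
        t * (finrank ℝ V * (1 + t) ^ finrank ℝ V) * vol N :=
      mul_le_mul_of_nonneg_right h2 (vol_pos hN.toIsBody).le
    have h4 := h1.trans h3
    have h5 : t * ∑ i, m i * beta N (u i) ≤ t * (finrank ℝ V * (1 + t) ^ (finrank ℝ V) * vol N) := by
      linarith
    exact le_of_mul_le_mul_left h5 ht
  have hcont : Filter.Tendsto (fun t : ℝ => (finrank ℝ V : ℝ) * (1 + t) ^ (finrank ℝ V) * vol N)
      (nhdsWithin 0 (Ioi 0)) (nhds ((finrank ℝ V : ℝ) * (1 + 0) ^ (finrank ℝ V) * vol N)) := by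
    apply Filter.Tendsto.mono_left _ nhdsWithin_le_nhds
    exact Continuous.tendsto (by fun_prop) 0
  have h1 := ge_of_tendsto hcont (Filter.eventually_of_mem self_mem_nhdsWithin fun t ht => hlim t ht)
  simpa only [ge_iff_le, add_zero, one_pow, mul_one] using h1

/-! ### duality -/

/-- The vector of data of a finite list of vectors. -/
noncomputable def dat {ι : Type*} (N : Set V) (u : ι → V) (L : List V) : (ι → ℝ) × ℝ :=
  (fun i => 2⁻¹ * (L.map fun v => |inner ℝ v (u i)|).sum, (L.map fun v => supp N v).sum)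

omit [FiniteDimensional ℝ V] [MeasurableSpace V] [BorelSpace V] in
lemma dat_append {ι : Type*} (N : Set V) (u : ι → V) (L L' : List V) :
    dat N u (L ++ L') = dat N u L + dat N u L' := by
  simp only [dat, List.map_append, List.sum_append, Prod.mk_add_mk, Prod.mk.injEq, and_true]
  funext i
  simp [mul_add]

omit [FiniteDimensional ℝ V] [MeasurableSpace V] [BorelSpace V] in
lemma dat_smul {ι : Type*} {N : Set V} (hN : IsCompact N) (hne : N.Nonempty) (u : ι → V)
    (L : List V) {t : ℝ} (ht : 0 ≤ t) :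
    dat N u (L.map fun v => t • v) = t • dat N u L := by
  simp only [dat, List.map_map, Prod.smul_mk, Prod.mk.injEq]
  refine ⟨?_, ?_⟩
  · funext i
    have h1 : ((fun v => |inner ℝ v (u i)|) ∘ fun v : V => t • v) =
        fun v => t * |inner ℝ v (u i)| := by
      funext v
      simp only [Function.comp, real_inner_smul_left, abs_mul, abs_of_nonneg ht]
    rw [h1, List.sum_map_mul_left]
    simp only [Pi.smul_apply, smul_eq_mul]
    ring
  · have h1 : ((fun v => supp N v) ∘ fun v : V => t • v) = fun v => t * supp N v := by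
      funext v
      simp only [Function.comp, supp_smul hN hne ht]
    rw [h1, List.sum_map_mul_left]
    rfl

/-- Finitely many directions. -/
lemma finite_dir {ι : Type*} [Fintype ι] {N : Set V} (hN : IsSymBody N) (hd : 0 < finrank ℝ V)
    {ε : ℝ} (hε : 0 < ε) (hε1 : ε < 1) (u : ι → V) (hu : ∀ i, ‖u i‖ = 1) :
    ∃ L : List V, (∀ i, (1 - ε) * beta N (u i) ≤ 2⁻¹ * (L.map fun v => |inner ℝ v (u i)|).sum) ∧
      (L.map fun v => supp N v).sum ≤ (1 + ε) * (finrank ℝ V * vol N) := by
  classical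
  by_contra hcon
  push Not at hcon
  have hkN := hN.compact
  have hneN : N.Nonempty := ⟨0, zero_mem hN⟩
  have hvol := vol_pos hN.toIsBody
  have hd' : (0 : ℝ) < finrank ℝ V := by exact_mod_cast hd
  set T : ℝ := (1 + ε) * (finrank ℝ V * vol N) with hT
  set b : ι → ℝ := fun i => (1 - ε) * beta N (u i) with hb
  set S : Set ((ι → ℝ) × ℝ) := Set.range (dat N u) with hS
  set Q : Set ((ι → ℝ) × ℝ) := (Set.univ.pi fun i => Ioi (b i)) ×ˢ Iio T with hQ
  have hQo : IsOpen Q := (isOpen_set_pi Set.finite_univ fun i _ => isOpen_Ioi).prod isOpen_Iio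
  have hQc : Convex ℝ Q := (convex_pi fun i _ => convex_Ioi _).prod (convex_Iio _)
  have hSc : Convex ℝ S := by
    rintro _ ⟨L, rfl⟩ _ ⟨L', rfl⟩ a c ha hc _
    refine ⟨(L.map fun v => a • v) ++ (L'.map fun v => c • v), ?_⟩
    rw [dat_append, dat_smul hkN hneN u L ha, dat_smul hkN hneN u L' hc]
  have hdisj : Disjoint Q S := by
    rw [Set.disjoint_left]
    rintro _ ⟨h1, h2⟩ ⟨L, rfl⟩
    have h3 := hcon L (fun i => (h1 i (Set.mem_univ i)).le)
    exact absurd h2 (not_lt.2 h3.le)
  obtain ⟨f, c, hfQ, hfS⟩ := geometric_hahn_banach_open hQc hQo hSc hdisj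
  -- the coefficients
  set m : ι → ℝ := fun i => -f (Pi.single i 1, 0) with hm
  set l : ℝ := f (0, 1) with hl
  have hf : ∀ (x : ι → ℝ) (t : ℝ), f (x, t) = -(∑ i, m i * x i) + l * t := by
    intro x t
    have h1 : (x, t) = ∑ i, x i • ((Pi.single i 1, 0) : (ι → ℝ) × ℝ) + t • ((0, 1) : (ι → ℝ) × ℝ) := by
      ext i
      · simp only [Prod.smul_mk, smul_eq_mul, mul_zero, smul_zero, mul_one, Prod.fst_add, Prod.fst_sum, Pi.add_apply, Finset.sum_apply, Pi.smul_apply, Pi.single_apply, mul_ite, Finset.sum_ite_eq, Finset.mem_univ, ↓reduceIte, Pi.zero_apply, add_zero]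
      · simp only [Prod.smul_mk, smul_eq_mul, mul_zero, smul_zero, mul_one, Prod.snd_add, Prod.snd_sum, Finset.sum_const_zero, zero_add]
    rw [h1, map_add, map_sum, map_smul]
    simp only [map_smul, smul_eq_mul, hm, hl]
    rw [← Finset.sum_neg_distrib]
    congr 1
    · exact Finset.sum_congr rfl fun i _ => by ring
    · ring
  have hc0 : c ≤ 0 := by
    have h1 := hfS (dat N u []) ⟨[], rfl⟩
    have h2 : dat N u [] = 0 := by
      simp only [dat, List.map_nil, List.sum_nil, mul_zero]
      rfl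
    rwa [h2, map_zero] at h1
  have hS0 : ∀ v : V, 0 ≤ f (dat N u [v]) := by
    intro v
    by_contra hneg
    push Not at hneg
    obtain ⟨n, hn⟩ := exists_nat_gt (c / f (dat N u [v]))
    have h1 := hfS _ ⟨[v].map fun v => (n : ℝ) • v, rfl⟩
    rw [dat_smul hkN hneN u [v] (Nat.cast_nonneg n), map_smul, smul_eq_mul] at h1
    rw [div_lt_iff_of_neg hneg] at hn
    linarith only [hn, h1]
  set q0 : (ι → ℝ) × ℝ := (fun i => b i + 1, T - 1) with hq0
  have hmi : ∀ i, 0 ≤ m i := by
    intro i
    by_contra hneg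
    push Not at hneg
    obtain ⟨n, hn⟩ := exists_nat_gt ((c - f q0) / (-m i))
    have h1 : q0 + (n : ℝ) • ((Pi.single i 1, 0) : (ι → ℝ) × ℝ) ∈ Q := by
      refine ⟨fun j _ => ?_, ?_⟩
      · simp only [hq0, Prod.fst_add, Prod.smul_fst, Pi.add_apply, Pi.smul_apply, smul_eq_mul,
          mem_Ioi, Pi.single_apply]
        have : (0 : ℝ) ≤ (n : ℝ) * (if j = i then 1 else 0) := by (clear * -; positivity)
        (clear hN hd hu hkN hneN hvol hd' T hcon hT hb S hS Q hQ hQo hQc hSc hdisj f c hfQ hfS m hm l hl hf hc0 hS0 q0 hq0 hneg hn; linarith)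
      · simp [hq0]
    have h2 := hfQ _ h1
    rw [map_add, map_smul, smul_eq_mul] at h2
    have h3 : f (Pi.single i 1, 0) = -m i := by simp [hm]
    rw [h3] at h2
    rw [div_lt_iff₀ (by linarith only [hneg])] at hn
    linarith only [hn, h2]
  have hl0 : 0 ≤ l := by
    by_contra hneg
    push Not at hneg
    obtain ⟨n, hn⟩ := exists_nat_gt ((c - f q0) / (-l))
    have h1 : q0 + (n : ℝ) • ((0, -1) : (ι → ℝ) × ℝ) ∈ Q := by
      refine ⟨fun j _ => ?_, ?_⟩
      · simp only [hq0, Prod.smul_mk, smul_zero, smul_eq_mul, mul_neg, mul_one, Prod.mk_add_mk, add_zero, mem_Ioi, lt_add_iff_pos_right, zero_lt_one]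
      · simp only [hq0, Prod.snd_add, Prod.smul_snd, smul_eq_mul, mem_Iio]
        have : (0 : ℝ) ≤ (n : ℝ) := Nat.cast_nonneg n
        (clear hN hd u hu hkN hneN hvol hd' hcon hT b hb S hS Q hQ hQo hQc hSc hdisj f c hfQ hfS m hm l hl hf hc0 hS0 q0 hq0 hmi hneg hn this; linarith)
    have h2 := hfQ _ h1
    rw [map_add, map_smul, smul_eq_mul] at h2
    have h3 : f ((0, -1) : (ι → ℝ) × ℝ) = -l := by
      rw [hf]
      simp only [Pi.zero_apply, mul_zero, Finset.sum_const_zero, neg_zero, mul_neg, mul_one, zero_add]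
    rw [h3] at h2
    rw [div_lt_iff₀ (by linarith only [hneg])] at hn
    linarith only [hn, h2]
  have hvS : ∀ v, 2⁻¹ * ∑ i, m i * |inner ℝ v (u i)| ≤ l * supp N v := by
    intro v
    have h1 := hS0 v
    have h2 : dat N u [v] = (fun i => 2⁻¹ * |inner ℝ v (u i)|, supp N v) := by
      simp [dat]
    rw [h2, hf] at h1
    have h3 : ∑ i, m i * (2⁻¹ * |inner ℝ v (u i)|) = 2⁻¹ * ∑ i, m i * |inner ℝ v (u i)| := by
      rw [Finset.mul_sum]
      exact Finset.sum_congr rfl fun i _ => by ring
    rw [h3] at h1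
    linarith only [h1]
  have hl1 : 0 < l := by
    rcases hl0.eq_or_lt with h0 | h0
    · exfalso
      have hmz : ∀ i, m i = 0 := by
        intro i
        have h1 := hvS (u i)
        rw [← h0, zero_mul] at h1
        have h2 : m i * |inner ℝ (u i) (u i)| ≤ ∑ j, m j * |inner ℝ (u i) (u j)| :=
          Finset.single_le_sum (f := fun j => m j * |inner ℝ (u i) (u j)|)
            (fun j _ => mul_nonneg (hmi j) (abs_nonneg _)) (Finset.mem_univ i)
        rw [real_inner_self_eq_norm_sq, hu i] at h2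
        have h3 : |(1 : ℝ) ^ 2| = 1 := by norm_num
        rw [h3, mul_one] at h2
        have h4 : ∑ j, m j * |inner ℝ (u i) (u j)| ≤ 0 := by linarith only [h1]
        exact le_antisymm (h2.trans h4) (hmi i)
      have h1 := hfQ q0 ⟨fun i _ => by simp [hq0], by simp [hq0]⟩
      rw [hq0, hf, ← h0] at h1
      simp only [hmz, zero_mul, Finset.sum_const_zero, neg_zero, add_zero] at h1
      linarith only [hc0, h1]
    · exact h0
  -- the zonotope with coefficients `m / l`
  have hkey := sum_beta_le hN u (fun i => m i / l) (fun i => div_nonneg (hmi i) hl1.le) (by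
    intro v
    have h1 := hvS v
    have h2 : ∑ i, m i / l * |inner ℝ v (u i)| = (∑ i, m i * |inner ℝ v (u i)|) / l := by
      rw [Finset.sum_div]
      exact Finset.sum_congr rfl fun i _ => by ring
    rw [h2, ← mul_div_assoc, div_le_iff₀ hl1]
    linarith only [h1])
  have hkey2 : ∑ i, m i * beta N (u i) ≤ l * (finrank ℝ V * vol N) := by
    have h2 : ∑ i, m i / l * beta N (u i) = (∑ i, m i * beta N (u i)) / l := by
      rw [Finset.sum_div]
      exact Finset.sum_congr rfl fun i _ => by ring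
    rw [h2, div_le_iff₀ hl1] at hkey
    (clear hN hd ε hε hε1 hu hkN hneN hvol hd' T hcon hT b hb S hS Q hQ hQo hQc hSc hdisj c hfQ hfS hm hl hf hc0 hS0 q0 hq0 hmi hl0 hvS hl1 h2; linarith)
  have hlow : l * T ≤ ∑ i, m i * b i := by
    refine le_of_forall_pos_le_add fun η hη => ?_
    set C : ℝ := ∑ i, m i + l + 1 with hC
    have hCpos : 0 < C := by
      have : 0 ≤ ∑ i, m i := Finset.sum_nonneg fun i _ => hmi i
      linarith only [hl1, this]
    have h1 := hfQ (fun i => b i + η / C, T - η / C) ⟨fun i _ => by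
      simp only [mem_Ioi]
      have : 0 < η / C := div_pos hη hCpos
      (clear hd hvol hd' hcon hT hb hS hQ hQo hQc hSc hdisj hkey hkey2 hC; linarith), by
      simp only [mem_Iio]
      have : 0 < η / C := div_pos hη hCpos
      (clear hd hvol hd' hcon hT hb hS hQ hQo hQc hSc hdisj hkey hkey2 hC; linarith)⟩
    rw [hf] at h1
    have h2 : ∑ i, m i * (b i + η / C) = ∑ i, m i * b i + (∑ i, m i) * (η / C) := by
      rw [Finset.sum_mul, ← Finset.sum_add_distrib]
      exact Finset.sum_congr rfl fun i _ => by ring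
    rw [h2] at h1
    have h3 : (∑ i, m i) * (η / C) + l * (η / C) ≤ η := by
      have h4 : (∑ i, m i + l) * (η / C) ≤ C * (η / C) :=
        mul_le_mul_of_nonneg_right (by linarith only []) (div_pos hη hCpos).le
      have h5 : C * (η / C) = η := by (clear * - hCpos hη; field_simp)
      nlinarith only [h4, h5]
    (clear hd hvol hd' hcon hT hb hS hQ hQo hQc hSc hdisj hkey hkey2 hC h2; nlinarith)
  have hb2 : ∑ i, m i * b i = (1 - ε) * ∑ i, m i * beta N (u i) := by
    rw [Finset.mul_sum]
    exact Finset.sum_congr rfl fun i _ => by simp only [hb]; ring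
  rw [hb2] at hlow
  have h1 : (1 - ε) * ∑ i, m i * beta N (u i) ≤ (1 - ε) * (l * (finrank ℝ V * vol N)) :=
    mul_le_mul_of_nonneg_left hkey2 (by linarith only [hε1])
  have h2 : 0 < l * (finrank ℝ V * vol N) := by (clear hd' hcon hT hb hS hQ hQo hQc hSc hdisj hkey hkey2 hlow hb2 h1; positivity)
  rw [hT] at hlow
  (clear hN hd hε1 hu hkN hneN hvol hd' T hcon hT b hb S hS Q hQ hQo hQc hSc hdisj c hfQ hfS hm hl hf hc0 hS0 q0 hq0 hmi hl0 hvS hl1 hkey hkey2 hb2; nlinarith)

end ZA

open ZA in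
/-- Task D2: finitely many vectors approximating the surface area measure of `N`. -/
theorem zonotope_approx {N : Set V} (hN : IsSymBody N) {ε : ℝ} (hε : 0 < ε) (hε1 : ε < 1) :
    ∃ (m : ℕ) (v : Fin m → V),
      (∀ u : V, (1 - ε) * beta N u ≤ 2⁻¹ * ∑ j, |inner ℝ (v j) u|) ∧
      ∑ j, supp N (v j) ≤ (1 + ε) * (finrank ℝ V * vol N) := by
  classical
  have hkN := hN.compact
  have hcN := hN.convex
  have hbz : beta N 0 = 0 := by
    have h := beta_smul hkN hcN 0 (0 : V)
    simpa using h
  rcases Nat.eq_zero_or_pos (finrank ℝ V) with hd | hd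
  · refine ⟨0, Fin.elim0, fun u => ?_, ?_⟩
    · have : Subsingleton V := finrank_zero_iff.1 hd
      rw [Subsingleton.elim u 0, hbz]
      simp
    · simp [hd]
  have : Nontrivial V := finrank_pos_iff.1 hd
  have hvol := vol_pos hN.toIsBody
  have hd' : (0 : ℝ) < finrank ℝ V := by exact_mod_cast hd
  -- upper bound for `β`
  obtain ⟨B, hB0, hB⟩ : ∃ B : ℝ, 0 ≤ B ∧ ∀ w, beta N w ≤ B * ‖w‖ := by
    set e := stdOrthonormalBasis ℝ V
    refine ⟨∑ i, beta N (e i), Finset.sum_nonneg fun i _ => beta_nonneg hkN hcN _, fun w => ?_⟩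
    have h1 : beta N (∑ i, inner ℝ (e i) w • e i) ≤ ∑ i, beta N (inner ℝ (e i) w • e i) :=
      Finset.le_sum_of_subadditive (beta N) hbz.le (fun x y => beta_add_le hkN hcN x y)
        Finset.univ _
    rw [e.sum_repr' w] at h1
    refine h1.trans ?_
    rw [Finset.sum_mul]
    refine Finset.sum_le_sum fun i _ => ?_
    rw [beta_smul hkN hcN, mul_comm]
    refine mul_le_mul_of_nonneg_left ?_ (beta_nonneg hkN hcN _)
    have h2 := abs_real_inner_le_norm (e i) w
    rwa [e.norm_eq_one, one_mul] at h2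
  have hdiff : ∀ x y, beta N x ≤ beta N y + B * ‖x - y‖ := by
    intro x y
    have h1 := beta_add_le hkN hcN y (x - y)
    rw [add_sub_cancel] at h1
    linarith [hB (x - y)]
  -- lower bound on the sphere
  obtain ⟨b0, hb0, hb0'⟩ : ∃ b0 : ℝ, 0 < b0 ∧ ∀ w, ‖w‖ = 1 → b0 ≤ beta N w := by
    have hcont : Continuous (beta N) := by
      have h1 : LipschitzWith (Real.toNNReal B) (beta N) := by
        refine LipschitzWith.of_dist_le_mul fun x y => ?_
        rw [Real.dist_eq, dist_eq_norm, abs_le, Real.coe_toNNReal B hB0]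
        have h1 := hdiff x y
        have h2 := hdiff y x
        rw [norm_sub_rev] at h2
        constructor <;> linarith
      exact h1.continuous
    obtain ⟨w, hw, hmin⟩ := (isCompact_sphere (0 : V) 1).exists_isMinOn
      (NormedSpace.sphere_nonempty.2 zero_le_one) hcont.continuousOn
    rw [mem_sphere_zero_iff_norm] at hw
    refine ⟨beta N w, beta_pos hN.toIsBody (by
      intro h
      rw [h, norm_zero] at hw
      exact zero_ne_one hw), fun x hx => ?_⟩
    exact hmin (mem_sphere_zero_iff_norm.2 hx)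
  obtain ⟨ρ, hρ, hball⟩ := ball_subset hN
  set Lc : ℝ := 2 * (finrank ℝ V * vol N) / ρ with hLc
  have hLc0 : 0 < Lc := by (clear ε hε hε1 hkN hcN hbz hd' B hB0 hB hdiff b0 hb0 hb0' hball hLc; positivity)
  set δ : ℝ := (ε / 2) * b0 / (B + Lc / 2) with hδ
  have hδ0 : 0 < δ := by (clear hε1 hkN hcN hbz hd' hB hdiff hb0' hball hLc hLc0 hδ; positivity)
  obtain ⟨t, hts, htf, hcov⟩ := (isCompact_sphere (0 : V) 1).finite_cover_balls hδ0
  have : Fintype t := htf.fintype
  obtain ⟨L, hL1, hL2⟩ := finite_dir hN hd (ε := ε / 2) (by linarith only [hε]) (by linarith only [hε1])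
    (fun i : t => (i : V)) (fun i => mem_sphere_zero_iff_norm.1 (hts i.2))
  refine ⟨L.length, fun j => L[j], ?_, ?_⟩
  · -- all directions
    have hsum : ∀ u : V, ∑ j : Fin L.length, |inner ℝ L[j] u| = (L.map fun v => |inner ℝ v u|).sum :=
      fun u => Fin.sum_univ_fun_getElem L (fun v => |inner ℝ v u|)
    have hnorm : (L.map fun v => ‖v‖).sum ≤ Lc := by
      have h1 : ρ * (L.map fun v => ‖v‖).sum ≤ (L.map fun v => supp N v).sum := by
        rw [← List.sum_map_mul_left]
        exact List.sum_le_sum fun v _ => supp_ge hkN hρ hball v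
      have h2 : (1 + ε / 2) * (finrank ℝ V * vol N) ≤ 2 * (finrank ℝ V * vol N) :=
        mul_le_mul_of_nonneg_right (by linarith only [hε1]) (by positivity)
      rw [hLc, le_div_iff₀ hρ]
      (clear hcN hbz hd' B hB0 hB hdiff b0 hb0 hb0' Lc hLc hLc0 δ hδ hδ0 hts hcov hL1 hsum; linarith)
    have hunit : ∀ u : V, ‖u‖ = 1 → (1 - ε) * beta N u ≤
        2⁻¹ * (L.map fun v => |inner ℝ v u|).sum := by
      intro u hu
      have h1 := hcov (mem_sphere_zero_iff_norm.2 hu)
      simp only [mem_iUnion, exists_prop] at h1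
      obtain ⟨w, hw, huw⟩ := h1
      rw [mem_ball_iff_norm] at huw
      have h2 := hL1 ⟨w, hw⟩
      have h3 : (L.map fun v => |inner ℝ v w|).sum ≤
          (L.map fun v => |inner ℝ v u|).sum + δ * (L.map fun v => ‖v‖).sum := by
        rw [← List.sum_map_mul_left, ← List.sum_map_add]
        refine List.sum_le_sum fun v _ => ?_
        have h4 : inner ℝ v w = inner ℝ v u - inner ℝ v (u - w) := by
          rw [inner_sub_right]; ring
        have h5 := abs_real_inner_le_norm v (u - w)
        have h6 : ‖v‖ * ‖u - w‖ ≤ ‖v‖ * δ := mul_le_mul_of_nonneg_left huw.le (norm_nonneg v)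
        rw [h4]
        have h7 := abs_sub (inner ℝ v u) (inner ℝ v (u - w))
        (clear hN hε hε1 hkN hcN hbz hvol hd' hB0 hB hdiff hb0 hb0' hρ hball hLc hLc0 hδ hδ0 hts hcov hL1 hL2 hsum hnorm hu hw h2 h4; linarith)
      have h4 : beta N u ≤ beta N w + B * δ := by
        have h5 := hdiff u w
        have h6 : B * ‖u - w‖ ≤ B * δ := mul_le_mul_of_nonneg_left huw.le hB0
        (clear hε hε1 hbz hvol hd' hb0 hb0' hρ hball hLc hLc0 hδ hδ0 hts hcov L hL1 hL2 hsum hnorm hu hw h2 h3; linarith)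
      have h5 : δ * (L.map fun v => ‖v‖).sum ≤ δ * Lc := mul_le_mul_of_nonneg_left hnorm hδ0.le
      have h6 : δ * (B + Lc / 2) = (ε / 2) * b0 := by
        rw [hδ]
        (clear * - hB0 hLc0 hb0 hε; field_simp)
      have h7 := hb0' u hu
      simp only at h2
      have h8 : (1 - ε / 2) * beta N u ≤ (1 - ε / 2) * beta N w + B * δ := by
        have h9 : (1 - ε / 2) * beta N u ≤ (1 - ε / 2) * (beta N w + B * δ) :=
          mul_le_mul_of_nonneg_left h4 (by linarith only [hε1])
        have h10 : (1 - ε / 2) * (B * δ) ≤ 1 * (B * δ) :=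
          mul_le_mul_of_nonneg_right (by linarith only [hε]) (by (clear hε1 hkN hcN hbz hd' hB hdiff hb0' hball hLc hLc0 hδ hδ0 hts hcov L hL1 hL2 hsum hnorm u hu w hw huw h2 h3 h4 h5 h6 h7 h9; positivity))
        (clear hbz hd' hb0' hball hLc hLc0 hδ hδ0 hts hcov L hL1 hL2 hsum hnorm hu hw h2 h3 h5 h6 h7; linarith)
      have h9 : (ε / 2) * b0 ≤ (ε / 2) * beta N u := mul_le_mul_of_nonneg_left h7 (by linarith only [hε])
      nlinarith
    intro u
    rw [hsum u]
    rcases eq_or_ne u 0 with rfl | hu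
    · rw [hbz]
      simp
    · have hn : 0 < ‖u‖ := norm_pos_iff.2 hu
      have h1 := hunit (‖u‖⁻¹ • u) (by rw [norm_smul, norm_inv, norm_norm, inv_mul_cancel₀ hn.ne'])
      rw [beta_smul hkN hcN, abs_of_pos (inv_pos.2 hn)] at h1
      have h2 : (fun v : V => |inner ℝ v (‖u‖⁻¹ • u)|) = fun v => ‖u‖⁻¹ * |inner ℝ v u| := by
        funext v
        rw [inner_smul_right, abs_mul, abs_of_pos (inv_pos.2 hn)]
      rw [h2, List.sum_map_mul_left] at h1
      have h3 := mul_le_mul_of_nonneg_left h1 hn.le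
      have h4 : ‖u‖ * ((1 - ε) * (‖u‖⁻¹ * beta N u)) = (1 - ε) * beta N u := by (clear hN hε hε1 hkN hcN hbz hvol hd' B hB0 hB hdiff b0 hb0 hb0' ρ hρ hball Lc hLc hLc0 δ hδ hδ0 hts hcov L hL1 hL2 hsum hnorm hunit hn h1 h2 h3; field_simp)
      have h5 : ‖u‖ * (2⁻¹ * (‖u‖⁻¹ * (L.map fun v => |inner ℝ v u|).sum)) =
          2⁻¹ * (L.map fun v => |inner ℝ v u|).sum := by (clear * - hu; field_simp)
      rwa [h4, h5] at h3
  · have h1 : ∑ j : Fin L.length, supp N L[j] = (L.map fun v => supp N v).sum :=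
      Fin.sum_univ_fun_getElem L (fun v => supp N v)
    rw [h1]
    have h2 : (1 + ε / 2) * (finrank ℝ V * vol N) ≤ (1 + ε) * (finrank ℝ V * vol N) :=
      mul_le_mul_of_nonneg_right (by linarith only [hε]) (by positivity)
    exact hL2.trans h2

end Vale.Agent.P237
end

section

open MeasureTheory Metric Set Module
open scoped Pointwise

namespace Vale.Agent.P237

variable {V : Type*} [NormedAddCommGroup V] [InnerProductSpace ℝ V] [FiniteDimensional ℝ V]
  [MeasurableSpace V] [BorelSpace V]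

set_option linter.unusedVariables false in
/-- Volume bound for `K + t M` when `h_M` is the support function of the projection body of `N`
and `h_{Π K} ≤ h_N`. -/
theorem mixed_bound {K N M : Set V} (hK : IsBody K) (h0 : (0 : V) ∈ interior K)
    (hN : IsSymBody N) (hM : IsCompact M) (hMc : Convex ℝ M) (hMne : M.Nonempty)
    (h1 : ∀ v, beta K v ≤ supp N v) (h2 : ∀ v, supp M v ≤ beta N v) :
    ∃ C : ℝ, 0 ≤ C ∧ ∀ t : ℝ, 0 ≤ t → vol (K + t • M) ≤
      vol K + t * (1 + t * C) ^ (finrank ℝ V - 1) * (finrank ℝ V * vol N) :=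
  mixed_bound_of_approx hK h0 hN hM (fun _ hε hε1 => zonotope_approx hN hε hε1) h1 h2

end Vale.Agent.P237
end

section

open MeasureTheory Metric Set Module
open scoped Pointwise

namespace Vale.Agent.P237

variable {V : Type*} [NormedAddCommGroup V] [InnerProductSpace ℝ V] [FiniteDimensional ℝ V]
  [MeasurableSpace V] [BorelSpace V]

omit [MeasurableSpace V] [BorelSpace V] in
/-- Hahn-Banach and Riesz: extension of a functional dominated by a sublinear function. -/
theorem exists_wulff_ext {h : V → ℝ} (hs : ∀ (t : ℝ) v, 0 ≤ t → h (t • v) = t * h v)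
    (ha : ∀ v w, h (v + w) ≤ h v + h w) (f : V →ₗ.[ℝ] ℝ) (hf : ∀ x : f.domain, f x ≤ h x) :
    ∃ y ∈ wulff h, ∀ x : f.domain, inner ℝ y (x : V) = f x := by
  obtain ⟨g, hg1, hg2⟩ := exists_extension_of_le_sublinear f h (fun c hc x => hs c x hc.le) ha hf
  refine ⟨(InnerProductSpace.toDual ℝ V).symm (LinearMap.toContinuousLinearMap g), ?_, ?_⟩
  · intro v
    rw [InnerProductSpace.toDual_symm_apply]
    exact hg2 v
  · intro x
    rw [InnerProductSpace.toDual_symm_apply]
    exact hg1 x

omit [MeasurableSpace V] [BorelSpace V] in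
theorem exists_wulff_ext_sub {h : V → ℝ} (hs : ∀ (t : ℝ) v, 0 ≤ t → h (t • v) = t * h v)
    (ha : ∀ v w, h (v + w) ≤ h v + h w) (F : Submodule ℝ V) (z : V)
    (hz : ∀ w ∈ F, inner ℝ z w ≤ h w) :
    ∃ y ∈ wulff h, ∀ w ∈ F, inner ℝ y w = inner ℝ z w := by
  obtain ⟨y, hy, hy'⟩ := exists_wulff_ext hs ha
    (⟨F, (innerSL ℝ z).toLinearMap ∘ₗ F.subtype⟩ : V →ₗ.[ℝ] ℝ) (by
      rintro ⟨x, hx⟩
      exact hz x hx)
  exact ⟨y, hy, fun w hw => hy' ⟨w, hw⟩⟩

omit [MeasurableSpace V] [BorelSpace V] in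
theorem exists_wulff_eq {h : V → ℝ} (hs : ∀ (t : ℝ) v, 0 ≤ t → h (t • v) = t * h v)
    (ha : ∀ v w, h (v + w) ≤ h v + h w) (v : V) : ∃ y ∈ wulff h, inner ℝ y v = h v := by
  have h0 : h 0 = 0 := by simpa using hs 0 0 le_rfl
  rcases eq_or_ne v 0 with rfl | hv
  · obtain ⟨y, hy, -⟩ := exists_wulff_ext_sub hs ha ⊥ 0 (by
      intro w hw
      have hx' : w = 0 := by simpa using hw
      subst hx'
      rw [inner_zero_right, h0])
    exact ⟨y, hy, by rw [inner_zero_right, h0]⟩
  · have hvv : inner ℝ v v ≠ (0 : ℝ) := by simpa using hv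
    obtain ⟨y, hy, hy'⟩ := exists_wulff_ext_sub hs ha (ℝ ∙ v) ((h v / inner ℝ v v) • v) (by
      intro w hw
      obtain ⟨t, rfl⟩ := Submodule.mem_span_singleton.mp hw
      rw [real_inner_smul_left, real_inner_smul_right]
      have h3 : h v / inner ℝ v v * (t * inner ℝ v v) = t * h v := by
        (clear * - hvv; field_simp)
      rw [h3]
      rcases le_total 0 t with ht | ht
      · rw [hs t v ht]
      · have h1 := ha (t • v) ((-t) • v)
        rw [hs (-t) v (by linarith)] at h1
        have h2 : t • v + (-t) • v = 0 := by rw [neg_smul, add_neg_cancel]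
        rw [h2, h0] at h1
        linarith)
    refine ⟨y, hy, ?_⟩
    rw [hy' v (Submodule.mem_span_singleton_self v), real_inner_smul_left]
    field_simp

omit [MeasurableSpace V] [BorelSpace V] in
theorem wulff_supp {h : V → ℝ} (hs : ∀ (t : ℝ) v, 0 ≤ t → h (t • v) = t * h v)
    (ha : ∀ v w, h (v + w) ≤ h v + h w) (v : V) : supp (wulff h) v = h v := by
  obtain ⟨y, hy, hy'⟩ := exists_wulff_eq hs ha v
  refine le_antisymm ?_ ?_
  · refine csSup_le ⟨_, ⟨y, hy, rfl⟩⟩ ?_
    rintro _ ⟨x, hx, rfl⟩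
    exact hx v
  · refine le_csSup ⟨h v, ?_⟩ ⟨y, hy, hy'⟩
    rintro _ ⟨x, hx, rfl⟩
    exact hx v

omit [MeasurableSpace V] [BorelSpace V] in
theorem wulff_proj {h : V → ℝ} (hs : ∀ (t : ℝ) v, 0 ≤ t → h (t • v) = t * h v)
    (ha : ∀ v w, h (v + w) ≤ h v + h w) (F : Submodule ℝ V) :
    F.orthogonalProjectionOnto '' (wulff h) = {z : F | ∀ w : F, inner ℝ z w ≤ h w} := by
  ext z
  constructor
  · rintro ⟨y, hy, rfl⟩ w
    have := hy (w : V)
    rw [← Submodule.inner_orthogonalProjectionOnto_eq_of_mem_right w y] at this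
    exact this
  · intro hz
    obtain ⟨y, hy, hy'⟩ := exists_wulff_ext_sub hs ha F (z : V) (fun w hw => hz ⟨w, hw⟩)
    refine ⟨y, hy, ?_⟩
    refine ext_inner_right ℝ fun w => ?_
    rw [Submodule.inner_orthogonalProjectionOnto_eq_of_mem_right w y, hy' w w.2]
    rfl

theorem projBody_eq_wulff {K : Set V} (hK : IsCompact K) (hc : Convex ℝ K) :
    projBody K = wulff (beta K) := by
  ext y
  constructor
  · intro hy v
    rcases eq_or_ne v 0 with rfl | hv
    · rw [inner_zero_right]
      exact beta_nonneg hK hc 0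
    · have hn : ‖v‖ ≠ 0 := norm_ne_zero_iff.mpr hv
      have hu : ‖(‖v‖⁻¹ • v)‖ = 1 := by
        rw [norm_smul, norm_inv, norm_norm, inv_mul_cancel₀ hn]
      have h1 := hy _ hu
      rw [← beta_unit hK hc hu, beta_smul hK hc, real_inner_smul_right, abs_inv, abs_norm] at h1
      exact le_of_mul_le_mul_left h1 (inv_pos.mpr (norm_pos_iff.mpr hv))
  · intro hy u hu
    rw [← beta_unit hK hc hu]
    exact hy u

theorem beta_hs {K : Set V} (hK : IsCompact K) (hc : Convex ℝ K) (t : ℝ) (v : V) (ht : 0 ≤ t) :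
    beta K (t • v) = t * beta K v := by
  rw [beta_smul hK hc, abs_of_nonneg ht]

theorem beta_sum_le {K : Set V} (hK : IsCompact K) (hc : Convex ℝ K) {ι : Type*} (s : Finset ι)
    (v : ι → V) : beta K (∑ i ∈ s, v i) ≤ ∑ i ∈ s, beta K (v i) := by
  classical
  induction s using Finset.induction_on with
  | empty => simp [beta_zero K]
  | insert a s ha ih =>
    rw [Finset.sum_insert ha, Finset.sum_insert ha]
    exact (beta_add_le hK hc _ _).trans (by linarith)

theorem exists_beta_le {K : Set V} (hK : IsCompact K) (hc : Convex ℝ K) :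
    ∃ C : ℝ, 0 ≤ C ∧ ∀ v, beta K v ≤ C * ‖v‖ := by
  set b := stdOrthonormalBasis ℝ V
  refine ⟨∑ i, beta K (b i), Finset.sum_nonneg fun i _ => beta_nonneg hK hc _, fun v => ?_⟩
  calc beta K v = beta K (∑ i, inner ℝ (b i) v • b i) := by rw [b.sum_repr' v]
    _ ≤ ∑ i, beta K (inner ℝ (b i) v • b i) := beta_sum_le hK hc _ _
    _ = ∑ i, |inner ℝ (b i) v| * beta K (b i) := by simp only [beta_smul hK hc]
    _ ≤ ∑ i, ‖v‖ * beta K (b i) := by
      refine Finset.sum_le_sum fun i _ => mul_le_mul_of_nonneg_right ?_ (beta_nonneg hK hc _)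
      have := abs_real_inner_le_norm (b i) v
      rwa [b.norm_eq_one, one_mul] at this
    _ = (∑ i, beta K (b i)) * ‖v‖ := by rw [← Finset.mul_sum, mul_comm]

theorem beta_continuous {K : Set V} (hK : IsCompact K) (hc : Convex ℝ K) :
    Continuous (beta K) := by
  obtain ⟨C, hC, hCb⟩ := exists_beta_le hK hc
  have h1 : ∀ v w, beta K v - beta K w ≤ C * dist v w := by
    intro v w
    have h2 := beta_add_le hK hc w (v - w)
    rw [add_sub_cancel] at h2
    have h3 := hCb (v - w)
    rw [dist_eq_norm]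
    linarith
  refine (LipschitzWith.of_dist_le_mul (K := C.toNNReal) fun v w => ?_).continuous
  rw [Real.coe_toNNReal _ hC, Real.dist_eq, abs_le]
  constructor
  · have := h1 w v
    rw [dist_comm] at this
    linarith
  · exact h1 v w

theorem exists_le_beta {K : Set V} (hK : IsBody K) :
    ∃ c : ℝ, 0 < c ∧ ∀ v, c * ‖v‖ ≤ beta K v := by
  have hcpt : IsCompact (sphere (0 : V) 1) := isCompact_sphere 0 1
  rcases (sphere (0 : V) 1).eq_empty_or_nonempty with he | hne
  · refine ⟨1, one_pos, fun v => ?_⟩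
    have hv : v = 0 := by
      by_contra hv
      have hn : ‖v‖ ≠ 0 := norm_ne_zero_iff.mpr hv
      have : ‖v‖⁻¹ • v ∈ sphere (0 : V) 1 := by
        rw [mem_sphere_zero_iff_norm, norm_smul, norm_inv, norm_norm, inv_mul_cancel₀ hn]
      rw [he] at this
      exact this
    subst hv
    simp [beta_zero K]
  · obtain ⟨u, hu, humin⟩ := hcpt.exists_isMinOn hne
      (beta_continuous hK.compact hK.convex).continuousOn
    have hu0 : u ≠ 0 := by
      rintro rfl
      simp at hu
    refine ⟨beta K u, beta_pos hK hu0, fun v => ?_⟩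
    rcases eq_or_ne v 0 with rfl | hv
    · simp [beta_zero K]
    · have hn : ‖v‖ ≠ 0 := norm_ne_zero_iff.mpr hv
      have hmem : ‖v‖⁻¹ • v ∈ sphere (0 : V) 1 := by
        rw [mem_sphere_zero_iff_norm, norm_smul, norm_inv, norm_norm, inv_mul_cancel₀ hn]
      have h1 : beta K u ≤ beta K (‖v‖⁻¹ • v) := humin hmem
      rw [beta_smul hK.compact hK.convex, abs_inv, abs_norm] at h1
      calc beta K u * ‖v‖ ≤ ‖v‖⁻¹ * beta K v * ‖v‖ :=
            mul_le_mul_of_nonneg_right h1 (norm_nonneg v)
        _ = beta K v := by field_simp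

theorem projBody_convex (K : Set V) : Convex ℝ (projBody K) := by
  intro x hx y hy a b ha hb hab u hu
  have h1 := hx u hu
  have h2 := hy u hu
  rw [inner_add_left, real_inner_smul_left, real_inner_smul_left]
  calc a * inner ℝ x u + b * inner ℝ y u ≤ a * shadow K u + b * shadow K u :=
        add_le_add (mul_le_mul_of_nonneg_left h1 ha) (mul_le_mul_of_nonneg_left h2 hb)
    _ = shadow K u := by rw [← add_mul, hab, one_mul]

theorem projBody_isClosed (K : Set V) : IsClosed (projBody K) := by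
  have : projBody K = ⋂ (u : V) (_ : ‖u‖ = 1), {y | inner ℝ y u ≤ shadow K u} := by
    ext y
    simp only [projBody, mem_ofPred_eq, mem_iInter]
  rw [this]
  exact isClosed_iInter fun u => isClosed_iInter fun _ =>
    isClosed_le (continuous_id.inner continuous_const) continuous_const

theorem projBody_isSymBody {K : Set V} (hK : IsBody K) : IsSymBody (projBody K) := by
  have hw := projBody_eq_wulff hK.compact hK.convex
  refine ⟨⟨projBody_convex K, ?_, ?_⟩, ?_⟩
  · obtain ⟨C, hC, hCb⟩ := exists_beta_le hK.compact hK.convex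
    refine (isCompact_closedBall (0 : V) C).of_isClosed_subset (projBody_isClosed K) ?_
    intro y hy
    rw [hw] at hy
    rw [mem_closedBall_zero_iff]
    have h1 := hy y
    rw [real_inner_self_eq_norm_sq] at h1
    have h2 := h1.trans (hCb y)
    rcases (norm_nonneg y).eq_or_lt with h0 | h0
    · rw [← h0]; exact hC
    · rw [sq] at h2
      exact le_of_mul_le_mul_right h2 h0
  · obtain ⟨c, hc, hcb⟩ := exists_le_beta hK
    refine ⟨0, mem_interior.mpr ⟨ball 0 c, ?_, isOpen_ball, mem_ball_self hc⟩⟩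
    intro y hy
    rw [hw]
    intro v
    rw [mem_ball_zero_iff] at hy
    calc inner ℝ y v ≤ ‖y‖ * ‖v‖ := real_inner_le_norm y v
      _ ≤ c * ‖v‖ := mul_le_mul_of_nonneg_right hy.le (norm_nonneg v)
      _ ≤ beta K v := hcb v
  · intro y hy
    rw [hw] at hy ⊢
    intro v
    have h1 := hy (-v)
    rw [beta_neg K, inner_neg_right] at h1
    rwa [inner_neg_left]

theorem supp_projBody {K : Set V} (hK : IsBody K) (v : V) : supp (projBody K) v = beta K v := by
  rw [projBody_eq_wulff hK.compact hK.convex]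
  exact wulff_supp (beta_hs hK.compact hK.convex) (beta_add_le hK.compact hK.convex) v

omit [MeasurableSpace V] [BorelSpace V] in
theorem det_adjoint_real (T : V →ₗ[ℝ] V) :
    LinearMap.det (LinearMap.adjoint T) = LinearMap.det T := by
  have b := stdOrthonormalBasis ℝ V
  rw [← LinearMap.det_toMatrix b.toBasis, ← LinearMap.det_toMatrix b.toBasis,
    LinearMap.toMatrix_adjoint, Matrix.det_conjTranspose]
  simp

omit [MeasurableSpace V] in
theorem IsBody.image (T : V ≃ₗ[ℝ] V) {K : Set V} (hK : IsBody K) : IsBody (T '' K) := by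
  have hcont : Continuous T := LinearMap.continuous_of_finiteDimensional (T : V →ₗ[ℝ] V)
  refine ⟨hK.convex.linear_image (T : V →ₗ[ℝ] V), hK.compact.image hcont, ?_⟩
  obtain ⟨x, hx⟩ := hK.int
  refine ⟨T x, ?_⟩
  have := (T.toContinuousLinearEquiv.toHomeomorph).image_interior K
  have h2 : T '' interior K = interior (T '' K) := this
  rw [← h2]
  exact ⟨x, hx, rfl⟩

theorem vol_projBody_image (T : V ≃ₗ[ℝ] V) {K : Set V} (hK : IsBody K) :
    vol (projBody (T '' K)) = |LinearMap.det (T : V →ₗ[ℝ] V)| ^ (finrank ℝ V - 1) *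
      vol (projBody K) := by
  set D : ℝ := |LinearMap.det (T : V →ₗ[ℝ] V)| with hD
  have hdet : LinearMap.det (T : V →ₗ[ℝ] V) ≠ 0 := (LinearEquiv.isUnit_det' T).ne_zero
  have hDpos : 0 < D := abs_pos.mpr hdet
  have hKT := hK.image T
  set A : V →ₗ[ℝ] V := LinearMap.adjoint (T : V →ₗ[ℝ] V) with hA
  have hAdet : LinearMap.det A = LinearMap.det (T : V →ₗ[ℝ] V) := det_adjoint_real _
  have hset : projBody (T '' K) = A ⁻¹' (D • projBody K) := by
    rw [projBody_eq_wulff hKT.compact hKT.convex, projBody_eq_wulff hK.compact hK.convex]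
    ext y
    rw [mem_preimage, mem_smul_set_iff_inv_smul_mem₀ hDpos.ne']
    constructor
    · intro hy v
      have h1 := hy (T v)
      rw [beta_image] at h1
      rw [real_inner_smul_left, hA, LinearMap.adjoint_inner_left]
      rw [inv_mul_le_iff₀ hDpos]
      exact h1
    · intro hy v
      have h1 := hy (T.symm v)
      rw [real_inner_smul_left, hA, LinearMap.adjoint_inner_left, inv_mul_le_iff₀ hDpos] at h1
      have h2 := beta_image T K (T.symm v)
      rw [T.apply_symm_apply] at h2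
      rw [h2]
      simpa only [ge_iff_le, LinearEquiv.coe_coe, LinearEquiv.apply_symm_apply] using h1
  unfold vol
  rw [hset, Measure.addHaar_preimage_linearMap volume (by rw [hAdet]; exact hdet),
    Measure.addHaar_smul, hAdet, abs_inv, ← hD, ENNReal.toReal_mul, ENNReal.toReal_mul,
    ENNReal.toReal_ofReal (inv_nonneg.mpr hDpos.le), ENNReal.toReal_ofReal (abs_nonneg _),
    abs_of_nonneg (pow_nonneg hDpos.le _), ← mul_assoc]
  congr 1
  rcases Nat.eq_zero_or_pos (finrank ℝ V) with h0 | h0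
  · have h1 : LinearMap.det (T : V →ₗ[ℝ] V) = 1 := by
      have := LinearMap.det_eq_one_of_finrank_eq_zero h0 (T : V →ₗ[ℝ] V)
      exact this
    rw [h0, hD, h1]
    simp
  · obtain ⟨n, hn⟩ : ∃ n, finrank ℝ V = n + 1 := ⟨finrank ℝ V - 1, by omega⟩
    rw [hn]
    field_simp
    simp only [Nat.add_sub_cancel, pow_succ]
    ring

end Vale.Agent.P237
end

section

/-!
# P237-F1: slices of convex bodies
-/

open MeasureTheory Metric Set Module
open scoped Pointwise

namespace Vale.Agent.P237

variable {V : Type*} [NormedAddCommGroup V] [InnerProductSpace ℝ V] [FiniteDimensional ℝ V]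
  [MeasurableSpace V] [BorelSpace V]

omit [MeasurableSpace V] [BorelSpace V] in
theorem slice_isCompact {K : Set V} (hK : IsCompact K) (u : V) (y : ℝ) :
    IsCompact (slice K u y) := by
  have h1 : Topology.IsClosedEmbedding
      (fun z : ((ℝ ∙ u)ᗮ : Submodule ℝ V) => (z : V) + y • u) := by
    have h2 : Topology.IsClosedEmbedding (Subtype.val : ((ℝ ∙ u)ᗮ : Submodule ℝ V) → V) :=
      (Submodule.closed_of_finiteDimensional _).isClosedEmbedding_subtypeVal
    exact (Homeomorph.addRight (y • u)).isClosedEmbedding.comp h2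
  exact h1.isCompact_preimage hK

omit [FiniteDimensional ℝ V] [MeasurableSpace V] [BorelSpace V] in
theorem slice_combo_subset {K : Set V} (hK : Convex ℝ K) (u : V) (y z : ℝ) {a b : ℝ}
    (ha : 0 ≤ a) (hb : 0 ≤ b) (hab : a + b = 1) :
    a • slice K u y + b • slice K u z ⊆ slice K u (a * y + b * z) := by
  rintro _ ⟨_, ⟨p, hp, rfl⟩, _, ⟨q, hq, rfl⟩, rfl⟩
  have h := hK hp hq ha hb hab
  show ((a • p + b • q : ((ℝ ∙ u)ᗮ : Submodule ℝ V)) : V) + (a * y + b * z) • u ∈ K
  have e : ((a • p + b • q : ((ℝ ∙ u)ᗮ : Submodule ℝ V)) : V) + (a * y + b * z) • u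
      = a • ((p : V) + y • u) + b • ((q : V) + z • u) := by
    push_cast
    module
  rw [e]
  exact h

omit [FiniteDimensional ℝ V] [MeasurableSpace V] [BorelSpace V] in
theorem slice_convex {K : Set V} (hK : Convex ℝ K) (u : V) (y : ℝ) :
    Convex ℝ (slice K u y) := by
  intro p hp q hq a b ha hb hab
  have h := slice_combo_subset hK u y y ha hb hab
  have e : a * y + b * y = y := by rw [← add_mul, hab, one_mul]
  rw [e] at h
  exact h (add_mem_add (smul_mem_smul_set hp) (smul_mem_smul_set hq))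

omit [FiniteDimensional ℝ V] [MeasurableSpace V] [BorelSpace V] in
theorem slice_neg {K : Set V} (hs : ∀ x ∈ K, -x ∈ K) (u : V) (y : ℝ) :
    slice K u (-y) = -slice K u y := by
  have key : ∀ (t : ℝ) (z : ((ℝ ∙ u)ᗮ : Submodule ℝ V)), z ∈ slice K u t → -z ∈ slice K u (-t) := by
    intro t z hz
    have h := hs _ hz
    show ((-z : ((ℝ ∙ u)ᗮ : Submodule ℝ V)) : V) + (-t) • u ∈ K
    have e : ((-z : ((ℝ ∙ u)ᗮ : Submodule ℝ V)) : V) + (-t) • u = -((z : V) + t • u) := by
      push_cast
      module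
    rw [e]
    exact h
  ext z
  constructor
  · intro hz
    have := key _ _ hz
    rw [neg_neg] at this
    exact Set.mem_neg.2 this
  · intro hz
    have := key _ _ (Set.mem_neg.1 hz)
    rwa [neg_neg] at this

theorem slice_vol_even {K : Set V} (hK : IsSymBody K) {u : V} (hu : ‖u‖ = 1) (y : ℝ) :
    vol (slice K u (-y)) = vol (slice K u y) := by
  rw [slice_neg hK.symm]
  unfold vol
  rw [Measure.measure_neg]

omit [MeasurableSpace V] [BorelSpace V] in
theorem finrank_perp (hd : finrank ℝ V = 3) {u : V} (hu : ‖u‖ = 1) :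
    finrank ℝ ((ℝ ∙ u)ᗮ : Submodule ℝ V) = 2 := by
  have hu0 : u ≠ 0 := by
    rintro rfl
    simp at hu
  have : Fact (finrank ℝ V = 2 + 1) := ⟨hd⟩
  exact Submodule.finrank_orthogonal_span_singleton hu0

omit [FiniteDimensional ℝ V] [MeasurableSpace V] [BorelSpace V] in
theorem closedBall_subset_slice {K : Set V} (hb : closedBall (0 : V) 1 ⊆ K) {u : V} (hu : ‖u‖ = 1)
    {y : ℝ} (hy : |y| ≤ 1) :
    closedBall (0 : ((ℝ ∙ u)ᗮ : Submodule ℝ V)) (Real.sqrt (1 - y ^ 2)) ⊆ slice K u y := by
  intro z hz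
  apply hb
  rw [mem_closedBall_zero_iff] at hz ⊢
  have h0 : 0 ≤ 1 - y ^ 2 := by
    nlinarith only [hy, abs_nonneg y, sq_abs y]
  have h1 : ‖(z : V) + y • u‖ ^ 2 = ‖z‖ ^ 2 + y ^ 2 := by
    have horth : inner ℝ (z : V) (y • u) = 0 := by
      rw [inner_smul_right, real_inner_comm,
        Submodule.mem_orthogonal_singleton_iff_inner_right.mp z.2, mul_zero]
    have := norm_add_sq_eq_norm_sq_add_norm_sq_real horth
    rw [norm_smul, hu, mul_one, Real.norm_eq_abs] at this
    rw [sq, this, Submodule.coe_norm, abs_mul_abs_self]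
    ring
  have h2 : ‖z‖ ^ 2 ≤ 1 - y ^ 2 := by
    calc ‖z‖ ^ 2 ≤ (Real.sqrt (1 - y ^ 2)) ^ 2 := by gcongr
      _ = _ := Real.sq_sqrt h0
  have h3 : ‖(z : V) + y • u‖ ^ 2 ≤ 1 := by rw [h1]; linarith
  exact abs_le_one_iff_mul_self_le_one.2 (by linarith) |>.trans' (le_abs_self _)

theorem slice_sqrt_concave (hd : finrank ℝ V = 3) {K : Set V} (hK : IsBody K)
    (hb : closedBall (0 : V) 1 ⊆ K) {u : V} (hu : ‖u‖ = 1) :
    ConcaveOn ℝ (Icc (-1) 1) (fun y => Real.sqrt (vol (slice K u y))) := by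
  have hne : ∀ y ∈ Icc (-1 : ℝ) 1, (slice K u y).Nonempty := by
    intro y hy
    refine ⟨0, closedBall_subset_slice hb hu (abs_le.2 hy) ?_⟩
    rw [mem_closedBall_zero_iff, norm_zero]
    exact Real.sqrt_nonneg _
  have h2 := finrank_perp hd hu
  refine ⟨convex_Icc _ _, ?_⟩
  intro y hy z hz a b ha hb' hab
  have hKc := hK.compact
  have bm := brunn_minkowski (V := ((ℝ ∙ u)ᗮ : Submodule ℝ V))
    ((slice_isCompact hKc u y).smul a) ((slice_isCompact hKc u z).smul b)
    ((hne y hy).smul_set) ((hne z hz).smul_set) (by omega)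
  rw [h2, vol_smul_set, vol_smul_set, h2] at bm
  simp only [Nat.cast_ofNat] at bm
  rw [← Real.sqrt_eq_rpow, ← Real.sqrt_eq_rpow, ← Real.sqrt_eq_rpow,
    Real.sqrt_mul (by (clear * -; positivity)), Real.sqrt_mul (by positivity), Real.sqrt_sq (abs_nonneg _),
    Real.sqrt_sq (abs_nonneg _), abs_of_nonneg ha, abs_of_nonneg hb'] at bm
  simp only [smul_eq_mul]
  refine bm.trans (Real.sqrt_le_sqrt ?_)
  exact vol_mono (slice_isCompact hKc u _) (slice_combo_subset hK.convex u y z ha hb' hab)

theorem slice_ge (hd : finrank ℝ V = 3) {K : Set V} (hK : IsBody K)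
    (hb : closedBall (0 : V) 1 ⊆ K) {u : V} (hu : ‖u‖ = 1) {y : ℝ} (hy : |y| ≤ 1) :
    Real.pi * (1 - y ^ 2) ≤ vol (slice K u y) := by
  have h2 := finrank_perp hd hu
  have h0 : 0 ≤ 1 - y ^ 2 := by
    nlinarith only [hy, abs_nonneg y, sq_abs y]
  have h := vol_mono (slice_isCompact hK.compact u y) (closedBall_subset_slice hb hu hy)
  refine le_trans (le_of_eq ?_) h
  have : Nontrivial ((ℝ ∙ u)ᗮ : Submodule ℝ V) :=
    Module.nontrivial_of_finrank_pos (R := ℝ) (by omega)
  unfold vol
  rw [InnerProductSpace.volume_closedBall_of_dim_even (k := 1) (by omega), h2]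
  rw [ENNReal.toReal_mul, ENNReal.toReal_pow, ENNReal.toReal_ofReal (Real.sqrt_nonneg _),
    Real.sq_sqrt h0, ENNReal.toReal_ofReal (by positivity)]
  simp
  ring

theorem integral_slice {K : Set V} (hK : IsCompact K) {u : V} (hu : ‖u‖ = 1) (g : ℝ → ℝ)
    (hg : Continuous g) :
    ∫ x in K, g (inner ℝ x u) = ∫ y : ℝ, g y * vol (slice K u y) := by
  have hm : MeasurableSet K := hK.measurableSet
  rw [← integral_indicator hm, integral_eq_integral_prod u hu]
  have hint : Integrable (fun x : V => K.indicator (fun x => g (inner ℝ x u)) x) := by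
    rw [integrable_indicator_iff hm]
    exact (hg.comp (continuous_id.inner continuous_const)).continuousOn.integrableOn_compact hK
  have hint2 : Integrable (fun p : ℝ × ((ℝ ∙ u)ᗮ : Submodule ℝ V) =>
      K.indicator (fun x => g (inner ℝ x u)) ((p.2 : V) + p.1 • u)) := by
    have := ((prodEquiv_measurePreserving u hu).integrable_comp_emb
      (prodEquiv u hu).measurableEmbedding).2 hint
    refine this.congr (Filter.Eventually.of_forall fun p => ?_)
    simp only [Function.comp, prodEquiv_apply]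
  rw [Measure.volume_eq_prod] at hint2 ⊢
  rw [integral_prod _ hint2]
  refine integral_congr_ae (Filter.Eventually.of_forall fun y => ?_)
  show ∫ z : ((ℝ ∙ u)ᗮ : Submodule ℝ V), K.indicator (fun x => g (inner ℝ x u)) ((z : V) + y • u)
    = g y * vol (slice K u y)
  have e : (fun z : ((ℝ ∙ u)ᗮ : Submodule ℝ V) =>
      K.indicator (fun x => g (inner ℝ x u)) ((z : V) + y • u)) =
      (slice K u y).indicator (fun _ => g y) := by
    funext z
    by_cases hz : (z : V) + y • u ∈ K
    · rw [indicator_of_mem hz, indicator_of_mem (show z ∈ slice K u y from hz),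
        inner_prod_point hu]
    · rw [indicator_of_notMem hz, indicator_of_notMem (show z ∉ slice K u y from hz)]
  rw [e, integral_indicator (slice_isCompact hK u y).measurableSet, setIntegral_const,
    smul_eq_mul, mul_comm]
  rfl

end Vale.Agent.P237
end

section

/-!
# P237-F2, part 1: the planar formula for `beta`, slices of `K + [0,w]`, Riemann sums
-/

open MeasureTheory Metric Set Module
open scoped Pointwise

namespace Vale.Agent.P237

section General

variable {V : Type*} [NormedAddCommGroup V] [InnerProductSpace ℝ V] [FiniteDimensional ℝ V]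
  [MeasurableSpace V] [BorelSpace V]

omit [FiniteDimensional ℝ V] [MeasurableSpace V] [BorelSpace V] in
theorem le_supp {K : Set V} (hK : IsCompact K) (v : V) {x : V} (hx : x ∈ K) :
    inner ℝ x v ≤ supp K v := by
  have hc : Continuous (fun x : V => inner ℝ x v) := continuous_id.inner continuous_const
  exact le_csSup (hK.image hc).bddAbove (mem_image_of_mem _ hx)

omit [FiniteDimensional ℝ V] [MeasurableSpace V] [BorelSpace V] in
theorem exists_supp {K : Set V} (hK : IsCompact K) (hne : K.Nonempty) (v : V) :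
    ∃ x ∈ K, inner ℝ x v = supp K v := by
  have hc : Continuous (fun x : V => inner ℝ x v) := continuous_id.inner continuous_const
  have h := (hK.image hc).sSup_mem (hne.image _)
  exact h

/-- the width of a compact interval -/
theorem volume_compact_convex {S : Set ℝ} (hS : IsCompact S) (hc : Convex ℝ S)
    (hne : S.Nonempty) : volume S = ENNReal.ofReal (sSup S - sInf S) := by
  have h1 : S = Icc (sInf S) (sSup S) := by
    apply Subset.antisymm
    · intro x hx
      exact ⟨csInf_le hS.bddBelow hx, le_csSup hS.bddAbove hx⟩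
    · exact hc.ordConnected.out (hS.sInf_mem hne) (hS.sSup_mem hne)
  conv_lhs => rw [h1]
  rw [Real.volume_Icc]

omit [FiniteDimensional ℝ V] [MeasurableSpace V] [BorelSpace V] in
theorem sInf_image_inner {K : Set V} (v : V) :
    sInf ((fun x => inner ℝ x v) '' K) = - supp K (-v) := by
  unfold supp
  have : (fun x : V => inner ℝ x (-v)) '' K = -((fun x : V => inner ℝ x v) '' K) := by
    rw [← Set.image_neg_eq_neg, image_image]
    simp only [inner_neg_right]
  rw [this, Real.sInf_def]

/-- The planar formula: the shadow of a compact convex set along a unit vector `e` is its width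
in the orthogonal direction. -/
theorem shadow_plane (h2 : finrank ℝ V = 2) {C : Set V} (hC : IsCompact C) (hc : Convex ℝ C)
    (hne : C.Nonempty) {e f : V} (he : ‖e‖ = 1) (hf : ‖f‖ = 1) (hef : inner ℝ e f = 0) :
    shadow C e = supp C f + supp C (-f) := by
  have he0 : e ≠ 0 := by
    rintro rfl
    simp at he
  have : Fact (finrank ℝ V = 1 + 1) := ⟨h2⟩
  have h1 : finrank ℝ ((ℝ ∙ e)ᗮ : Submodule ℝ V) = 1 :=
    Submodule.finrank_orthogonal_span_singleton he0
  have hfm : f ∈ ((ℝ ∙ e)ᗮ : Submodule ℝ V) :=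
    Submodule.mem_orthogonal_singleton_iff_inner_right.mpr hef
  set f' : ((ℝ ∙ e)ᗮ : Submodule ℝ V) := ⟨f, hfm⟩ with hf'
  have hf'1 : ‖f'‖ = 1 := hf
  set φ : ℝ ≃ₗᵢ[ℝ] ((ℝ ∙ e)ᗮ : Submodule ℝ V) :=
    (LinearIsometry.toSpanSingleton ℝ ((ℝ ∙ e)ᗮ : Submodule ℝ V) hf'1).toLinearIsometryEquiv
      (by rw [h1, finrank_self]) with hφ
  have hφa : ∀ t : ℝ, φ t = t • f' := by
    intro t
    simp [hφ]
  have hproj : ∀ x : V, (ℝ ∙ e)ᗮ.orthogonalProjectionOnto x = (inner ℝ x f : ℝ) • f' := by
    intro x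
    obtain ⟨t, ht⟩ := φ.surjective ((ℝ ∙ e)ᗮ.orthogonalProjectionOnto x)
    rw [← ht, hφa]
    congr 1
    have e1 := eq_prod_point he x
    rw [← ht, hφa] at e1
    rw [e1, inner_add_left, inner_smul_left (𝕜 := ℝ) e, hef, mul_zero, add_zero]
    show t = inner ℝ (t • f) f
    rw [inner_smul_left, real_inner_self_eq_norm_sq, hf]
    simp
  have himg : (ℝ ∙ e)ᗮ.orthogonalProjectionOnto '' C = φ '' ((fun x => inner ℝ x f) '' C) := by
    rw [image_image]
    refine image_congr fun x _ => ?_
    rw [hproj, hφa]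
  have hcont : Continuous (fun x : V => inner ℝ x f) := continuous_id.inner continuous_const
  have hcomp : IsCompact ((fun x : V => inner ℝ x f) '' C) := hC.image hcont
  have hconv : Convex ℝ ((fun x : V => inner ℝ x f) '' C) :=
    hc.is_linear_image ⟨fun x y => inner_add_left _ _ _, fun r x => by
      simp [inner_smul_left]⟩
  have hvol : volume ((ℝ ∙ e)ᗮ.orthogonalProjectionOnto '' C) =
      volume ((fun x : V => inner ℝ x f) '' C) := by
    rw [himg, ← (φ.measurePreserving).measure_preimage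
      (hcomp.image φ.continuous).measurableSet.nullMeasurableSet,
      preimage_image_eq _ φ.injective]
  unfold shadow
  have hsup : sSup ((fun x : V => inner ℝ x f) '' C) = supp C f := rfl
  rw [hvol, volume_compact_convex hcomp hconv (hne.image _), sInf_image_inner, hsup,
    sub_neg_eq_add, ENNReal.toReal_ofReal]
  obtain ⟨x, hx⟩ := hne
  have := le_supp hC f hx
  have := le_supp hC (-f) hx
  rw [inner_neg_right] at this
  (clear hc e he hf hef he0 h1 hfm f' hf' hf'1 φ hφ hφa hproj himg hcont hcomp hconv hvol hsup; linarith)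

omit [FiniteDimensional ℝ V] [MeasurableSpace V] [BorelSpace V] in
theorem supp_smul_nonneg {K : Set V} {t : ℝ} (ht : 0 ≤ t) (v : V) :
    supp K (t • v) = t * supp K v := by
  unfold supp
  have : (fun x : V => inner ℝ x (t • v)) '' K = t • ((fun x : V => inner ℝ x v) '' K) := by
    rw [← Set.image_smul, image_image]
    simp only [inner_smul_right, smul_eq_mul]
  rw [this, Real.sSup_smul_of_nonneg ht, smul_eq_mul]

/-- Planar formula for `beta`. -/
theorem beta_plane (h2 : finrank ℝ V = 2) (J : V ≃ₗᵢ[ℝ] V) (hJ : ∀ w, inner ℝ w (J w) = 0)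
    {C : Set V} (hC : IsCompact C) (hc : Convex ℝ C) (hne : C.Nonempty) (w : V) :
    beta C w = supp C (J w) + supp C (-(J w)) := by
  by_cases hw : w = 0
  · subst hw
    rw [beta_zero, map_zero, neg_zero]
    have : supp C (0 : V) = 0 := by
      have := supp_smul_nonneg (K := C) (le_refl (0 : ℝ)) (0 : V)
      simpa using this
    rw [this, add_zero]
  · have hn : 0 < ‖w‖ := norm_pos_iff.2 hw
    have hu : ‖(‖w‖⁻¹ • w)‖ = 1 := norm_unit hw
    have hJu : J (‖w‖⁻¹ • w) = ‖w‖⁻¹ • J w := by simp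
    have key := shadow_plane h2 hC hc hne hu (by rw [LinearIsometryEquiv.norm_map, hu])
      (hJ (‖w‖⁻¹ • w))
    have e1 : beta C w = ‖w‖ * shadow C (‖w‖⁻¹ • w) := by
      have := beta_smul hC hc ‖w‖ (‖w‖⁻¹ • w)
      rw [norm_smul_unit hw, abs_of_pos hn, beta_unit hC hc hu] at this
      exact this
    rw [e1, key, hJu, ← smul_neg, supp_smul_nonneg (by positivity),
      supp_smul_nonneg (by positivity)]
    field_simp

/-- The volumes of the slices are integrable. -/
theorem integrable_vol_slice {K : Set V} (hK : IsCompact K) {u : V} (hu : ‖u‖ = 1) :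
    Integrable (fun y : ℝ => vol (slice K u y)) := by
  have hm : MeasurableSet (prodEquiv u hu ⁻¹' K) := (prodEquiv u hu).measurable hK.measurableSet
  have hfin : (volume.prod volume : Measure (ℝ × ((ℝ ∙ u)ᗮ : Submodule ℝ V)))
      (prodEquiv u hu ⁻¹' K) ≠ ⊤ := by
    rw [← Measure.volume_eq_prod, (prodEquiv_measurePreserving u hu).measure_preimage
      hK.measurableSet.nullMeasurableSet]
    exact hK.measure_lt_top.ne
  have h := Measure.integrable_measure_prodMk_left hm hfin
  refine h.congr (Filter.Eventually.of_forall fun y => ?_)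
  show (volume (Prod.mk y ⁻¹' (prodEquiv u hu ⁻¹' K))).toReal = vol (slice K u y)
  unfold vol
  congr 2
  ext z
  simp [prodEquiv_apply, slice]

theorem vol_eq_integral_slice {K : Set V} (hK : IsCompact K) {u : V} (hu : ‖u‖ = 1) :
    vol K = ∫ y : ℝ, vol (slice K u y) := by
  have h := integral_slice hK hu (fun _ => 1) continuous_const
  simp only [one_mul, setIntegral_const, smul_eq_mul, mul_one] at h
  exact h

omit [FiniteDimensional ℝ V] [MeasurableSpace V] [BorelSpace V] in
/-- slices of `K + [0,w]` for `w ⟂ u` -/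
theorem slice_add_segment (K : Set V) (u : V) (y : ℝ) (w : ((ℝ ∙ u)ᗮ : Submodule ℝ V)) :
    slice (K + segment ℝ 0 (w : V)) u y = slice K u y + segment ℝ 0 w := by
  ext z
  constructor
  · rintro ⟨a, ha, b, hb, hab⟩
    rw [segment_eq_image_smul] at hb
    obtain ⟨r, hr, rfl⟩ := hb
    refine ⟨z - r • w, ?_, r • w, ?_, by simp⟩
    · show ((z - r • w : ((ℝ ∙ u)ᗮ : Submodule ℝ V)) : V) + y • u ∈ K
      have : ((z - r • w : ((ℝ ∙ u)ᗮ : Submodule ℝ V)) : V) + y • u = a := by
        have hab' : a + r • (w : V) = (z : V) + y • u := hab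
        push_cast
        rw [sub_add_eq_add_sub, ← hab']
        simp
      rw [this]
      exact ha
    · rw [segment_eq_image_smul]
      exact ⟨r, hr, rfl⟩
  · rintro ⟨a, ha, b, hb, rfl⟩
    rw [segment_eq_image_smul] at hb
    obtain ⟨r, hr, rfl⟩ := hb
    refine ⟨(a : V) + y • u, ha, r • (w : V), ?_, ?_⟩
    · rw [segment_eq_image_smul]
      exact ⟨r, hr, rfl⟩
    · push_cast
      abel

/-- `beta K w` is the integral of the `beta` of the slices. -/
theorem beta_eq_integral_slice {K : Set V} (hK : IsCompact K) {u : V} (hu : ‖u‖ = 1)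
    (w : ((ℝ ∙ u)ᗮ : Submodule ℝ V)) :
    beta K (w : V) = ∫ y : ℝ, beta (slice K u y) w := by
  have hKs : IsCompact (K + segment ℝ 0 (w : V)) := hK.add (isCompact_segment' _ _)
  unfold beta
  rw [vol_eq_integral_slice hKs hu, vol_eq_integral_slice hK hu,
    ← integral_sub (integrable_vol_slice hKs hu) (integrable_vol_slice hK hu)]
  simp only [slice_add_segment]

end General

section Riemann

theorem integral_eq_two_mul {f : ℝ → ℝ} {h : ℝ} (hh : 0 < h)
    (h0 : ∀ y, h < y → f y = 0) (he : ∀ y, f (-y) = f y) :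
    ∫ y : ℝ, f y = 2 * ∫ y in (0 : ℝ)..h, f y := by
  have h1 : (∫ y : ℝ, f y) = ∫ y : ℝ, f |y| := by
    refine integral_congr_ae (Filter.Eventually.of_forall fun y => ?_)
    rcases abs_choice y with h | h
    · simp only [h]
    · simp only [h, he]
  rw [h1, integral_comp_abs, intervalIntegral.integral_of_le hh.le]
  congr 1
  refine (setIntegral_eq_of_subset_of_forall_sdiff_eq_zero measurableSet_Ioi ?_ ?_)
  · exact Ioc_subset_Ioi_self
  · intro y hy
    refine h0 y ?_
    by_contra hcon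
    exact hy.2 ⟨hy.1, not_lt.1 hcon⟩

theorem antitone_scaled {f : ℝ → ℝ} {h : ℝ} (hh : 0 < h) (hf : AntitoneOn f (Icc 0 h))
    {m : ℕ} (hm : 0 < m) :
    AntitoneOn (fun s : ℝ => f (h / m * s)) (Icc (0 : ℝ) (0 + (m : ℝ))) := by
  have hm' : (0 : ℝ) < m := by exact_mod_cast hm
  have hc : 0 < h / m := by positivity
  have hmem : ∀ s ∈ Icc (0 : ℝ) (0 + (m : ℝ)), h / m * s ∈ Icc 0 h := by
    intro s hs
    refine ⟨mul_nonneg hc.le hs.1, ?_⟩
    have h2 : s ≤ m := by simpa using hs.2
    calc h / m * s ≤ h / m * m := by gcongr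
      _ = h := by field_simp
  intro s hs t ht hst
  exact hf (hmem s hs) (hmem t ht) (by gcongr)

theorem integral_scaled {f : ℝ → ℝ} {h : ℝ} (hh : 0 < h) {m : ℕ} (hm : 0 < m) :
    ∫ y in (0 : ℝ)..h, f y = (h / m) * ∫ s in (0 : ℝ)..(0 + (m : ℝ)), f (h / m * s) := by
  have hm' : (0 : ℝ) < m := by exact_mod_cast hm
  have hc : 0 < h / m := by positivity
  rw [intervalIntegral.integral_comp_mul_left f hc.ne', smul_eq_mul, ← mul_assoc,
    mul_inv_cancel₀ hc.ne', one_mul, mul_zero, zero_add]
  congr 1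
  field_simp

/-- Lower Riemann sums for even functions, antitone on `[0,h]`. -/
theorem riemann_lower {f : ℝ → ℝ} {h : ℝ} (hh : 0 < h) (hf : AntitoneOn f (Icc 0 h))
    (h0 : ∀ y, h < y → f y = 0) (he : ∀ y, f (-y) = f y) {m : ℕ} (hm : 0 < m) :
    2 * (h / m) * ∑ j : Fin m, f (h / m * ((j : ℕ) + 1)) ≤ ∫ y : ℝ, f y := by
  have hm' : (0 : ℝ) < m := by exact_mod_cast hm
  have hc : 0 < h / m := by positivity
  rw [integral_eq_two_mul hh h0 he, integral_scaled hh hm, mul_assoc]
  have h1 := (antitone_scaled hh hf hm).sum_le_integral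
  rw [Finset.sum_range] at h1
  have h2 : ∑ j : Fin m, f (h / m * ((j : ℕ) + 1)) ≤
      ∫ s in (0 : ℝ)..(0 + (m : ℝ)), f (h / m * s) := by
    refine le_trans (le_of_eq ?_) h1
    refine Finset.sum_congr rfl fun j _ => ?_
    push_cast
    rw [zero_add]
  gcongr

theorem riemann_upper {f : ℝ → ℝ} {h : ℝ} (hh : 0 < h) (hf : AntitoneOn f (Icc 0 h))
    (hnn : 0 ≤ f h)
    (h0 : ∀ y, h < y → f y = 0) (he : ∀ y, f (-y) = f y) {m : ℕ} (hm : 0 < m) :
    ∫ y : ℝ, f y ≤ 2 * (h / m) * (f 0 + ∑ j : Fin m, f (h / m * ((j : ℕ) + 1))) := by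
  have hm' : (0 : ℝ) < m := by exact_mod_cast hm
  have hc : 0 < h / m := by positivity
  rw [integral_eq_two_mul hh h0 he, integral_scaled hh hm, mul_assoc]
  have h1 := (antitone_scaled hh hf hm).integral_le_sum
  have h2 : ∑ i ∈ Finset.range m, f (h / m * (0 + (i : ℝ))) ≤
      f 0 + ∑ j : Fin m, f (h / m * ((j : ℕ) + 1)) := by
    have e1 := Finset.sum_range_succ (fun i : ℕ => f (h / m * (0 + (i : ℝ)))) m
    have e2 := Finset.sum_range_succ' (fun i : ℕ => f (h / m * (0 + (i : ℝ)))) m
    have e3 : f (h / m * (0 + (m : ℝ))) = f h := by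
      congr 1
      field_simp
      ring
    have e4 : ∑ i ∈ Finset.range m, f (h / m * (0 + ((i + 1 : ℕ) : ℝ))) =
        ∑ j : Fin m, f (h / m * ((j : ℕ) + 1)) := by
      rw [Finset.sum_range]
      refine Finset.sum_congr rfl fun j _ => ?_
      push_cast
      rw [zero_add]
    have e5 : f (h / m * (0 + ((0 : ℕ) : ℝ))) = f 0 := by simp
    rw [e4, e5] at e2
    rw [e3, e2] at e1
    linarith only [hnn, e1]
  have h3 := h1.trans h2
  gcongr

end Riemann

end Vale.Agent.P237
end

section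

/-!
# P237-F2: a lower bound for the shadows of the projection body (dimension 3)
-/

open MeasureTheory Metric Set Module
open scoped Pointwise

namespace Vale.Agent.P237

variable {V : Type*} [NormedAddCommGroup V] [InnerProductSpace ℝ V] [FiniteDimensional ℝ V]
  [MeasurableSpace V] [BorelSpace V]

omit [FiniteDimensional ℝ V] [MeasurableSpace V] [BorelSpace V] in
theorem supp_pos {K : Set V} (hK : IsSymBody K) {u : V} (hu : ‖u‖ = 1) : 0 < supp K u := by
  obtain ⟨x, hx⟩ := hK.int
  obtain ⟨ε, hε, hb⟩ := Metric.mem_nhds_iff.1 (mem_interior_iff_mem_nhds.1 hx)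
  have h1 : x + (ε / 2) • u ∈ K := by
    apply hb
    rw [mem_ball, dist_eq_norm, add_sub_cancel_left, norm_smul, hu, mul_one, Real.norm_eq_abs,
      abs_of_pos (by positivity)]
    linarith
  have h2 : x - (ε / 2) • u ∈ K := by
    apply hb
    rw [mem_ball, dist_eq_norm, sub_sub_cancel_left, norm_neg, norm_smul, hu, mul_one,
      Real.norm_eq_abs, abs_of_pos (by positivity)]
    linarith
  have h3 := hK.symm _ h2
  have h4 := hK.convex h1 h3 (by norm_num : (0 : ℝ) ≤ 1 / 2) (by norm_num : (0 : ℝ) ≤ 1 / 2)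
    (by norm_num)
  have h5 := le_supp hK.compact u h4
  have e : (1 / 2 : ℝ) • (x + (ε / 2) • u) + (1 / 2 : ℝ) • (-(x - (ε / 2) • u)) =
      (ε / 2) • u := by
    module
  rw [e, inner_smul_left, real_inner_self_eq_norm_sq, hu] at h5
  simp only [conj_trivial, one_pow, mul_one] at h5
  linarith only [hε, h5]

theorem slice_nonempty {K : Set V} (hK : IsSymBody K) {u : V} (hu : ‖u‖ = 1) {y : ℝ}
    (hy : y ∈ Icc (-supp K u) (supp K u)) : (slice K u y).Nonempty := by
  have hpos := supp_pos hK hu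
  obtain ⟨x, hx, hxu⟩ := exists_supp hK.compact (hK.int.mono interior_subset) u
  have h1 : (slice K u (supp K u)).Nonempty := by
    refine ⟨(ℝ ∙ u)ᗮ.orthogonalProjectionOnto x, ?_⟩
    have := eq_prod_point hu x
    rw [hxu] at this
    show _ ∈ K
    rw [← this]
    exact hx
  have h2 : (slice K u (-supp K u)).Nonempty := by
    rw [slice_neg hK.symm]
    exact h1.neg
  set h := supp K u with hh
  have ha : 0 ≤ (h + y) / (2 * h) := div_nonneg (by linarith [hy.1]) (by positivity)
  have hb : 0 ≤ (h - y) / (2 * h) := div_nonneg (by linarith [hy.2]) (by positivity)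
  have hab : (h + y) / (2 * h) + (h - y) / (2 * h) = 1 := by field_simp; ring
  have hs := slice_combo_subset hK.convex u h (-h) ha hb hab
  have e : (h + y) / (2 * h) * h + (h - y) / (2 * h) * (-h) = y := by field_simp; ring
  rw [e] at hs
  exact ((h1.smul_set).add h2.smul_set).mono hs

omit [FiniteDimensional ℝ V] [MeasurableSpace V] [BorelSpace V] in
theorem slice_eq_empty {K : Set V} (hK : IsCompact K) {u : V} (hu : ‖u‖ = 1) {y : ℝ}
    (hy : supp K u < y) : slice K u y = ∅ := by
  rw [eq_empty_iff_forall_notMem]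
  intro z hz
  have h := le_supp hK u hz
  rw [inner_prod_point hu] at h
  linarith

theorem beta_empty (w : V) : beta (∅ : Set V) w = 0 := by
  unfold beta vol
  simp

theorem beta_neg_set (S : Set V) (w : V) : beta (-S) w = beta S w := by
  have h1 : -S + segment ℝ 0 w = -(S + segment ℝ 0 (-w)) := by
    rw [neg_add]
    congr 1
    rw [segment_eq_image_smul, segment_eq_image_smul, ← Set.image_neg_eq_neg, image_image]
    simp only [smul_neg, neg_neg]
  rw [← beta_neg S w]
  unfold beta vol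
  rw [h1, Measure.measure_neg, Measure.measure_neg]

theorem antitone_of_combo {g : ℝ → ℝ} {h : ℝ}
    (hg : ∀ y ∈ Icc 0 h, ∀ a b : ℝ, 0 ≤ a → 0 ≤ b → a + b = 1 → g y ≤ g (a * y + b * (-y))) :
    AntitoneOn g (Icc 0 h) := by
  intro y hy z hz hyz
  rcases hz.1.eq_or_lt with h0 | h0
  · have : y = z := le_antisymm hyz (h0 ▸ hy.1)
    rw [this]
  · have h1 := hg z hz ((z + y) / (2 * z)) ((z - y) / (2 * z))
      (div_nonneg (by linarith [hy.1]) (by positivity))
      (div_nonneg (by linarith) (by positivity)) (by field_simp; ring)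
    have e : (z + y) / (2 * z) * z + (z - y) / (2 * z) * (-z) = y := by field_simp; ring
    rwa [e] at h1

theorem sqrt_slice_antitone (hd : finrank ℝ V = 3) {K : Set V} (hK : IsSymBody K) {u : V}
    (hu : ‖u‖ = 1) :
    AntitoneOn (fun y => Real.sqrt (vol (slice K u y))) (Icc 0 (supp K u)) := by
  apply antitone_of_combo
  intro y hy a b ha hb hab
  have h2 := finrank_perp hd hu
  have hKc := hK.compact
  have hpos := supp_pos hK hu
  have hne1 : (slice K u y).Nonempty := slice_nonempty hK hu ⟨by linarith only [hpos, hy.1], hy.2⟩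
  have hne2 : (slice K u (-y)).Nonempty :=
    slice_nonempty hK hu ⟨by linarith only [hy.2], by linarith [hy.1]⟩
  have bm := brunn_minkowski (V := ((ℝ ∙ u)ᗮ : Submodule ℝ V))
    ((slice_isCompact hKc u y).smul a) ((slice_isCompact hKc u (-y)).smul b)
    (hne1.smul_set) (hne2.smul_set) (by omega)
  rw [h2, vol_smul_set, vol_smul_set, h2] at bm
  simp only [Nat.cast_ofNat] at bm
  rw [← Real.sqrt_eq_rpow, ← Real.sqrt_eq_rpow, ← Real.sqrt_eq_rpow,
    Real.sqrt_mul (by (clear * -; positivity)), Real.sqrt_mul (by positivity), Real.sqrt_sq (abs_nonneg _),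
    Real.sqrt_sq (abs_nonneg _), abs_of_nonneg ha, abs_of_nonneg hb, slice_vol_even hK hu,
    ← add_mul, hab, one_mul] at bm
  refine bm.trans (Real.sqrt_le_sqrt ?_)
  exact vol_mono (slice_isCompact hKc u _) (slice_combo_subset hK.convex u y (-y) ha hb hab)

/-- rotation by a right angle in a Euclidean plane -/
theorem exists_rotation {W : Type*} [NormedAddCommGroup W] [InnerProductSpace ℝ W]
    (h2 : finrank ℝ W = 2) : ∃ J : W ≃ₗᵢ[ℝ] W, ∀ w, inner ℝ w (J w) = 0 := by
  have : Fact (finrank ℝ W = 2) := ⟨h2⟩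
  have : FiniteDimensional ℝ W := Module.finite_of_finrank_pos (by omega)
  let o : Orientation ℝ W (Fin 2) :=
    ((stdOrthonormalBasis ℝ W).reindex (finCongr h2)).toBasis.orientation
  refine ⟨o.rightAngleRotation, fun w => ?_⟩
  rw [real_inner_comm]
  exact o.inner_rightAngleRotation_self w

theorem beta_slice_antitone (hd : finrank ℝ V = 3) {K : Set V} (hK : IsSymBody K) {u : V}
    (hu : ‖u‖ = 1) (w : ((ℝ ∙ u)ᗮ : Submodule ℝ V)) :
    AntitoneOn (fun y => beta (slice K u y) w) (Icc 0 (supp K u)) := by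
  apply antitone_of_combo
  intro y hy a b ha hb hab
  have h2 := finrank_perp hd hu
  obtain ⟨J, hJ⟩ := exists_rotation h2
  have hKc := hK.compact
  have hpos := supp_pos hK hu
  have hne1 : (slice K u y).Nonempty := slice_nonempty hK hu ⟨by linarith only [hpos, hy.1], hy.2⟩
  have hne2 : (slice K u (-y)).Nonempty :=
    slice_nonempty hK hu ⟨by linarith [hy.2], by linarith [hy.1]⟩
  have hsub := slice_combo_subset hK.convex u y (-y) ha hb hab
  have hne3 : (slice K u (a * y + b * (-y))).Nonempty :=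
    ((hne1.smul_set).add hne2.smul_set).mono hsub
  have hc1 := slice_isCompact hKc u y
  have hc3 := slice_isCompact hKc u (a * y + b * (-y))
  rw [beta_plane h2 J hJ hc1 (slice_convex hK.convex u y) hne1,
    beta_plane h2 J hJ hc3 (slice_convex hK.convex u _) hne3]
  obtain ⟨p, hp, hpe⟩ := exists_supp hc1 hne1 (J w)
  obtain ⟨q, hq, hqe⟩ := exists_supp hc1 hne1 (-(J w))
  have hp' : -p ∈ slice K u (-y) := by
    rw [slice_neg hK.symm]
    exact Set.neg_mem_neg.2 hp
  have hq' : -q ∈ slice K u (-y) := by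
    rw [slice_neg hK.symm]
    exact Set.neg_mem_neg.2 hq
  have m1 : a • p + b • (-q) ∈ slice K u (a * y + b * (-y)) :=
    hsub (add_mem_add (smul_mem_smul_set hp) (smul_mem_smul_set hq'))
  have m2 : a • q + b • (-p) ∈ slice K u (a * y + b * (-y)) :=
    hsub (add_mem_add (smul_mem_smul_set hq) (smul_mem_smul_set hp'))
  have i1 := le_supp hc3 (J w) m1
  have i2 := le_supp hc3 (-(J w)) m2
  have hbe : b = 1 - a := by linarith only [hab]
  have e1 : inner ℝ (a • p + b • (-q)) (J w) =
      a * inner ℝ p (J w) + b * inner ℝ q (-(J w)) := by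
    rw [inner_add_left, inner_smul_left, inner_smul_left, inner_neg_left, inner_neg_right]
    simp only [Real.ringHom_apply, Submodule.coe_inner, mul_neg]
  have e2 : inner ℝ (a • q + b • (-p)) (-(J w)) =
      a * inner ℝ q (-(J w)) + b * inner ℝ p (J w) := by
    rw [inner_add_left, inner_smul_left, inner_smul_left, inner_neg_left, inner_neg_right,
      inner_neg_right]
    simp only [Real.ringHom_apply, Submodule.coe_inner, mul_neg, neg_neg]
  rw [e1, hpe, hqe] at i1
  rw [e2, hpe, hqe] at i2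
  rw [hbe] at i1 i2 ⊢
  linarith only [i1, i2]

/-- The key inequality at level `m`. -/
theorem sqrt_vol_ge (hd : finrank ℝ V = 3) {K : Set V} (hK : IsSymBody K) {u : V}
    (hu : ‖u‖ = 1) {D : Set ((ℝ ∙ u)ᗮ : Submodule ℝ V)} (hDc : IsCompact D)
    (hD : D = {z | ∀ w : ((ℝ ∙ u)ᗮ : Submodule ℝ V), inner ℝ z w ≤ beta K (w : V)})
    {m : ℕ} (hm : 0 < m) :
    2 * ∫ y : ℝ, Real.sqrt (vol (slice K u y)) ≤
      Real.sqrt (vol D) + 4 * (supp K u / m) * Real.sqrt (vol (slice K u 0)) := by
  have h2 := finrank_perp hd hu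
  obtain ⟨J, hJ⟩ := exists_rotation h2
  have hKc := hK.compact
  have hpos := supp_pos hK hu
  set h := supp K u with hh
  have hm' : (0 : ℝ) < m := by exact_mod_cast hm
  set c : ℝ := h / m with hc
  have hcpos : 0 < c := by positivity
  set S : Fin m → Set ((ℝ ∙ u)ᗮ : Submodule ℝ V) := fun j => slice K u (c * ((j : ℕ) + 1)) with hS
  have hmem : ∀ j : Fin m, c * ((j : ℕ) + 1) ∈ Icc 0 h := by
    intro j
    refine ⟨by (clear * - hpos hm; positivity), ?_⟩
    have h1 : ((j : ℕ) : ℝ) + 1 ≤ m := by exact_mod_cast j.2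
    calc c * ((j : ℕ) + 1) ≤ c * m := by (clear * - h1 hpos hm; gcongr)
      _ = h := by rw [hc]; field_simp
  have hSne : ∀ j, (S j).Nonempty := fun j =>
    slice_nonempty hK hu ⟨by linarith only [hpos, (hmem j).1], (hmem j).2⟩
  have hSc : ∀ j, IsCompact (S j) := fun j => slice_isCompact hKc u _
  have hSconv : ∀ j, Convex ℝ (S j) := fun j => slice_convex hK.convex u _
  -- the difference bodies
  set T : Fin m → Set ((ℝ ∙ u)ᗮ : Submodule ℝ V) := fun j => S j + -S j with hT
  have hTc : ∀ j, IsCompact (T j) := fun j => (hSc j).add (hSc j).neg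
  have hTne : ∀ j, (T j).Nonempty := fun j => (hSne j).add (hSne j).neg
  have hTvol : ∀ j, 2 * Real.sqrt (vol (S j)) ≤ Real.sqrt (vol (T j)) := by
    intro j
    have bm := brunn_minkowski (V := ((ℝ ∙ u)ᗮ : Submodule ℝ V)) (hSc j) (hSc j).neg (hSne j)
      (hSne j).neg (by omega)
    rw [h2] at bm
    simp only [Nat.cast_ofNat] at bm
    rw [← Real.sqrt_eq_rpow, ← Real.sqrt_eq_rpow, ← Real.sqrt_eq_rpow] at bm
    have e : vol (-S j) = vol (S j) := by
      unfold vol
      rw [Measure.measure_neg]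
    rw [e] at bm
    (clear hd hK hu D hDc hD hm h2 J hJ hKc hpos hh hm' hc hcpos hS hmem hSne hSc hSconv hT hTc hTne e; linarith)
  -- D contains the rotated Minkowski sum
  have hsub : J.symm '' ((2 * c) • ∑ j, T j) ⊆ D := by
    rintro _ ⟨_, ⟨z, hz, rfl⟩, rfl⟩
    rw [hD]
    intro w
    obtain ⟨g, hg, rfl⟩ := (Set.mem_fintype_sum _ _).1 hz
    have e1 : inner ℝ (J.symm ((2 * c) • ∑ j, g j)) w = 2 * c * ∑ j, inner ℝ (g j) (J w) := by
      have : inner ℝ (J.symm ((2 * c) • ∑ j, g j)) w =
          inner ℝ ((2 * c) • ∑ j, g j) (J w) := by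
        rw [← J.inner_map_map (J.symm ((2 * c) • ∑ j, g j)) w, J.apply_symm_apply]
      rw [this, inner_smul_left, sum_inner]
      simp only [Real.ringHom_apply, Submodule.coe_inner]
    show inner ℝ (J.symm ((2 * c) • ∑ j, g j)) w ≤ beta K (w : V)
    rw [e1, beta_eq_integral_slice hKc hu w]
    have hR := riemann_lower (f := fun y => beta (slice K u y) w) hpos
      (beta_slice_antitone hd hK hu w)
      (fun y hy => by
        show beta (slice K u y) w = 0
        rw [slice_eq_empty hKc hu hy, beta_empty])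
      (fun y => by
        show beta (slice K u (-y)) w = beta (slice K u y) w
        rw [slice_neg hK.symm, beta_neg_set]) hm
    refine le_trans ?_ hR
    have hj : ∀ j : Fin m, inner ℝ (g j) (J w) ≤ beta (slice K u (c * ((j : ℕ) + 1))) w := by
      intro j
      obtain ⟨a, ha, b, hb, hab⟩ := hg j
      rw [beta_plane h2 J hJ (hSc j) (hSconv j) (hSne j), ← hab, inner_add_left]
      have i1 := le_supp (hSc j) (J w) ha
      have i2 := le_supp (hSc j) (-(J w)) (Set.mem_neg.1 hb)
      rw [inner_neg_left, inner_neg_right, neg_neg] at i2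
      linarith only [i1, i2]
    have : ∑ j : Fin m, inner ℝ (g j) (J w) ≤
        ∑ j : Fin m, beta (slice K u (c * ((j : ℕ) + 1))) w :=
      Finset.sum_le_sum fun j _ => hj j
    have h2c : 0 ≤ 2 * c := by positivity
    exact mul_le_mul_of_nonneg_left this h2c
  have hsumc : IsCompact (∑ j, T j) := isCompact_sum hTc
  have hvol1 : (2 * c) ^ 2 * vol (∑ j, T j) ≤ vol D := by
    have h3 := vol_mono hDc hsub
    have e : vol (J.symm '' ((2 * c) • ∑ j, T j)) = vol ((2 * c) • ∑ j, T j) := by
      unfold vol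
      rw [← (J.symm.measurePreserving).measure_preimage
        (((hsumc.smul (2 * c)).image J.symm.continuous).measurableSet.nullMeasurableSet),
        preimage_image_eq _ J.symm.injective]
    rw [e, vol_smul_set, h2, abs_of_nonneg (by positivity)] at h3
    exact h3
  have hvol2 : 2 * c * Real.sqrt (vol (∑ j, T j)) ≤ Real.sqrt (vol D) := by
    calc 2 * c * Real.sqrt (vol (∑ j, T j)) =
        Real.sqrt ((2 * c) ^ 2 * vol (∑ j, T j)) := by
          rw [Real.sqrt_mul (by positivity), Real.sqrt_sq (by positivity)]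
      _ ≤ _ := Real.sqrt_le_sqrt hvol1
  have hbm := bm_sum (V := ((ℝ ∙ u)ᗮ : Submodule ℝ V)) hTc hTne (by omega)
  rw [h2] at hbm
  simp only [Nat.cast_ofNat] at hbm
  simp only [← Real.sqrt_eq_rpow] at hbm
  have hs1 : ∑ j, 2 * Real.sqrt (vol (S j)) ≤ Real.sqrt (vol (∑ j, T j)) :=
    (Finset.sum_le_sum fun j _ => hTvol j).trans hbm
  have hU := riemann_upper (f := fun y => Real.sqrt (vol (slice K u y))) hpos
      (sqrt_slice_antitone hd hK hu) (Real.sqrt_nonneg _)
      (fun y hy => by
        show Real.sqrt (vol (slice K u y)) = 0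
        rw [slice_eq_empty hKc hu hy]
        simp [vol])
      (fun y => by
        show Real.sqrt (vol (slice K u (-y))) = Real.sqrt (vol (slice K u y))
        rw [slice_vol_even hK hu]) hm
  rw [← Finset.mul_sum] at hs1
  have hs2 : 2 * c * (2 * ∑ j, Real.sqrt (vol (S j))) ≤ 2 * c * Real.sqrt (vol (∑ j, T j)) :=
    mul_le_mul_of_nonneg_left hs1 (by positivity)
  have hU' : ∫ y : ℝ, Real.sqrt (vol (slice K u y)) ≤ 2 * c * (Real.sqrt (vol (slice K u 0)) +
      ∑ j, Real.sqrt (vol (S j))) := hU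
  nlinarith [hs2, hU', hvol2]

theorem shadow_projBody_ge (hd : finrank ℝ V = 3) {K : Set V} (hK : IsSymBody K) {u : V}
    (hu : ‖u‖ = 1) :
    4 * (∫ y : ℝ, Real.sqrt (vol (slice K u y))) ^ 2 ≤ shadow (projBody K) u := by
  have hKc := hK.compact
  have hPi := projBody_isSymBody hK.toIsBody
  have hD : (ℝ ∙ u)ᗮ.orthogonalProjectionOnto '' (projBody K) =
      {z | ∀ w : ((ℝ ∙ u)ᗮ : Submodule ℝ V), inner ℝ z w ≤ beta K (w : V)} := by
    rw [projBody_eq_wulff hKc hK.convex]
    refine wulff_proj (fun t v ht => ?_) (beta_add_le hKc hK.convex) _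
    rw [beta_smul hKc hK.convex, abs_of_nonneg ht]
  have hDc : IsCompact ((ℝ ∙ u)ᗮ.orthogonalProjectionOnto '' (projBody K)) :=
    hPi.compact.image (ContinuousLinearMap.continuous _)
  have key : 2 * ∫ y : ℝ, Real.sqrt (vol (slice K u y)) ≤
      Real.sqrt (shadow (projBody K) u) := by
    refine le_of_forall_pos_le_add fun ε hε => ?_
    obtain ⟨m, hm⟩ := exists_nat_gt (4 * supp K u * Real.sqrt (vol (slice K u 0)) / ε)
    have hnn : 0 ≤ 4 * supp K u * Real.sqrt (vol (slice K u 0)) / ε := by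
      have := supp_pos hK hu
      (clear hd hKc hPi hD hDc m hm; positivity)
    have hm' : (0 : ℝ) < m := hnn.trans_lt hm
    have hm0 : 0 < m := by exact_mod_cast hm'
    have h1 := sqrt_vol_ge hd hK hu hDc hD hm0
    have h3 : 4 * (supp K u / m) * Real.sqrt (vol (slice K u 0)) ≤ ε := by
      rw [div_lt_iff₀ hε] at hm
      have : 4 * (supp K u / m) * Real.sqrt (vol (slice K u 0)) =
          4 * supp K u * Real.sqrt (vol (slice K u 0)) / m := by ring
      rw [this, div_le_iff₀ hm']
      (clear hd hK hu hKc hPi hD hDc hε hnn hm' hm0 h1 this; linarith)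
    have e : vol ((ℝ ∙ u)ᗮ.orthogonalProjectionOnto '' (projBody K)) = shadow (projBody K) u := rfl
    rw [e] at h1
    (clear hd hK hu hKc hPi hD hDc hε hm hnn hm' hm0 e; linarith)
  have hI : 0 ≤ ∫ y : ℝ, Real.sqrt (vol (slice K u y)) :=
    integral_nonneg fun y => Real.sqrt_nonneg _
  have hsh : 0 ≤ shadow (projBody K) u := shadow_nonneg _ _
  calc 4 * (∫ y : ℝ, Real.sqrt (vol (slice K u y))) ^ 2 =
      (2 * ∫ y : ℝ, Real.sqrt (vol (slice K u y))) ^ 2 := by ring
    _ ≤ (Real.sqrt (shadow (projBody K) u)) ^ 2 := by gcongr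
    _ = shadow (projBody K) u := Real.sq_sqrt hsh

end Vale.Agent.P237
end

section

/-!
# P237: John position
-/

open MeasureTheory Metric Set Module
open scoped Pointwise

namespace Vale.Agent.P237

section basic

variable {V : Type*} [NormedAddCommGroup V] [InnerProductSpace ℝ V]

theorem IsSymBody.zero_mem_interior {K : Set V} (hK : IsSymBody K) : (0 : V) ∈ interior K := by
  obtain ⟨x, hx⟩ := hK.int
  have hneg : -x ∈ interior K := by
    have h1 : -K = K := by
      ext y
      constructor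
      · intro hy
        have := hK.symm _ (Set.mem_neg.1 hy)
        simpa using this
      · intro hy
        exact Set.mem_neg.2 (hK.symm _ hy)
    have h2 : -(interior K) = interior K := by
      have h3 : interior (-K) = -(interior K) := by
        have := (Homeomorph.neg V).preimage_interior K
        simpa [Set.image_neg_eq_neg] using this.symm
      rw [← h3, h1]
    rw [← h2]
    simpa using hx
  have := hK.convex.interior.midpoint_mem hx hneg
  simpa using this

theorem IsSymBody.exists_closedBall {K : Set V} (hK : IsSymBody K) :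
    ∃ r : ℝ, 0 < r ∧ closedBall (0 : V) r ⊆ K := by
  obtain ⟨r, hr, h⟩ := Metric.mem_nhds_iff.1 (mem_interior_iff_mem_nhds.1 hK.zero_mem_interior)
  exact ⟨r / 2, by positivity, (closedBall_subset_ball (by linarith)).trans h⟩

/-- A symmetric convex body is balanced. -/
theorem IsSymBody.smul_mem {K : Set V} (hK : IsSymBody K) {x : V} (hx : x ∈ K) {t : ℝ}
    (ht : |t| ≤ 1) : t • x ∈ K := by
  have h := abs_le.1 ht
  have h1 : t • x = ((1 + t) / 2) • x + ((1 - t) / 2) • (-x) := by
    rw [smul_neg, ← sub_eq_add_neg, ← sub_smul]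
    congr 1
    ring
  rw [h1]
  exact hK.convex hx (hK.symm x hx) (by linarith only [h]) (by linarith only [h]) (by ring)

end basic

variable {V : Type*} [NormedAddCommGroup V] [InnerProductSpace ℝ V] [FiniteDimensional ℝ V]
  [MeasurableSpace V] [BorelSpace V]

theorem exists_johnPos {K : Set V} (hK : IsSymBody K) :
    ∃ T : V ≃ₗ[ℝ] V, JohnPos (T '' K) := by
  obtain ⟨r, hr, hrK⟩ := hK.exists_closedBall
  obtain ⟨R, hR⟩ := hK.compact.isBounded.subset_closedBall (0 : V)
  let A : Set (V →L[ℝ] V) := {S | ∀ x ∈ closedBall (0 : V) 1, S x ∈ K}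
  have hAc : IsClosed A := by
    have : A = ⋂ x ∈ closedBall (0 : V) 1, {S : V →L[ℝ] V | S x ∈ K} := by
      ext S; simp only [mem_closedBall, dist_zero_right, mem_ofPred_eq, mem_iInter, A]
    rw [this]
    refine isClosed_biInter fun x _ => ?_
    exact hK.compact.isClosed.preimage (ContinuousLinearMap.apply ℝ V x).continuous
  have hAb : Bornology.IsBounded A := by
    refine (Metric.isBounded_iff_subset_closedBall (0 : V →L[ℝ] V)).2 ⟨max R 0, fun S hS => ?_⟩
    rw [mem_closedBall_zero_iff]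
    refine ContinuousLinearMap.opNorm_le_of_unit_norm (le_max_right _ _) fun x hx => ?_
    have := hR (hS x (by rw [mem_closedBall_zero_iff, hx]))
    rw [mem_closedBall_zero_iff] at this
    exact this.trans (le_max_left _ _)
  have hAcomp : IsCompact A := Metric.isCompact_of_isClosed_isBounded hAc hAb
  have hS0 : r • ContinuousLinearMap.id ℝ V ∈ A := by
    intro x hx
    apply hrK
    rw [mem_closedBall_zero_iff] at hx ⊢
    show ‖r • x‖ ≤ r
    rw [norm_smul, Real.norm_eq_abs, abs_of_pos hr]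
    exact (mul_le_mul_of_nonneg_left hx hr.le).trans (by linarith)
  obtain ⟨S, hSA, hSmax⟩ := hAcomp.exists_isMaxOn ⟨_, hS0⟩
    (f := fun S : V →L[ℝ] V => |S.det|) ContinuousLinearMap.continuous_det.abs.continuousOn
  have hdet : 0 < |S.det| := by
    refine lt_of_lt_of_le ?_ (hSmax hS0)
    have h1 : (r • ContinuousLinearMap.id ℝ V).det = r ^ finrank ℝ V := by
      show LinearMap.det ((r • ContinuousLinearMap.id ℝ V : V →L[ℝ] V) : V →ₗ[ℝ] V) = _
      have : ((r • ContinuousLinearMap.id ℝ V : V →L[ℝ] V) : V →ₗ[ℝ] V) =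
        r • (LinearMap.id : V →ₗ[ℝ] V) := rfl
      rw [this, LinearMap.det_smul, LinearMap.det_id, mul_one]
    show 0 < |(r • ContinuousLinearMap.id ℝ V).det|
    rw [h1]
    positivity
  have hne : LinearMap.det (S : V →ₗ[ℝ] V) ≠ 0 := fun h => by
    have : S.det = 0 := h
    rw [this] at hdet
    simp at hdet
  let E : V ≃ₗ[ℝ] V := LinearEquiv.ofIsUnitDet (v := finBasis ℝ V) (v' := finBasis ℝ V)
    (f := (S : V →ₗ[ℝ] V)) (by
      rw [← LinearMap.det_toMatrix (finBasis ℝ V)] at hne
      exact isUnit_iff_ne_zero.2 hne)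
  have hE : ∀ x, E x = S x := fun x => rfl
  refine ⟨E.symm, ?_, ?_⟩
  · intro x hx
    exact ⟨S x, hSA x hx, by rw [← hE, E.symm_apply_apply]⟩
  · intro T hT
    have hmem : S.comp (LinearMap.toContinuousLinearMap T) ∈ A := by
      intro x hx
      obtain ⟨y, hy, hyx⟩ := hT ⟨x, hx, rfl⟩
      have : S (T x) = y := by
        rw [← hE, ← hyx, E.apply_symm_apply]
      show S (T x) ∈ K
      rw [this]
      exact hy
    have h2 := hSmax hmem
    have h3 : (S.comp (LinearMap.toContinuousLinearMap T)).det =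
        S.det * LinearMap.det T := by
      show LinearMap.det ((S : V →ₗ[ℝ] V) ∘ₗ T) = _
      rw [LinearMap.det_comp]
    have h4 : |S.det| * |LinearMap.det T| ≤ |S.det| := by
      rw [← abs_mul, ← h3]
      exact h2
    by_contra hcon
    push Not at hcon
    have := mul_lt_mul_of_pos_left hcon hdet
    linarith

theorem johnPos_bounded {K : Set V} (hK : IsSymBody K) (hJ : JohnPos K) :
    K ⊆ closedBall (0 : V) (2 ^ finrank ℝ V) := by
  intro x hx
  rw [mem_closedBall_zero_iff]
  by_contra hcon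
  push Not at hcon
  have hR0 : 0 < ‖x‖ := lt_trans (by positivity) hcon
  set R := ‖x‖ with hR
  set e : V := R⁻¹ • x with he
  have hen : ‖e‖ = 1 := by
    rw [he, norm_smul, norm_inv, Real.norm_eq_abs, abs_of_pos hR0, ← hR]
    field_simp
  have hxe : x = R • e := by rw [he, smul_smul, mul_inv_cancel₀ hR0.ne', one_smul]
  let f : Dual ℝ V := (innerₛₗ ℝ e : V →ₗ[ℝ] ℝ)
  have hf : ∀ ξ, f ξ = inner ℝ e ξ := fun ξ => rfl
  let T : V →ₗ[ℝ] V := (2⁻¹ : ℝ) • LinearMap.transvection f ((R - 1) • e)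
  have hTx : ∀ ξ, T ξ = (2⁻¹ : ℝ) • (ξ - inner ℝ e ξ • e) + (2⁻¹ : ℝ) • (inner ℝ e ξ • x) := by
    intro ξ
    show (2⁻¹ : ℝ) • (ξ + f ξ • ((R - 1) • e)) = _
    rw [hf, ← smul_add, hxe, sub_smul]
    congr 1
    simp only [smul_sub, smul_smul, one_smul]
    abel
  have hTK : T '' closedBall (0 : V) 1 ⊆ K := by
    rintro _ ⟨ξ, hξ, rfl⟩
    rw [mem_closedBall_zero_iff] at hξ
    rw [hTx]
    refine hK.convex ?_ ?_ (by norm_num) (by norm_num) (by norm_num)
    · apply hJ.1
      rw [mem_closedBall_zero_iff]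
      have h1 : ‖ξ - inner ℝ e ξ • e‖ ^ 2 = ‖ξ‖ ^ 2 - (inner ℝ e ξ) ^ 2 := by
        rw [norm_sub_sq_real, inner_smul_right, norm_smul, hen, real_inner_comm,
          Real.norm_eq_abs, mul_one, sq_abs]
        ring
      have h2 : ‖ξ - inner ℝ e ξ • e‖ ^ 2 ≤ 1 := by
        rw [h1]
        have : ‖ξ‖ ^ 2 ≤ 1 := by
          rw [sq_le_one_iff₀ (norm_nonneg _)]
          exact hξ
        nlinarith only [this]
      rwa [sq_le_one_iff₀ (norm_nonneg _)] at h2
    · apply hK.smul_mem hx
      calc |inner ℝ e ξ| ≤ ‖e‖ * ‖ξ‖ := abs_real_inner_le_norm e ξ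
        _ ≤ 1 := by rw [hen, one_mul]; exact hξ
  have h1 := hJ.2 T hTK
  have h2 : LinearMap.det T = (2⁻¹ : ℝ) ^ finrank ℝ V * R := by
    show LinearMap.det ((2⁻¹ : ℝ) • LinearMap.transvection f ((R - 1) • e)) = _
    rw [LinearMap.det_smul, LinearMap.transvection.det, map_smul, hf, real_inner_self_eq_norm_sq,
      hen]
    simp
  rw [h2, abs_of_pos (by positivity), inv_pow, inv_mul_le_iff₀ (by positivity), mul_one] at h1
  linarith only [hcon, h1]

end Vale.Agent.P237
end
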