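import Vale.Agent.P237.MathlibUsed
import Vale.Agent.P237.Bdl.B2
import Vale.Agent.P237.Bdl.B1

section

/-!
# P237: a contact point of the John ellipsoid with large variance
-/

open MeasureTheory Metric Set Module Filter Topology
open scoped Pointwise

namespace Vale.Agent.P237

variable {V : Type*} [NormedAddCommGroup V] [InnerProductSpace ℝ V] [FiniteDimensional ℝ V]
  [MeasurableSpace V] [BorelSpace V]

namespace John2

theorem integrableOn_of_continuous {E : Type*} [NormedAddCommGroup E] {K : Set V}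
    (hK : IsCompact K) {f : V → E} (hf : Continuous f) : IntegrableOn f K :=
  hf.continuousOn.integrableOn_compact hK

/-- The covariance operator. -/
noncomputable def cov {K : Set V} (hK : IsCompact K) : V →ₗ[ℝ] V where
  toFun v := ∫ x in K, (inner ℝ x v : ℝ) • x
  map_add' v w := by
    rw [← integral_add]
    · congr 1
      ext x
      rw [inner_add_right, add_smul]
    · exact integrableOn_of_continuous hK (by fun_prop)
    · exact integrableOn_of_continuous hK (by fun_prop)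
  map_smul' t v := by
    rw [RingHom.id_apply, ← integral_smul]
    congr 1
    ext x
    rw [inner_smul_right, mul_smul]

theorem inner_cov {K : Set V} (hK : IsCompact K) (v : V) :
    inner ℝ v (cov hK v) = ∫ x in K, (inner ℝ x v) ^ 2 := by
  have h := integral_inner (𝕜 := ℝ) (μ := volume.restrict K)
    (f := fun x : V => (inner ℝ x v : ℝ) • x) (integrableOn_of_continuous hK (by (clear * -; fun_prop))) v
  show inner ℝ v (∫ x in K, (inner ℝ x v : ℝ) • x) = _
  rw [← h]
  congr 1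
  ext x
  rw [inner_smul_right, real_inner_comm, sq]

/-- The traceless part of the covariance operator. -/
noncomputable def tl {K : Set V} (hK : IsCompact K) : V →ₗ[ℝ] V :=
  cov hK - ((∫ x in K, ‖x‖ ^ 2) / finrank ℝ V) • LinearMap.id

theorem inner_tl {K : Set V} (hK : IsCompact K) (v : V) :
    inner ℝ v (tl hK v) = (∫ x in K, (inner ℝ x v) ^ 2) -
      ((∫ x in K, ‖x‖ ^ 2) / finrank ℝ V) * ‖v‖ ^ 2 := by
  rw [tl, LinearMap.sub_apply, inner_sub_right, inner_cov]
  congr 1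
  show inner ℝ v (((∫ x in K, ‖x‖ ^ 2) / finrank ℝ V) • v) = _
  rw [inner_smul_right, real_inner_self_eq_norm_sq]

theorem trace_tl {K : Set V} (hK : IsCompact K) (hd : 0 < finrank ℝ V) :
    LinearMap.trace ℝ V (tl hK) = 0 := by
  let b := stdOrthonormalBasis ℝ V
  have h1 : LinearMap.trace ℝ V (tl hK) = ∑ i, inner ℝ (b i) (tl hK (b i)) :=
    LinearMap.trace_eq_sum_inner _ b
  rw [h1]
  simp only [inner_tl, b.norm_eq_one]
  rw [Finset.sum_sub_distrib, ← integral_finsetSum]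
  · simp only [b.sum_sq_inner_left]
    rw [Finset.sum_const, Finset.card_univ, Fintype.card_fin, nsmul_eq_mul]
    have : (finrank ℝ V : ℝ) ≠ 0 := by (clear * - hd; positivity)
    field_simp
    ring
  · intro i _
    exact integrableOn_of_continuous hK (by fun_prop)

theorem det_expand (S : V →ₗ[ℝ] V) : ∃ C : ℝ, 0 ≤ C ∧ ∀ ε : ℝ, 0 ≤ ε → ε ≤ 1 →
    1 + LinearMap.trace ℝ V S * ε - C * ε ^ 2 ≤ LinearMap.det (LinearMap.id + ε • S) := by
  let b := finBasis ℝ V
  let M := LinearMap.toMatrix b b S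
  let P : Polynomial ℝ := (Matrix.det (1 + (Polynomial.X : Polynomial ℝ) • M.map Polynomial.C)).divX.divX
  obtain ⟨C, hC⟩ := isCompact_Icc.exists_bound_of_continuousOn (s := Icc (0 : ℝ) 1)
    (f := fun ε => P.eval ε) P.continuous.continuousOn
  refine ⟨|C|, abs_nonneg _, fun ε h0 h1 => ?_⟩
  have h2 : LinearMap.det (LinearMap.id + ε • S) = Matrix.det (1 + ε • M) := by
    rw [← LinearMap.det_toMatrix b]
    congr 1
    simp [M]
  have h3 : LinearMap.trace ℝ V S = Matrix.trace M := LinearMap.trace_eq_matrix_trace ℝ b S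
  rw [h2, h3, Matrix.det_one_add_smul]
  have h4 := hC ε ⟨h0, h1⟩
  rw [Real.norm_eq_abs] at h4
  have h5 : -|C| ≤ P.eval ε := by
    have := neg_abs_le (P.eval ε)
    have h6 := le_abs_self C
    linarith
  have h6 : -|C| * ε ^ 2 ≤ P.eval ε * ε ^ 2 := mul_le_mul_of_nonneg_right h5 (sq_nonneg _)
  show 1 + M.trace * ε - |C| * ε ^ 2 ≤ 1 + M.trace * ε + P.eval ε * ε ^ 2
  linarith only [h6]

theorem cov_symm {K : Set V} (hK : IsCompact K) (v w : V) :
    inner ℝ (cov hK v) w = inner ℝ v (cov hK w) := by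
  have h1 := integral_inner (𝕜 := ℝ) (μ := volume.restrict K)
    (f := fun x : V => (inner ℝ x w : ℝ) • x) (integrableOn_of_continuous hK (by fun_prop)) v
  have h2 := integral_inner (𝕜 := ℝ) (μ := volume.restrict K)
    (f := fun x : V => (inner ℝ x v : ℝ) • x) (integrableOn_of_continuous hK (by fun_prop)) w
  rw [real_inner_comm]
  show inner ℝ w (∫ x in K, (inner ℝ x v : ℝ) • x) = inner ℝ v (∫ x in K, (inner ℝ x w : ℝ) • x)
  rw [← h1, ← h2]
  congr 1
  ext x
  rw [inner_smul_right, inner_smul_right, real_inner_comm x w, real_inner_comm x v]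
  ring

theorem tl_symm {K : Set V} (hK : IsCompact K) (v w : V) :
    inner ℝ (tl hK v) w = inner ℝ v (tl hK w) := by
  rw [tl, LinearMap.sub_apply, LinearMap.sub_apply, inner_sub_left, inner_sub_right, cov_symm]
  congr 1
  show inner ℝ (((∫ x in K, ‖x‖ ^ 2) / finrank ℝ V) • v) w =
    inner ℝ v (((∫ x in K, ‖x‖ ^ 2) / finrank ℝ V) • w)
  rw [real_inner_smul_left, inner_smul_right]

/-- The perturbed map. -/
noncomputable def pert {K : Set V} (hK : IsCompact K) (a ε : ℝ) : V →ₗ[ℝ] V :=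
  (1 + a * ε) • (LinearMap.id + ε • tl hK)

theorem pert_apply {K : Set V} (hK : IsCompact K) (a ε : ℝ) (v : V) :
    pert hK a ε v = (1 + a * ε) • (v + ε • tl hK v) := rfl

theorem pert_symm {K : Set V} (hK : IsCompact K) (a ε : ℝ) (v w : V) :
    inner ℝ (pert hK a ε v) w = inner ℝ v (pert hK a ε w) := by
  rw [pert_apply, pert_apply, real_inner_smul_left, inner_smul_right, inner_add_left,
    inner_add_right, real_inner_smul_left, inner_smul_right, tl_symm]

theorem norm_pert_sq {K : Set V} (hK : IsCompact K) (a ε : ℝ) (v : V) :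
    ‖pert hK a ε v‖ ^ 2 = (1 + a * ε) ^ 2 *
      (‖v‖ ^ 2 + 2 * ε * inner ℝ v (tl hK v) + ε ^ 2 * ‖tl hK v‖ ^ 2) := by
  rw [pert_apply, norm_smul, mul_pow, Real.norm_eq_abs, sq_abs, norm_add_sq_real,
    inner_smul_right, norm_smul, mul_pow, Real.norm_eq_abs, sq_abs]
  ring

theorem det_pert {K : Set V} (hK : IsCompact K) (hd : 0 < finrank ℝ V) {a : ℝ} (ha : 0 < a) :
    ∃ δ : ℝ, 0 < δ ∧ ∀ ε : ℝ, 0 < ε → ε < δ → 1 < LinearMap.det (pert hK a ε) := by
  obtain ⟨C, hC0, hC⟩ := det_expand (tl hK)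
  rw [trace_tl hK hd] at hC
  refine ⟨min 1 (a / ((C + 1) * (1 + a) + a)), by (clear * - ha hC0; positivity), fun ε h0 h1 => ?_⟩
  have hε1 : ε < 1 := h1.trans_le (min_le_left _ _)
  have hε2 : ε < a / ((C + 1) * (1 + a) + a) := h1.trans_le (min_le_right _ _)
  rw [lt_div_iff₀ (by positivity)] at hε2
  have h2 := hC ε h0.le hε1.le
  have h3 : LinearMap.det (pert hK a ε) =
      (1 + a * ε) ^ finrank ℝ V * LinearMap.det (LinearMap.id + ε • tl hK) := by
    rw [pert, LinearMap.det_smul]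
  have h4 : 1 + a * ε ≤ (1 + a * ε) ^ finrank ℝ V := by
    calc 1 + a * ε = (1 + a * ε) ^ 1 := (pow_one _).symm
      _ ≤ (1 + a * ε) ^ finrank ℝ V :=
        pow_le_pow_right₀ (by nlinarith only [ha, h0]) hd
  have h5 : 0 < 1 - C * ε ^ 2 := by
    have : C * ε < 1 := by
      have h6 : a * (C * ε) < a * 1 := by
        nlinarith only [h0, hε2, hC0, ha]
      exact lt_of_mul_lt_mul_left h6 ha.le
    nlinarith only [hε1, hε2, h0, ha]
  rw [h3]
  have h7 : 1 < (1 + a * ε) * (1 - C * ε ^ 2) := by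
    have h8 : C * ε + a * C * ε ^ 2 < a := by
      nlinarith only [hε2, h0, ha, hε1, mul_nonneg (mul_nonneg (mul_nonneg hC0 h0.le) ha.le) h0.le]
    nlinarith only [h0, h8]
  calc 1 < (1 + a * ε) * (1 - C * ε ^ 2) := h7
    _ ≤ (1 + a * ε) ^ finrank ℝ V * (1 - C * ε ^ 2) :=
      mul_le_mul_of_nonneg_right h4 h5.le
    _ ≤ (1 + a * ε) ^ finrank ℝ V * LinearMap.det (LinearMap.id + ε • tl hK) := by
      apply mul_le_mul_of_nonneg_left _ (by positivity)
      (clear hd ha hC0 hε2 h3 h4 h5 h7; linarith)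

/-- Separation: if the image of the ball under the perturbed map is not in `K` there is a
direction in which the image sticks out. -/
theorem exists_dir {K : Set V} (hK : IsSymBody K) (hB : closedBall (0 : V) 1 ⊆ K) {a ε : ℝ}
    (h : ¬ pert hK.compact a ε '' closedBall (0 : V) 1 ⊆ K) :
    ∃ u : V, ‖u‖ = 1 ∧ (∀ x ∈ K, inner ℝ x u ≤ ‖pert hK.compact a ε u‖) ∧
      1 < ‖pert hK.compact a ε u‖ := by
  rw [Set.not_subset] at h
  obtain ⟨_, ⟨ξ, hξ, rfl⟩, hξK⟩ := h
  obtain ⟨f, r, hf1, hf2⟩ := geometric_hahn_banach_closed_point hK.convex hK.compact.isClosed hξK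
  let w : V := (InnerProductSpace.toDual ℝ V).symm f
  have hw : ∀ x, inner ℝ w x = f x := fun x => InnerProductSpace.toDual_symm_apply
  have h0 : (0 : V) ∈ K := hB (mem_closedBall_self zero_le_one)
  have hw0 : w ≠ 0 := by
    intro h
    have h1 := hf1 0 h0
    rw [← hw, h] at h1
    rw [← hw, h] at hf2
    simp only [inner_zero_left] at h1 hf2
    linarith only [h1, hf2]
  have hwn : 0 < ‖w‖ := norm_pos_iff.2 hw0
  have hun : ‖‖w‖⁻¹ • w‖ = 1 := by
    rw [norm_smul, norm_inv, norm_norm, inv_mul_cancel₀ hwn.ne']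
  have key : ∀ x ∈ K, inner ℝ x (‖w‖⁻¹ • w) < ‖pert hK.compact a ε (‖w‖⁻¹ • w)‖ := by
    intro x hx
    calc inner ℝ x (‖w‖⁻¹ • w) = ‖w‖⁻¹ * f x := by
          rw [inner_smul_right, real_inner_comm, hw]
      _ < ‖w‖⁻¹ * f (pert hK.compact a ε ξ) :=
        mul_lt_mul_of_pos_left ((hf1 x hx).trans hf2) (by positivity)
      _ = inner ℝ (pert hK.compact a ε ξ) (‖w‖⁻¹ • w) := by
          rw [inner_smul_right, real_inner_comm, hw]
      _ = inner ℝ ξ (pert hK.compact a ε (‖w‖⁻¹ • w)) := pert_symm _ _ _ _ _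
      _ ≤ ‖ξ‖ * ‖pert hK.compact a ε (‖w‖⁻¹ • w)‖ := real_inner_le_norm _ _
      _ ≤ 1 * ‖pert hK.compact a ε (‖w‖⁻¹ • w)‖ := by
          apply mul_le_mul_of_nonneg_right _ (norm_nonneg _)
          rwa [mem_closedBall_zero_iff] at hξ
      _ = _ := one_mul _
  refine ⟨‖w‖⁻¹ • w, hun, fun x hx => (key x hx).le, ?_⟩
  have := key (‖w‖⁻¹ • w) (hB (by rw [mem_closedBall_zero_iff, hun]))
  rwa [real_inner_self_eq_norm_sq, hun, one_pow] at this

end John2

open John2

theorem john_contact {K : Set V} (hK : IsSymBody K) (hJ : JohnPos K) (hd : 0 < finrank ℝ V) :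
    ∃ u : V, ‖u‖ = 1 ∧ (∀ x ∈ K, inner ℝ x u ≤ 1) ∧
      (∫ x in K, ‖x‖ ^ 2) ≤ finrank ℝ V * ∫ x in K, (inner ℝ x u) ^ 2 := by
  by_contra hcon
  push Not at hcon
  set S := tl hK.compact with hS
  have hScont : Continuous S := S.continuous_of_finiteDimensional
  set q : V → ℝ := fun u => inner ℝ u (S u) with hq
  have hqcont : Continuous q := by
    rw [hq]; fun_prop
  have hd' : (0 : ℝ) < finrank ℝ V := by exact_mod_cast hd
  have hneg : ∀ u : V, ‖u‖ = 1 → (∀ x ∈ K, inner ℝ x u ≤ 1) → q u < 0 := by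
    intro u hu h
    have h1 := hcon u hu h
    show inner ℝ u (tl hK.compact u) < 0
    rw [inner_tl, hu, one_pow, mul_one, sub_neg, lt_div_iff₀ hd']
    (clear hK hJ hd S hS hScont q hq hqcont hd'; linarith)
  -- the contact set
  let Cs : Set V := sphere (0 : V) 1 ∩ {u | ∀ x ∈ K, inner ℝ x u ≤ 1}
  have hCs : IsCompact Cs := by
    apply (isCompact_sphere (0 : V) 1).inter_right
    have : {u : V | ∀ x ∈ K, inner ℝ x u ≤ 1} = ⋂ x ∈ K, {u : V | inner ℝ x u ≤ 1} := by
      ext u; simp only [mem_ofPred_eq, mem_iInter]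
    rw [this]
    exact isClosed_biInter fun x _ => isClosed_le (by fun_prop) continuous_const
  obtain ⟨c, hc0, hc⟩ : ∃ c : ℝ, 0 < c ∧ ∀ u ∈ Cs, q u ≤ -c := by
    rcases Cs.eq_empty_or_nonempty with he | hne
    · exact ⟨1, one_pos, fun u hu => by rw [he] at hu; exact absurd hu (Set.notMem_empty _)⟩
    · obtain ⟨u0, hu0, hmax⟩ := hCs.exists_isMaxOn hne hqcont.continuousOn
      refine ⟨-q u0, ?_, fun u hu => ?_⟩
      · have := hneg u0 (by simpa only [mem_sphere_iff_norm, sub_zero] using hu0.1) hu0.2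
        linarith only [this]
      · have := hmax hu
        simpa only [neg_neg, ge_iff_le, mem_ofPred_eq] using this
  set a := c / 2 with ha
  have ha0 : 0 < a := by positivity
  obtain ⟨δ, hδ0, hδ⟩ := det_pert hK.compact hd ha0
  obtain ⟨N, hN⟩ := exists_nat_one_div_lt hδ0
  set ε : ℕ → ℝ := fun n => 1 / ((n : ℝ) + N + 1) with hε
  have hε0 : ∀ n, 0 < ε n := fun n => by (clear * -; positivity)
  have hεδ : ∀ n, ε n < δ := by
    intro n
    refine lt_of_le_of_lt ?_ hN
    apply one_div_le_one_div_of_le (by (clear * -; positivity))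
    have : (0 : ℝ) ≤ n := by (clear * -; positivity)
    linarith only []
  have hεlim : Tendsto ε atTop (𝓝 0) := by
    have h1 : Tendsto (fun n : ℕ => 1 / (((n + N : ℕ) : ℝ) + 1)) atTop (𝓝 0) :=
      (tendsto_one_div_add_atTop_nhds_zero_nat).comp (tendsto_add_atTop_nat N)
    refine h1.congr fun n => ?_
    rw [hε]
    push_cast
    rfl
  have hex : ∀ n, ∃ u : V, ‖u‖ = 1 ∧ (∀ x ∈ K, inner ℝ x u ≤ ‖pert hK.compact a (ε n) u‖) ∧
      1 < ‖pert hK.compact a (ε n) u‖ := by
    intro n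
    apply exists_dir hK hJ.1
    intro h
    have h1 := hJ.2 _ h
    have h2 := hδ (ε n) (hε0 n) (hεδ n)
    have := le_abs_self (LinearMap.det (pert hK.compact a (ε n)))
    (clear hd hcon S hS hScont q hq hqcont hd' hneg Cs hCs hc0 hc ha ha0 hδ0 hε hεlim; linarith)
  choose u hu1 hu2 hu3 using hex
  obtain ⟨v, hv, φ, hφ, hlim⟩ := (isCompact_sphere (0 : V) 1).tendsto_subseq
    (x := u) (fun n => by simpa only [mem_sphere_iff_norm, sub_zero] using hu1 n)
  have hv1 : ‖v‖ = 1 := by simpa only [mem_sphere_iff_norm, sub_zero] using hv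
  have hεφ : Tendsto (fun n => ε (φ n)) atTop (𝓝 0) := hεlim.comp hφ.tendsto_atTop
  have hSlim : Tendsto (fun n => S (u (φ n))) atTop (𝓝 (S v)) :=
    (hScont.tendsto v).comp hlim
  have hqlim : Tendsto (fun n => q (u (φ n))) atTop (𝓝 (q v)) :=
    (hqcont.tendsto v).comp hlim
  have hT : Tendsto (fun n => pert hK.compact a (ε (φ n)) (u (φ n))) atTop (𝓝 v) := by
    have h1 : Tendsto (fun n => (1 + a * ε (φ n)) • (u (φ n) + ε (φ n) • S (u (φ n)))) atTop
        (𝓝 ((1 + a * 0) • (v + (0 : ℝ) • S v))) :=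
      (tendsto_const_nhds.add (tendsto_const_nhds.mul hεφ)).smul (hlim.add (hεφ.smul hSlim))
    have h2 : (1 + a * 0) • (v + (0 : ℝ) • S v) = v := by simp
    rw [h2] at h1
    exact h1
  have hvC : v ∈ Cs := by
    refine ⟨hv, fun x hx => ?_⟩
    have h1 : Tendsto (fun n => inner ℝ x (u (φ n))) atTop (𝓝 (inner ℝ x v)) :=
      ((continuous_const.inner continuous_id).tendsto v).comp hlim
    have h2 := le_of_tendsto_of_tendsto' h1 hT.norm (fun n => hu2 (φ n) x hx)
    rwa [hv1] at h2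
  have h1 := hc v hvC
  have h2 : ∀ n, 0 ≤ (2 * a + a ^ 2 * ε (φ n)) *
      (1 + 2 * ε (φ n) * q (u (φ n)) + ε (φ n) ^ 2 * ‖S (u (φ n))‖ ^ 2) +
      2 * q (u (φ n)) + ε (φ n) * ‖S (u (φ n))‖ ^ 2 := by
    intro n
    have h3 := hu3 (φ n)
    have h4 : 1 < ‖pert hK.compact a (ε (φ n)) (u (φ n))‖ ^ 2 := by (clear hJ hd hcon S hS hScont q hq hqcont hd' hneg Cs hCs hc0 hc ha ha0 δ hδ0 hδ hN hε hε0 hεδ hεlim hu1 hu2 v hv hφ hlim hv1 hεφ hSlim hqlim hT hvC h1; nlinarith)
    rw [norm_pert_sq, hu1] at h4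
    have h5 := hε0 (φ n)
    have h6 : 0 < ε (φ n) * ((2 * a + a ^ 2 * ε (φ n)) *
      (1 + 2 * ε (φ n) * q (u (φ n)) + ε (φ n) ^ 2 * ‖S (u (φ n))‖ ^ 2) +
      2 * q (u (φ n)) + ε (φ n) * ‖S (u (φ n))‖ ^ 2) := by
      have h7 : ε (φ n) * ((2 * a + a ^ 2 * ε (φ n)) *
        (1 + 2 * ε (φ n) * q (u (φ n)) + ε (φ n) ^ 2 * ‖S (u (φ n))‖ ^ 2) +
        2 * q (u (φ n)) + ε (φ n) * ‖S (u (φ n))‖ ^ 2) =
        (1 + a * ε (φ n)) ^ 2 * (1 ^ 2 + 2 * ε (φ n) * q (u (φ n)) +
          ε (φ n) ^ 2 * ‖S (u (φ n))‖ ^ 2) - 1 := by ring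
      rw [h7]
      have h8 : inner ℝ (u (φ n)) (tl hK.compact (u (φ n))) = q (u (φ n)) := rfl
      rw [h8] at h4
      (clear hJ hd hcon hS hScont hq hqcont hd' hneg Cs hCs hc0 hc ha ha0 δ hδ0 hδ hN hε hε0 hεδ hεlim hu1 hu2 hu3 v hv hφ hlim hv1 hεφ hSlim hqlim hT hvC h1 h3 h5 h7 h8; linarith)
    exact ((mul_pos_iff_of_pos_left h5).1 h6).le
  have h3 : Tendsto (fun n => (2 * a + a ^ 2 * ε (φ n)) *
      (1 + 2 * ε (φ n) * q (u (φ n)) + ε (φ n) ^ 2 * ‖S (u (φ n))‖ ^ 2) +
      2 * q (u (φ n)) + ε (φ n) * ‖S (u (φ n))‖ ^ 2) atTop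
      (𝓝 ((2 * a + a ^ 2 * 0) * (1 + 2 * 0 * q v + 0 ^ 2 * ‖S v‖ ^ 2) + 2 * q v +
        0 * ‖S v‖ ^ 2)) := by
    refine (((tendsto_const_nhds.add (tendsto_const_nhds.mul hεφ)).mul
      ((tendsto_const_nhds.add ((tendsto_const_nhds.mul hεφ).mul hqlim)).add
        ((hεφ.pow 2).mul (hSlim.norm.pow 2)))).add (tendsto_const_nhds.mul hqlim)).add
      (hεφ.mul (hSlim.norm.pow 2))
  have h4 := ge_of_tendsto' h3 h2
  have h5 : (2 * a + a ^ 2 * 0) * (1 + 2 * 0 * q v + 0 ^ 2 * ‖S v‖ ^ 2) + 2 * q v +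
        0 * ‖S v‖ ^ 2 = 2 * a + 2 * q v := by ring
  rw [h5] at h4
  linarith only [ha, ha0, h1, h4]

end Vale.Agent.P237
end

section

open MeasureTheory Metric Set Module TopologicalSpace
open scoped Pointwise

namespace Vale.Agent.P237

variable {V : Type*} [NormedAddCommGroup V] [InnerProductSpace ℝ V] [FiniteDimensional ℝ V]
  [MeasurableSpace V] [BorelSpace V]

omit [InnerProductSpace ℝ V] [FiniteDimensional ℝ V] [MeasurableSpace V] [BorelSpace V] in
private lemma ex_near (K L : NonemptyCompacts V) {ε : ℝ} (h : dist K L < ε) {x : V}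
    (hx : x ∈ (K : Set V)) : ∃ y ∈ (L : Set V), dist x y < ε := by
  have hfin : hausdorffEDist (K : Set V) L ≠ ⊤ :=
    hausdorffEDist_ne_top_of_nonempty_of_bounded K.nonempty L.nonempty
      K.isCompact.isBounded L.isCompact.isBounded
  rw [NonemptyCompacts.dist_eq] at h
  exact exists_dist_lt_of_hausdorffDist_lt hx h hfin

private def exT (ρ : ℝ) : Set (NonemptyCompacts V) :=
  {K | Convex ℝ (K : Set V) ∧ (∀ x ∈ (K : Set V), -x ∈ (K : Set V)) ∧
    closedBall (0 : V) 1 ⊆ K ∧ (K : Set V) ⊆ closedBall (0 : V) ρ}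

omit [InnerProductSpace ℝ V] [FiniteDimensional ℝ V] [MeasurableSpace V] [BorelSpace V] in
private lemma ex_mem_of_forall (K : NonemptyCompacts V) (x : V)
    (h : ∀ ε > 0, ∃ y ∈ (K : Set V), dist x y < ε) : x ∈ (K : Set V) := by
  have : x ∈ closure (K : Set V) := Metric.mem_closure_iff.2 h
  rwa [K.isCompact.isClosed.closure_eq] at this

omit [MeasurableSpace V] [BorelSpace V] in
private lemma ex_isCompact (ρ : ℝ) : IsCompact (exT ρ : Set (NonemptyCompacts V)) := by
  have hc : IsCompact {K : NonemptyCompacts V | (K : Set V) ⊆ closedBall (0 : V) ρ} :=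
    NonemptyCompacts.isCompact_subsets_of_isCompact (isCompact_closedBall 0 ρ)
  refine hc.of_isClosed_subset ?_ (fun K hK => hK.2.2.2)
  refine isClosed_of_closure_subset fun K hK => ?_
  rw [Metric.mem_closure_iff] at hK
  refine ⟨?_, ?_, ?_, ?_⟩
  · intro x hx y hy a b ha hb hab
    refine ex_mem_of_forall K _ fun ε hε => ?_
    obtain ⟨L, hL, hKL⟩ := hK (ε / 3) (by positivity)
    obtain ⟨x', hx', hxx⟩ := ex_near K L hKL hx
    obtain ⟨y', hy', hyy⟩ := ex_near K L hKL hy
    obtain ⟨z, hz, hzz⟩ := ex_near L K (by rwa [dist_comm]) (hL.1 hx' hy' ha hb hab)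
    refine ⟨z, hz, ?_⟩
    have h1 : dist (a • x + b • y) (a • x' + b • y') ≤ ε / 3 + ε / 3 := by
      refine (dist_add_add_le _ _ _ _).trans (add_le_add ?_ ?_)
      · rw [dist_smul₀, Real.norm_of_nonneg ha]
        have : a * dist x x' ≤ 1 * dist x x' := by
          gcongr
          linarith only [hb, hab]
        linarith only [hxx, this]
      · rw [dist_smul₀, Real.norm_of_nonneg hb]
        have : b * dist y y' ≤ 1 * dist y y' := by
          gcongr
          linarith only [ha, hab]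
        linarith only [hyy, this]
    have := dist_triangle (a • x + b • y) (a • x' + b • y') z
    linarith only [hzz, h1, this]
  · intro x hx
    refine ex_mem_of_forall K _ fun ε hε => ?_
    obtain ⟨L, hL, hKL⟩ := hK (ε / 2) (by positivity)
    obtain ⟨x', hx', hxx⟩ := ex_near K L hKL hx
    obtain ⟨z, hz, hzz⟩ := ex_near L K (by rwa [dist_comm]) (hL.2.1 x' hx')
    refine ⟨z, hz, ?_⟩
    have := dist_triangle (-x) (-x') z
    rw [dist_neg_neg] at this
    linarith only [hxx, hzz, this]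
  · intro x hx
    refine ex_mem_of_forall K _ fun ε hε => ?_
    obtain ⟨L, hL, hKL⟩ := hK ε hε
    exact ex_near L K (by rwa [dist_comm]) (hL.2.2.1 hx)
  · intro x hx
    rw [mem_closedBall_zero_iff]
    refine le_of_forall_pos_le_add fun ε hε => ?_
    obtain ⟨L, hL, hKL⟩ := hK ε hε
    obtain ⟨x', hx', hxx⟩ := ex_near K L hKL hx
    have h1 := mem_closedBall_zero_iff.1 (hL.2.2.2 hx')
    have h2 := norm_le_norm_add_norm_sub' x x'
    rw [dist_eq_norm] at hxx
    linarith

omit [FiniteDimensional ℝ V] [MeasurableSpace V] [BorelSpace V] in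
private lemma ex_isSymBody {ρ : ℝ} {K : NonemptyCompacts V} (hK : K ∈ exT ρ) :
    IsSymBody (K : Set V) := by
  refine ⟨⟨hK.1, K.isCompact, ?_⟩, hK.2.1⟩
  refine ⟨0, interior_mono (ball_subset_closedBall.trans hK.2.2.1) ?_⟩
  rw [interior_eq_iff_isOpen.2 isOpen_ball]
  exact mem_ball_self one_pos

omit [FiniteDimensional ℝ V] [MeasurableSpace V] [BorelSpace V] in
private lemma ex_subset_smul {ρ : ℝ} {K L : NonemptyCompacts V} (hL : L ∈ exT ρ) {ε : ℝ}
    (h : dist K L < ε) : (K : Set V) ⊆ (1 + ε) • (L : Set V) := by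
  have hε : 0 < ε := dist_nonneg.trans_lt h
  intro x hx
  obtain ⟨y, hy, hxy⟩ := ex_near K L h hx
  rw [hL.1.add_smul zero_le_one hε.le, one_smul]
  refine ⟨y, hy, x - y, ?_, by simp⟩
  refine ⟨ε⁻¹ • (x - y), hL.2.2.1 ?_, ?_⟩
  · rw [mem_closedBall_zero_iff, norm_smul, norm_inv, Real.norm_of_nonneg hε.le]
    rw [dist_eq_norm] at hxy
    rw [inv_mul_le_iff₀ hε]
    linarith
  · simp only [smul_smul]
    rw [mul_inv_cancel₀ hε.ne', one_smul]

/-- The comparison of two close bodies. -/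
private lemma ex_compare {K L : Set V} (hK : IsSymBody K) (hL : IsSymBody L)
    (hP : IsCompact (projBody L)) {c : ℝ} (hc : 1 ≤ c)
    (h1 : K ⊆ c • L) (h2 : L ⊆ c • K) :
    vol (projBody K) / vol K ^ (finrank ℝ V - 1) ≤
      c ^ (finrank ℝ V * (finrank ℝ V - 1)) * c ^ (finrank ℝ V * (finrank ℝ V - 1)) *
        (vol (projBody L) / vol L ^ (finrank ℝ V - 1)) := by
  have hc0 : 0 < c := by linarith
  have hvol_smul : ∀ (A : Set V) (r : ℝ), 0 < r → vol (r • A) = r ^ finrank ℝ V * vol A := by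
    intro A r hr
    unfold vol
    rw [Measure.addHaar_smul, ENNReal.toReal_mul, ENNReal.toReal_ofReal (abs_nonneg _),
      abs_of_nonneg (by positivity)]
  have hpos : ∀ A : Set V, IsSymBody A → 0 < vol A := by
    intro A hA
    exact ENNReal.toReal_pos ((isOpen_interior.measure_pos volume hA.int).trans_le
      (measure_mono interior_subset)).ne' hA.compact.measure_lt_top.ne
  -- volumes
  have hv : vol L ≤ c ^ finrank ℝ V * vol K := by
    rw [← hvol_smul K c hc0]
    exact ENNReal.toReal_mono (hK.compact.smul c).measure_lt_top.ne (measure_mono h2)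
  -- projection bodies
  have hb : ∀ v, beta K v ≤ c ^ (finrank ℝ V - 1) * beta L v := by
    intro v
    rw [← beta_smul_set hL.compact hL.convex hc0]
    exact beta_mono hK.compact hK.convex (hL.compact.smul c) (hL.convex.smul c) h1 v
  have hcd : 0 < c ^ (finrank ℝ V - 1) := by positivity
  have hp : projBody K ⊆ c ^ (finrank ℝ V - 1) • projBody L := by
    intro y hy
    refine ⟨(c ^ (finrank ℝ V - 1))⁻¹ • y, ?_, ?_⟩
    · intro u hu
      have h3 := hy u hu
      rw [← beta_unit hK.compact hK.convex hu] at h3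
      rw [← beta_unit hL.compact hL.convex hu, real_inner_smul_left, inv_mul_le_iff₀ hcd]
      exact h3.trans (hb u)
    · simp only [smul_smul]
      rw [mul_inv_cancel₀ hcd.ne', one_smul]
  have hpv : vol (projBody K) ≤ c ^ (finrank ℝ V * (finrank ℝ V - 1)) * vol (projBody L) := by
    have h3 : vol (projBody K) ≤ vol (c ^ (finrank ℝ V - 1) • projBody L) :=
      ENNReal.toReal_mono (hP.smul _).measure_lt_top.ne
        (measure_mono hp)
    rwa [hvol_smul _ _ hcd, ← pow_mul, mul_comm (finrank ℝ V - 1)] at h3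
  have hKpos := hpos K hK
  have hLpos := hpos L hL
  have hv' : vol L ^ (finrank ℝ V - 1) ≤
      c ^ (finrank ℝ V * (finrank ℝ V - 1)) * vol K ^ (finrank ℝ V - 1) := by
    have := pow_le_pow_left₀ hLpos.le hv (finrank ℝ V - 1)
    rwa [mul_pow, ← pow_mul] at this
  have hP0 : 0 ≤ vol (projBody L) := ENNReal.toReal_nonneg
  rw [div_le_iff₀ (by (clear L hL hP c hc h1 h2 hc0 hvol_smul hv hb hcd hp hpv hLpos hv' hP0; positivity))]
  calc vol (projBody K) ≤ c ^ (finrank ℝ V * (finrank ℝ V - 1)) * vol (projBody L) := hpv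
    _ = c ^ (finrank ℝ V * (finrank ℝ V - 1)) *
        (vol (projBody L) / vol L ^ (finrank ℝ V - 1)) * vol L ^ (finrank ℝ V - 1) := by
      (clear K hK hP h1 h2 hc0 hvol_smul hv hb hcd hp hpv hKpos hv' hP0; field_simp)
    _ ≤ c ^ (finrank ℝ V * (finrank ℝ V - 1)) *
        (vol (projBody L) / vol L ^ (finrank ℝ V - 1)) *
        (c ^ (finrank ℝ V * (finrank ℝ V - 1)) * vol K ^ (finrank ℝ V - 1)) := by
      (clear hP h1 hb hcd hp hpv hKpos; gcongr)
    _ = _ := by ring

/-- `exists_minimizer`, given the compactness of projection bodies. -/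
theorem exists_minimizer_of_compact (hE : ∀ L : Set V, IsSymBody L → IsCompact (projBody L))
    (ρ : ℝ) (hρ : 1 ≤ ρ) : ∃ K₀ : Set V, IsSymBody K₀ ∧
    closedBall (0 : V) 1 ⊆ K₀ ∧ K₀ ⊆ closedBall (0 : V) ρ ∧
    ∀ K : Set V, IsSymBody K → closedBall (0 : V) 1 ⊆ K → K ⊆ closedBall (0 : V) ρ →
      vol (projBody K₀) / vol K₀ ^ (finrank ℝ V - 1) ≤
        vol (projBody K) / vol K ^ (finrank ℝ V - 1) := by
  set f : NonemptyCompacts V → ℝ := fun K =>
    vol (projBody (K : Set V)) / vol (K : Set V) ^ (finrank ℝ V - 1) with hf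
  have hf0 : ∀ K, 0 ≤ f K := fun K =>
    div_nonneg ENNReal.toReal_nonneg (pow_nonneg ENNReal.toReal_nonneg _)
  have hlsc : LowerSemicontinuousOn f (exT ρ) := by
    intro K hK y hy
    set q : ℕ := finrank ℝ V * (finrank ℝ V - 1) with hq
    -- choose `ε` with `(1+ε)^(2q) y < f K`
    have hcont : Filter.Tendsto (fun ε : ℝ => (1 + ε) ^ q * (1 + ε) ^ q * y)
        (nhdsWithin 0 (Ioi 0)) (nhds ((1 + 0) ^ q * (1 + 0) ^ q * y)) := by
      refine Filter.Tendsto.mono_left ?_ nhdsWithin_le_nhds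
      refine ContinuousAt.tendsto (f := fun ε : ℝ => (1 + ε) ^ q * (1 + ε) ^ q * y) ?_
      fun_prop
    have h1 : ∀ᶠ ε in nhdsWithin (0 : ℝ) (Ioi 0), (1 + ε) ^ q * (1 + ε) ^ q * y < f K := by
      refine hcont.eventually_lt_const ?_
      simpa using hy
    obtain ⟨ε, hε1, hε⟩ := (h1.and self_mem_nhdsWithin).exists
    have hε : 0 < ε := hε
    filter_upwards [mem_nhdsWithin_of_mem_nhds (Metric.ball_mem_nhds K hε), self_mem_nhdsWithin]
      with L hL hLT
    have hLK : dist L K < ε := hL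
    have h2 := ex_compare (ex_isSymBody hK) (ex_isSymBody hLT) (hE _ (ex_isSymBody hLT)) (c := 1 + ε) (by (clear hE ρ hρ f hf hf0 K hK y hy q hq hcont h1 hε1 hε L hL hLT hLK; linarith))
      (ex_subset_smul hLT (by rwa [dist_comm])) (ex_subset_smul hK hLK)
    have h3 : (1 + ε) ^ q * (1 + ε) ^ q * y < (1 + ε) ^ q * (1 + ε) ^ q * f L := hε1.trans_le h2
    exact lt_of_mul_lt_mul_left h3 (by (clear hE ρ hρ f hf hf0 K hK y hy hq hcont h1 hε1 hε L hL hLT hLK h2 h3; positivity))
  have hne : (exT ρ : Set (NonemptyCompacts V)).Nonempty := by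
    refine ⟨⟨⟨closedBall (0 : V) 1, isCompact_closedBall 0 1⟩, ⟨0, by simp only [mem_closedBall, dist_self, zero_le_one]⟩⟩, ?_, ?_, ?_, ?_⟩
    · exact convex_closedBall 0 1
    · intro x hx
      have hx' : x ∈ closedBall (0 : V) 1 := hx
      change -x ∈ closedBall (0 : V) 1
      rw [mem_closedBall_zero_iff] at hx' ⊢
      rwa [norm_neg]
    · exact subset_rfl
    · exact closedBall_subset_closedBall hρ
  obtain ⟨K₀, hK₀, hmin⟩ := hlsc.exists_isMinOn hne (ex_isCompact ρ)
  refine ⟨K₀, ex_isSymBody hK₀, hK₀.2.2.1, hK₀.2.2.2, fun K hK h1 h2 => ?_⟩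
  exact hmin (a := ⟨⟨K, hK.compact⟩, hK.int.mono interior_subset⟩) ⟨hK.convex, hK.symm, h1, h2⟩

end Vale.Agent.P237
end

section

open MeasureTheory Metric Set Module
open scoped Pointwise

namespace Vale.Agent.P237

variable {V : Type*} [NormedAddCommGroup V] [InnerProductSpace ℝ V] [FiniteDimensional ℝ V]
  [MeasurableSpace V] [BorelSpace V]

set_option linter.unusedVariables false in
/-- The normalized volume of the projection body attains its minimum on the symmetric bodies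
between two balls. -/
theorem exists_minimizer (hd : 0 < finrank ℝ V) (ρ : ℝ) (hρ : 1 ≤ ρ) : ∃ K₀ : Set V, IsSymBody K₀ ∧
    closedBall (0 : V) 1 ⊆ K₀ ∧ K₀ ⊆ closedBall (0 : V) ρ ∧
    ∀ K : Set V, IsSymBody K → closedBall (0 : V) 1 ⊆ K → K ⊆ closedBall (0 : V) ρ →
      vol (projBody K₀) / vol K₀ ^ (finrank ℝ V - 1) ≤
        vol (projBody K) / vol K ^ (finrank ℝ V - 1) :=
  exists_minimizer_of_compact (fun _ hL => (projBody_isSymBody hL.toIsBody).compact) ρ hρ

end Vale.Agent.P237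
end

section

/-!
# P237: the two-variable inequality behind the one-dimensional lemma
-/

namespace Vale.Agent.P237

open Real

/-- Pade lower bound for the arctangent. -/
theorem arctan_ge_pade (t : ℝ) (ht : 0 ≤ t) :
    t * (105 + 55 * t ^ 2) / (105 + 90 * t ^ 2 + 9 * t ^ 4) ≤ arctan t := by
  set f : ℝ → ℝ := fun s => arctan s - s * (105 + 55 * s ^ 2) / (105 + 90 * s ^ 2 + 9 * s ^ 4)
    with hf
  have hW : ∀ s : ℝ, 0 < 105 + 90 * s ^ 2 + 9 * s ^ 4 := fun s => by positivity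
  have hder : ∀ s : ℝ, HasDerivAt f (576 * s ^ 8 / ((1 + s ^ 2) * (105 + 90 * s ^ 2 + 9 * s ^ 4) ^ 2)) s := by
    intro s
    have h1 : HasDerivAt (fun s : ℝ => s * (105 + 55 * s ^ 2)) (105 + 165 * s ^ 2) s := by
      have := (hasDerivAt_id s).mul (((hasDerivAt_pow 2 s).const_mul 55).const_add 105)
      refine this.congr_deriv ?_
      simp only [one_mul, id_eq, Nat.cast_ofNat, Nat.add_one_sub_one, pow_one]
      ring
    have h2 : HasDerivAt (fun s : ℝ => 105 + 90 * s ^ 2 + 9 * s ^ 4) (180 * s + 36 * s ^ 3) s := by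
      have := (((hasDerivAt_pow 2 s).const_mul 90).const_add 105).add ((hasDerivAt_pow 4 s).const_mul 9)
      refine this.congr_deriv ?_
      simp only [Nat.cast_ofNat, Nat.add_one_sub_one, pow_one]
      ring
    have h3 := (hasDerivAt_arctan s).sub (h1.div h2 (hW s).ne')
    refine h3.congr_deriv ?_
    have hq : (1 + s ^ 2) ≠ 0 := by positivity
    have hW' := (hW s).ne'
    field_simp
    ring
  have hmono : MonotoneOn f (Set.Ici 0) := by
    apply monotoneOn_of_deriv_nonneg (convex_Ici 0)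
    · exact fun s _ => (hder s).continuousAt.continuousWithinAt
    · exact fun s _ => (hder s).differentiableAt.differentiableWithinAt
    · intro s _
      rw [(hder s).deriv]
      (clear * -; positivity)
  have h0 : f 0 = 0 := by simp only [hf, arctan_zero, ne_eq, OfNat.ofNat_ne_zero, not_false_eq_true, zero_pow, mul_zero, add_zero, zero_mul, zero_div, sub_self]
  have := hmono (Set.mem_Ici.mpr le_rfl) (Set.mem_Ici.mpr ht) ht
  rw [h0] at this
  simp only [hf] at this
  linarith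

/-- The polynomial of the certificate. -/
theorem poly_ge (t : ℝ) (h0 : 0 ≤ t) (h1 : t ≤ 1) :
    (100:ℝ) ≤
    (1300151811/1000000) + (-183939/125)*t^1 + (-2807496459/500000)*t^2 + (410521/125)*t^3
      + (13558679009/5000000)*t^4 + (5617154/625)*t^5 + (9382029759/1250000)*t^6
      + (3498882/625)*t^7 + (-47317324671/5000000)*t^8 + (1515197/625)*t^9
      + (-24242456567/2500000)*t^10 + (661169/625)*t^11 + (-6013872081/5000000)*t^12 := by
  rcases le_total t (1/2) with h | h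
  · obtain ⟨v, hv, hvt⟩ : ∃ v : ℝ, 0 ≤ v ∧ v = 1/2 - t := ⟨1/2 - t, by linarith, rfl⟩
    obtain ⟨u, hu, hut⟩ : ∃ u : ℝ, 0 ≤ u ∧ u = t := ⟨t, h0, rfl⟩
    have key : (0:ℝ) ≤
    (76809715904/15625)*v^12 + (874628206848/15625)*u^1*v^11 + (4461629138976/15625)*u^2*v^10
      + (107489206848/125)*u^3*v^9 + (132278690753636/78125)*u^4*v^8
      + (177819663479328/78125)*u^5*v^7 + (164974865310124/78125)*u^6*v^6
      + (103909929517192/78125)*u^7*v^5 + (168766581667569/312500)*u^8*v^4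
      + (1960221806533/15625)*u^9*v^3 + (304793670077/25000)*u^10*v^2
      + (592200153/2500)*u^11*v^1 + (1344886519/8000)*u^12 := by (clear * - hu hv; positivity)
    subst hvt
    subst hut
    refine le_of_sub_nonneg (key.trans (le_of_eq ?_))
    ring
  · obtain ⟨v, hv, hvt⟩ : ∃ v : ℝ, 0 ≤ v ∧ v = 1 - t := ⟨1 - t, by linarith only [h1], rfl⟩
    obtain ⟨u, hu, hut⟩ : ∃ u : ℝ, 0 ≤ u ∧ u = t - 1/2 := ⟨t - 1/2, by linarith only [h], rfl⟩
    have key : (0:ℝ) ≤
    (1344886519/8000)*v^12 + (18988897479/5000)*u^1*v^11 + (160505126824/3125)*u^2*v^10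
      + (5658471268117/15625)*u^3*v^9 + (116808432639891/78125)*u^4*v^8
      + (309324094887824/78125)*u^5*v^7 + (552763898655488/78125)*u^6*v^6
      + (136262235218304/15625)*u^7*v^5 + (578291965504576/78125)*u^8*v^4
      + (65822742533632/15625)*u^9*v^3 + (117813413855232/78125)*u^10*v^2
      + (23067859570688/78125)*u^11*v^1 + (1702334631936/78125)*u^12 := by (clear * - hu hv; positivity)
    subst hvt
    subst hut
    refine le_of_sub_nonneg (key.trans (le_of_eq ?_))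
    ring

/-- The key inequality at the height `p = 1`, in half-angle form. -/
theorem core_one (t x y K : ℝ) (h0 : 0 ≤ t) (h1 : t ≤ 1)
    (hx : x = 2 * t / (1 + t ^ 2)) (hy : y = (1 - t ^ 2) / (1 + t ^ 2)) (hK : K = 18506 / 10000) :
    (2 * y - (K + 4/5 - x ^ 2) + 3/5 + 2/5 * x) ^ 2 <
      4 * (2/5 * (1 + x)) *
        (4 * arctan t + 4 * y - 2 * x * y - (1 + x) * (K + 3/5 - x ^ 2)) := by
  have hq : 0 < 1 + t ^ 2 := by (clear * -; positivity)
  have hW : 0 < 105 + 90 * t ^ 2 + 9 * t ^ 4 := by (clear * -; positivity)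
  have hA := arctan_ge_pade t h0
  have hx0 : 0 ≤ x := by rw [hx]; positivity
  have hP := poly_ge t h0 h1
  set R : ℝ := t * (105 + 55 * t ^ 2) / (105 + 90 * t ^ 2 + 9 * t ^ 4) with hR
  have h2 : 4 * (2/5 * (1 + x)) * (4 * R + 4 * y - 2 * x * y - (1 + x) * (K + 3/5 - x ^ 2)) ≤
      4 * (2/5 * (1 + x)) *
        (4 * arctan t + 4 * y - 2 * x * y - (1 + x) * (K + 3/5 - x ^ 2)) := by
    apply mul_le_mul_of_nonneg_left _ (by positivity)
    linarith only [hA]
  refine lt_of_lt_of_le ?_ h2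
  rw [← sub_pos]
  have h3 : 4 * (2/5 * (1 + x)) * (4 * R + 4 * y - 2 * x * y - (1 + x) * (K + 3/5 - x ^ 2)) -
      (2 * y - (K + 4/5 - x ^ 2) + 3/5 + 2/5 * x) ^ 2 =
      ((1300151811/1000000) +
        (-183939/125)*t^1 +
        (-2807496459/500000)*t^2 +
        (410521/125)*t^3 +
        (13558679009/5000000)*t^4 +
        (5617154/625)*t^5 +
        (9382029759/1250000)*t^6 +
        (3498882/625)*t^7 +
        (-47317324671/5000000)*t^8 +
        (1515197/625)*t^9 +
        (-24242456567/2500000)*t^10 +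
        (661169/625)*t^11 +
        (-6013872081/5000000)*t^12) / (5 * (1 + t ^ 2) ^ 4 * (105 + 90 * t ^ 2 + 9 * t ^ 4)) := by
    rw [hR, hx, hy, hK]
    have hq' := hq.ne'
    have hW' := hW.ne'
    field_simp
    ring
  rw [h3]
  apply div_pos (by linarith only [hP]) (by (clear * -; positivity))

/-- The two-variable inequality. -/
theorem core_ineq (t x y p K : ℝ) (h0 : 0 ≤ t) (h1 : t ≤ 1)
    (hx : x = 2 * t / (1 + t ^ 2)) (hy : y = (1 - t ^ 2) / (1 + t ^ 2)) (hK : K ≤ 18506 / 10000)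
    (hp : x ≤ p) :
    0 < 4 * arctan t + 2 * y * (1 + p) - 2 * x * y - (p + x) * (K + 4/5 - x ^ 2 - p ^ 2 / 5) := by
  have hx0 : 0 ≤ x := by rw [hx]; (clear * - h0; positivity)
  have hc := core_one t x y (18506/10000) h0 h1 hx hy rfl
  set D1 : ℝ := 4 * arctan t + 4 * y - 2 * x * y - (1 + x) * (18506/10000 + 3/5 - x ^ 2) with hD1
  set m : ℝ := 2 * y - (18506/10000 + 4/5 - x ^ 2) + 3/5 + 2/5 * x with hm
  have e1 : 4 * arctan t + 2 * y * (1 + p) - 2 * x * y - (p + x) * (K + 4/5 - x ^ 2 - p ^ 2 / 5) =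
      (p + x) * (18506/10000 - K) + D1 + m * (p - 1) + 2/5 * (1 + x) * (p - 1) ^ 2
        + (p - 1) ^ 2 * (p - x) / 5 := by
    rw [hD1, hm]; ring
  rw [e1]
  have h3 : 0 ≤ (p + x) * (18506/10000 - K) := mul_nonneg (by linarith only [hp, hx0]) (by linarith only [hK])
  have h4 : 0 ≤ (p - 1) ^ 2 * (p - x) / 5 := by
    have := mul_nonneg (sq_nonneg (p - 1)) (sub_nonneg.mpr hp)
    linarith only [this]
  have h5 : 0 < D1 + m * (p - 1) + 2/5 * (1 + x) * (p - 1) ^ 2 := by
    have h6 : 0 < 4 * (2/5 * (1 + x)) * (D1 + m * (p - 1) + 2/5 * (1 + x) * (p - 1) ^ 2) := by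
      have : 4 * (2/5 * (1 + x)) * (D1 + m * (p - 1) + 2/5 * (1 + x) * (p - 1) ^ 2) =
          (2 * (2/5 * (1 + x)) * (p - 1) + m) ^ 2 + (4 * (2/5 * (1 + x)) * D1 - m ^ 2) := by ring
      rw [this]
      have := sq_nonneg (2 * (2/5 * (1 + x)) * (p - 1) + m)
      (clear * - hc this; linarith)
    exact (mul_pos_iff_of_pos_left (by (clear * - hx0; positivity))).mp h6
  linarith only [h3, h4, h5]

theorem kappa_le : 3 * π ^ 2 / 16 ≤ 18506 / 10000 := by
  have := pi_lt_d4
  have h0 := pi_pos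
  nlinarith

end Vale.Agent.P237
end

section

/-!
# P237: the one-dimensional lemma

`p` concave on `[0,1]`, `p y ≥ √(1 - y²)` and `∫ p⁴ ≤ 4 ∫ y² p²` imply
`(3 π² / 32) ∫ p² ≤ (∫ p)²`, with equality only for the half circle.
-/

namespace Vale.Agent.P237

open Real MeasureTheory Set intervalIntegral

/-- The primitive of the half circle. -/
theorem integral_sqrt_one_sub_sq_zero (y : ℝ) (h0 : 0 ≤ y) (h1 : y ≤ 1) :
    ∫ s in (0:ℝ)..y, √(1 - s ^ 2) = (arcsin y + y * √(1 - y ^ 2)) / 2 := by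
  have hder : ∀ s ∈ Ioo (0:ℝ) y, HasDerivAt (fun s : ℝ => (arcsin s + s * √(1 - s ^ 2)) / 2)
      (√(1 - s ^ 2)) s := by
    intro s hs
    have hs1 : s < 1 := lt_of_lt_of_le hs.2 h1
    have hpos : 0 < 1 - s ^ 2 := by nlinarith only [hs1, hs.1]
    have hsq : 0 < √(1 - s ^ 2) := Real.sqrt_pos.mpr hpos
    have e1 := Real.hasDerivAt_arcsin (x := s) (by linarith [hs.1]) (by linarith)
    have e2 : HasDerivAt (fun s : ℝ => 1 - s ^ 2) (-(2 * s)) s := by
      have := (hasDerivAt_pow 2 s).const_sub 1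
      refine this.congr_deriv ?_
      simp
    have e3 := e2.sqrt hpos.ne'
    have e4 := (hasDerivAt_id s).mul e3
    have e5 := (e1.add e4).div_const 2
    refine e5.congr_deriv ?_
    have hsq2 : √(1 - s ^ 2) ^ 2 = 1 - s ^ 2 := Real.sq_sqrt hpos.le
    simp only [id]
    field_simp
    rw [hsq2]
    ring
  have hcont : ContinuousOn (fun s : ℝ => (arcsin s + s * √(1 - s ^ 2)) / 2) (Icc 0 y) := by
    have : Continuous (fun s : ℝ => (arcsin s + s * √(1 - s ^ 2)) / 2) := by
      have := Real.continuous_arcsin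
      fun_prop
    exact this.continuousOn
  have hint : IntervalIntegrable (fun s : ℝ => √(1 - s ^ 2)) volume 0 y := by
    have : Continuous (fun s : ℝ => √(1 - s ^ 2)) := by fun_prop
    exact this.intervalIntegrable _ _
  rw [intervalIntegral.integral_eq_sub_of_hasDerivAt_of_le h0 hcont hder hint]
  simp

/-- half angle substitution. -/
theorem exists_half_angle (y : ℝ) (h0 : 0 ≤ y) (h1 : y ≤ 1) :
    ∃ t : ℝ, 0 ≤ t ∧ t ≤ 1 ∧ √(1 - y ^ 2) = 2 * t / (1 + t ^ 2) ∧
      y = (1 - t ^ 2) / (1 + t ^ 2) ∧ 4 * arctan t = π - 2 * arcsin y := by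
  set θ := arccos y with hθ
  have hθ0 : 0 ≤ θ := arccos_nonneg y
  have hθ1 : θ ≤ π / 2 := arccos_le_pi_div_two.mpr h0
  have hpi := pi_pos
  have hc : cos θ = y := cos_arccos (by (clear * - h0; linarith)) h1
  have hs : sin θ = √(1 - y ^ 2) := by rw [hθ, sin_arccos]
  set c := cos (θ / 2) with hcdef
  set s := sin (θ / 2) with hsdef
  have hcpos : 0 < c := cos_pos_of_mem_Ioo ⟨by linarith only [hθ0, hpi], by linarith only [hθ1, hpi]⟩
  have hs0 : 0 ≤ s := sin_nonneg_of_nonneg_of_le_pi (by linarith only [hθ0]) (by linarith only [hθ1, hpi])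
  have hsc : s ^ 2 + c ^ 2 = 1 := sin_sq_add_cos_sq _
  have hsin : sin θ = 2 * s * c := by
    have := sin_two_mul (θ / 2)
    rw [show 2 * (θ / 2) = θ by ring] at this
    exact this
  have hcos : cos θ = c ^ 2 - s ^ 2 := by
    have := cos_two_mul (θ / 2)
    rw [show 2 * (θ / 2) = θ by ring] at this
    rw [this]
    linarith only [hsc]
  refine ⟨s / c, by (clear * - hs0 hcpos; positivity), ?_, ?_, ?_, ?_⟩
  · rw [div_le_one hcpos]
    have : s ^ 2 ≤ c ^ 2 := by
      have : 0 ≤ c ^ 2 - s ^ 2 := by rw [← hcos, hc]; exact h0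
      linarith only [h0, hc, hcos]
    exact le_of_sq_le_sq this hcpos.le
  · rw [← hs, hsin]
    have h2 : 1 + (s / c) ^ 2 = 1 / c ^ 2 := by
      field_simp
      linarith only [hsc]
    rw [h2]
    field_simp
  · rw [← hc, hcos]
    have h2 : 1 + (s / c) ^ 2 = 1 / c ^ 2 := by
      field_simp
      linarith only [hsc]
    rw [h2]
    (clear * - hcpos; field_simp)
  · have h2 : s / c = tan (θ / 2) := (tan_eq_sin_div_cos _).symm
    rw [h2, arctan_tan (by linarith only [hθ0, hpi]) (by linarith only [hθ1, hpi]), hθ, arccos_eq_pi_div_two_sub_arcsin]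
    ring

section

variable (p : ℝ → ℝ)

theorem intervalIntegrable_of_cont_bdd {f : ℝ → ℝ} (hf : ContinuousOn f (Ioo 0 1)) {C : ℝ}
    (hb : ∀ y ∈ Ioo (0:ℝ) 1, |f y| ≤ C) : IntervalIntegrable f volume 0 1 := by
  rw [intervalIntegrable_iff_integrableOn_Ioo_of_le zero_le_one]
  refine Integrable.of_bound (hf.aestronglyMeasurable measurableSet_Ioo) C ?_
  rw [ae_restrict_iff' measurableSet_Ioo]
  exact Filter.Eventually.of_forall fun y hy => hb y hy

theorem concave_bdd {p : ℝ → ℝ} (hc : ConcaveOn ℝ (Icc 0 1) p) (hp : ∀ y ∈ Icc (0:ℝ) 1, 0 ≤ p y)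
    (y : ℝ) (hy : y ∈ Icc (0:ℝ) 1) : p y ≤ 2 * p (1/2) := by
  have h1 : (1 - y) ∈ Icc (0:ℝ) 1 := ⟨by linarith [hy.2], by linarith [hy.1]⟩
  have := hc.2 hy h1 (by norm_num : (0:ℝ) ≤ 1/2) (by norm_num : (0:ℝ) ≤ 1/2) (by norm_num)
  simp only [smul_eq_mul] at this
  rw [show 1/2 * y + 1/2 * (1 - y) = 1/2 by ring] at this
  have h2 := hp _ h1
  linarith

/-- lower bound for the primitive of `p` by concavity -/
theorem integral_ge_of_concave {p : ℝ → ℝ} (hc : ConcaveOn ℝ (Icc 0 1) p) (h0 : 1 ≤ p 0)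
    (hint : IntervalIntegrable p volume 0 1)
    (y : ℝ) (hy0 : 0 < y) (hy1 : y ≤ 1) : y * (1 + p y) / 2 ≤ ∫ s in (0:ℝ)..y, p s := by
  have hint' : IntervalIntegrable p volume 0 y :=
    hint.mono_set (by rw [uIcc_of_le hy0.le, uIcc_of_le zero_le_one]; exact Icc_subset_Icc_right hy1)
  have h1 : ∫ s in (0:ℝ)..y, (1 + (p y - 1) / y * s) = y * (1 + p y) / 2 := by
    rw [intervalIntegral.integral_add (by simp) (by
      exact (continuous_const.mul continuous_id).intervalIntegrable _ _)]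
    rw [intervalIntegral.integral_const_mul]
    simp only [intervalIntegral.integral_const, integral_id, smul_eq_mul]
    field_simp
    ring
  rw [← h1]
  apply intervalIntegral.integral_mono_on hy0.le _ hint'
  · intro s hs
    have e0 : 0 ≤ 1 - s / y := by rw [sub_nonneg, div_le_one hy0]; exact hs.2
    have e1 : 0 ≤ s / y := div_nonneg hs.1 hy0.le
    have e := hc.2 (⟨le_rfl, zero_le_one⟩ : (0:ℝ) ∈ Icc (0:ℝ) 1)
      (⟨hy0.le, hy1⟩ : y ∈ Icc (0:ℝ) 1) e0 e1 (by ring)
    simp only [smul_eq_mul] at e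
    have e2 : (1 - s / y) * 0 + s / y * y = s := by field_simp; ring
    rw [e2] at e
    have e3 : (1 - s / y) * 1 ≤ (1 - s / y) * p 0 := mul_le_mul_of_nonneg_left h0 e0
    have e4 : 1 + (p y - 1) / y * s = (1 - s / y) * 1 + s / y * p y := by field_simp; ring
    rw [e4]
    linarith only [e, e3]
  · exact (continuous_const.add (continuous_const.mul continuous_id)).intervalIntegrable _ _

/-- the kernel `D` -/
theorem D_pos {p : ℝ → ℝ} (hc : ConcaveOn ℝ (Icc 0 1) p)
    (hp : ∀ y ∈ Icc (0:ℝ) 1, √(1 - y ^ 2) ≤ p y)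
    (hint : IntervalIntegrable p volume 0 1) (y : ℝ) (hy0 : 0 < y) (hy1 : y ≤ 1) :
    0 < π + 4 * (∫ s in (0:ℝ)..y, (p s - √(1 - s ^ 2))) -
      (p y + √(1 - y ^ 2)) * (3 * π ^ 2 / 16 - 1/5 + y ^ 2 - (p y) ^ 2 / 5) := by
  have hint' : IntervalIntegrable p volume 0 y :=
    hint.mono_set (by rw [uIcc_of_le hy0.le, uIcc_of_le zero_le_one]; exact Icc_subset_Icc_right hy1)
  have hint2 : IntervalIntegrable (fun s : ℝ => √(1 - s ^ 2)) volume 0 y := by
    have : Continuous (fun s : ℝ => √(1 - s ^ 2)) := by fun_prop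
    exact this.intervalIntegrable _ _
  have h0 : 1 ≤ p 0 := by
    have := hp 0 ⟨le_rfl, zero_le_one⟩
    simpa only [ge_iff_le, ne_eq, OfNat.ofNat_ne_zero, not_false_eq_true, zero_pow, sub_zero, sqrt_one] using this
  have hL := integral_ge_of_concave hc h0 hint y hy0 hy1
  rw [intervalIntegral.integral_sub hint' hint2, integral_sqrt_one_sub_sq_zero y hy0.le hy1]
  obtain ⟨t, ht0, ht1, hx, hy, ht⟩ := exists_half_angle y hy0.le hy1
  have hpy := hp y ⟨hy0.le, hy1⟩
  have hcore := core_ineq t (√(1 - y ^ 2)) y (p y) (3 * π ^ 2 / 16) ht0 ht1 hx hy kappa_le hpy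
  rw [ht] at hcore
  have hsq : √(1 - y ^ 2) ^ 2 = 1 - y ^ 2 := Real.sq_sqrt (by nlinarith only [hy1, hy0])
  rw [hsq] at hcore
  have : 3 * π ^ 2 / 16 + 4/5 - (1 - y ^ 2) - (p y) ^ 2 / 5 =
    3 * π ^ 2 / 16 - 1/5 + y ^ 2 - (p y) ^ 2 / 5 := by ring
  rw [this] at hcore
  linarith only [hL, hcore]

theorem concave_contOn {p : ℝ → ℝ} (hc : ConcaveOn ℝ (Icc 0 1) p) : ContinuousOn p (Ioo 0 1) := by
  have := hc.continuousOn_interior
  rwa [interior_Icc] at this

/-- The main identity. -/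
theorem one_dim_identity {p : ℝ → ℝ} (hc : ConcaveOn ℝ (Icc 0 1) p)
    (hp : ∀ y ∈ Icc (0:ℝ) 1, √(1 - y ^ 2) ≤ p y) :
    IntervalIntegrable (fun y => (p y - √(1 - y ^ 2)) *
      (π + 4 * (∫ s in (0:ℝ)..y, (p s - √(1 - s ^ 2))) -
      (p y + √(1 - y ^ 2)) * (3 * π ^ 2 / 16 - 1/5 + y ^ 2 - (p y) ^ 2 / 5))) volume 0 1 ∧
    ∫ y in (0:ℝ)..1, (p y - √(1 - y ^ 2)) *
      (π + 4 * (∫ s in (0:ℝ)..y, (p s - √(1 - s ^ 2))) -
      (p y + √(1 - y ^ 2)) * (3 * π ^ 2 / 16 - 1/5 + y ^ 2 - (p y) ^ 2 / 5)) =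
    2 * (∫ y in (0:ℝ)..1, p y) ^ 2 - 3 * π ^ 2 / 16 * (∫ y in (0:ℝ)..1, p y ^ 2) +
      1/5 * ((∫ y in (0:ℝ)..1, p y ^ 4) - 4 * ∫ y in (0:ℝ)..1, y ^ 2 * p y ^ 2) := by
  have hp0 : ∀ y ∈ Icc (0:ℝ) 1, 0 ≤ p y := fun y hy => (Real.sqrt_nonneg _).trans (hp y hy)
  have hcont := concave_contOn hc
  set C : ℝ := 2 * p (1/2) with hC
  have hbd : ∀ y ∈ Ioo (0:ℝ) 1, p y ≤ C := fun y hy => concave_bdd hc hp0 y (Ioo_subset_Icc_self hy)
  have hnn : ∀ y ∈ Ioo (0:ℝ) 1, 0 ≤ p y := fun y hy => hp0 y (Ioo_subset_Icc_self hy)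
  have hC0 : 0 ≤ C := by
    have := hp0 (1/2) ⟨by norm_num, by norm_num⟩
    (clear * - this; positivity)
  have hpowint : ∀ n : ℕ, IntervalIntegrable (fun y => p y ^ n) volume 0 1 := by
    intro n
    refine intervalIntegrable_of_cont_bdd (C := C ^ n) (hcont.pow n) ?_
    intro y hy
    rw [abs_of_nonneg (pow_nonneg (hnn y hy) n)]
    exact pow_le_pow_left₀ (hnn y hy) (hbd y hy) n
  have hpint : IntervalIntegrable p volume 0 1 := by
    have := hpowint 1
    simpa using this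
  have hsqc : Continuous (fun s : ℝ => √(1 - s ^ 2)) := by fun_prop
  have hsqint : IntervalIntegrable (fun s : ℝ => √(1 - s ^ 2)) volume 0 1 :=
    hsqc.intervalIntegrable _ _
  set g : ℝ → ℝ := fun s => p s - √(1 - s ^ 2) with hg
  have hgint : IntervalIntegrable g volume 0 1 := hpint.sub hsqint
  have hgcont : ContinuousOn g (Ioo 0 1) := hcont.sub hsqc.continuousOn
  set L : ℝ → ℝ := fun y => ∫ s in (0:ℝ)..y, g s with hL
  have hLcont : ContinuousOn L (Icc 0 1) := by
    have := intervalIntegral.continuousOn_primitive_interval (f := g) (μ := volume)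
      (a := 0) (b := 1) (by
        rw [uIcc_of_le zero_le_one, ← intervalIntegrable_iff_integrableOn_Icc_of_le zero_le_one]
        exact hgint)
    rwa [uIcc_of_le zero_le_one] at this
  have hLder : ∀ y ∈ Ioo (0:ℝ) 1, HasDerivAt L (g y) y := by
    intro y hy
    refine intervalIntegral.integral_hasDerivAt_right
      (hgint.mono_set (by
        rw [uIcc_of_le hy.1.le, uIcc_of_le zero_le_one]; exact Icc_subset_Icc_right hy.2.le))
      (hgcont.stronglyMeasurableAtFilter isOpen_Ioo y hy)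
      (hgcont.continuousAt (isOpen_Ioo.mem_nhds hy))
  have hgLint : IntervalIntegrable (fun y => g y * L y) volume 0 1 :=
    hgint.mul_continuousOn (by rw [uIcc_of_le zero_le_one]; exact hLcont)
  have hgL : ∫ y in (0:ℝ)..1, g y * L y = (∫ s in (0:ℝ)..1, g s) ^ 2 / 2 := by
    have h1 : ∀ y ∈ Ioo (0:ℝ) 1, HasDerivAt (fun y => L y ^ 2 / 2) (g y * L y) y := by
      intro y hy
      have := ((hLder y hy).pow 2).div_const 2
      refine this.congr_deriv ?_
      simp only [Nat.cast_ofNat, Nat.add_one_sub_one, pow_one]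
      ring
    rw [intervalIntegral.integral_eq_sub_of_hasDerivAt_of_le zero_le_one
      ((hLcont.pow 2).div_const 2) h1 hgLint]
    simp [hL]
  have hG : ∫ s in (0:ℝ)..1, g s = (∫ y in (0:ℝ)..1, p y) - π / 4 := by
    rw [hg, intervalIntegral.integral_sub hpint hsqint,
      integral_sqrt_one_sub_sq_zero 1 zero_le_one le_rfl]
    simp only [arcsin_one, one_pow, sub_self, sqrt_zero, mul_zero, add_zero, sub_right_inj]
    ring
  have hyp2 : IntervalIntegrable (fun y => y ^ 2 * p y ^ 2) volume 0 1 :=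
    (hpowint 2).continuousOn_mul (by fun_prop)
  have hq : IntervalIntegrable (fun y : ℝ => (3 * π ^ 2 / 16) * (1 - y ^ 2) - 1/5 * (1 - y ^ 2) ^ 2
      + 4/5 * (y ^ 2 * (1 - y ^ 2))) volume 0 1 := by
    have : Continuous (fun y : ℝ => (3 * π ^ 2 / 16) * (1 - y ^ 2) - 1/5 * (1 - y ^ 2) ^ 2
      + 4/5 * (y ^ 2 * (1 - y ^ 2))) := by fun_prop
    exact this.intervalIntegrable _ _
  have hqv : ∫ y in (0:ℝ)..1, ((3 * π ^ 2 / 16) * (1 - y ^ 2) - 1/5 * (1 - y ^ 2) ^ 2
      + 4/5 * (y ^ 2 * (1 - y ^ 2))) = π ^ 2 / 8 := by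
    have h1 : ∀ y ∈ uIcc (0:ℝ) 1, HasDerivAt (fun y : ℝ => (3 * π ^ 2 / 16) * (y - y ^ 3 / 3)
        - 1/5 * (y - 2 * y ^ 3 / 3 + y ^ 5 / 5) + 4/5 * (y ^ 3 / 3 - y ^ 5 / 5))
        ((3 * π ^ 2 / 16) * (1 - y ^ 2) - 1/5 * (1 - y ^ 2) ^ 2
      + 4/5 * (y ^ 2 * (1 - y ^ 2))) y := by
      intro y _
      have e1 := hasDerivAt_id y
      have e3 := hasDerivAt_pow 3 y
      have e5 := hasDerivAt_pow 5 y
      have := (((e1.sub (e3.div_const 3)).const_mul (3 * π ^ 2 / 16)).sub
        (((e1.sub ((e3.const_mul 2).div_const 3)).add (e5.div_const 5)).const_mul (1/5))).add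
        (((e3.div_const 3).sub (e5.div_const 5)).const_mul (4/5))
      refine this.congr_deriv ?_
      simp only [Nat.cast_ofNat, Nat.add_one_sub_one, ne_eq, OfNat.ofNat_ne_zero, not_false_eq_true, mul_div_cancel_left₀, one_div]
      ring
    rw [intervalIntegral.integral_eq_sub_of_hasDerivAt h1 hq]
    ring
  have hpt : ∀ y ∈ Icc (0:ℝ) 1, g y *
      (π + 4 * L y - (p y + √(1 - y ^ 2)) * (3 * π ^ 2 / 16 - 1/5 + y ^ 2 - (p y) ^ 2 / 5)) =
      (π * g y + 4 * (g y * L y)) + ((-(3 * π ^ 2 / 16)) * p y ^ 2 + 1/5 * p y ^ 4 -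
        4/5 * (y ^ 2 * p y ^ 2)) + ((3 * π ^ 2 / 16) * (1 - y ^ 2) - 1/5 * (1 - y ^ 2) ^ 2
      + 4/5 * (y ^ 2 * (1 - y ^ 2))) := by
    intro y hy
    have hsq : √(1 - y ^ 2) ^ 2 = 1 - y ^ 2 := Real.sq_sqrt (by nlinarith only [hy.1, hy.2])
    have h1 : g y * (p y + √(1 - y ^ 2)) = p y ^ 2 - (1 - y ^ 2) := by
      rw [hg]; simp only; linear_combination (-1) * hsq
    calc _ = π * g y + 4 * (g y * L y) - (g y * (p y + √(1 - y ^ 2))) *
          (3 * π ^ 2 / 16 - 1/5 + y ^ 2 - (p y) ^ 2 / 5) := by ring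
      _ = _ := by rw [h1]; ring
  have hI1 : IntervalIntegrable (fun y => π * g y + 4 * (g y * L y)) volume 0 1 :=
    (hgint.const_mul _).add (hgLint.const_mul _)
  have hI2 : IntervalIntegrable (fun y => (-(3 * π ^ 2 / 16)) * p y ^ 2 + 1/5 * p y ^ 4 -
        4/5 * (y ^ 2 * p y ^ 2)) volume 0 1 :=
    (((hpowint 2).const_mul _).add ((hpowint 4).const_mul _)).sub (hyp2.const_mul _)
  have heq : EqOn (fun y => g y *
      (π + 4 * L y - (p y + √(1 - y ^ 2)) * (3 * π ^ 2 / 16 - 1/5 + y ^ 2 - (p y) ^ 2 / 5)))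
      (fun y => (π * g y + 4 * (g y * L y)) + ((-(3 * π ^ 2 / 16)) * p y ^ 2 + 1/5 * p y ^ 4 -
        4/5 * (y ^ 2 * p y ^ 2)) + ((3 * π ^ 2 / 16) * (1 - y ^ 2) - 1/5 * (1 - y ^ 2) ^ 2
      + 4/5 * (y ^ 2 * (1 - y ^ 2)))) (uIcc 0 1) := by
    intro y hy
    rw [uIcc_of_le zero_le_one] at hy
    exact hpt y hy
  constructor
  · refine ((hI1.add hI2).add hq).congr_uIoo ?_
    intro y hy
    rw [uIoo_of_le zero_le_one] at hy
    exact (hpt y (Ioo_subset_Icc_self hy)).symm
  · rw [intervalIntegral.integral_congr heq, intervalIntegral.integral_add (hI1.add hI2) hq, hqv,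
      intervalIntegral.integral_add hI1 hI2,
      intervalIntegral.integral_add (hgint.const_mul _) (hgLint.const_mul _),
      intervalIntegral.integral_sub (((hpowint 2).const_mul _).add ((hpowint 4).const_mul _))
        (hyp2.const_mul _),
      intervalIntegral.integral_add ((hpowint 2).const_mul _) ((hpowint 4).const_mul _)]
    simp only [intervalIntegral.integral_const_mul]
    rw [hgL, hG]
    ring

/-- **One-dimensional lemma on `[0,1]`.** -/
theorem one_dim_S {p : ℝ → ℝ} (hc : ConcaveOn ℝ (Icc 0 1) p)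
    (hp : ∀ y ∈ Icc (0:ℝ) 1, √(1 - y ^ 2) ≤ p y)
    (hS : ∫ y in (0:ℝ)..1, p y ^ 4 ≤ 4 * ∫ y in (0:ℝ)..1, y ^ 2 * p y ^ 2) :
    3 * π ^ 2 / 32 * (∫ y in (0:ℝ)..1, p y ^ 2) ≤ (∫ y in (0:ℝ)..1, p y) ^ 2 := by
  obtain ⟨hint, hid⟩ := one_dim_identity hc hp
  have hpint : IntervalIntegrable p volume 0 1 := by
    refine intervalIntegrable_of_cont_bdd (C := 2 * p (1/2)) (concave_contOn hc) ?_
    intro y hy
    have hp0 : ∀ y ∈ Icc (0:ℝ) 1, 0 ≤ p y := fun y hy => (Real.sqrt_nonneg _).trans (hp y hy)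
    rw [abs_of_nonneg (hp0 y (Ioo_subset_Icc_self hy))]
    exact concave_bdd hc hp0 y (Ioo_subset_Icc_self hy)
  have hnn : 0 ≤ ∫ y in (0:ℝ)..1, (p y - √(1 - y ^ 2)) *
      (π + 4 * (∫ s in (0:ℝ)..y, (p s - √(1 - s ^ 2))) -
      (p y + √(1 - y ^ 2)) * (3 * π ^ 2 / 16 - 1/5 + y ^ 2 - (p y) ^ 2 / 5)) := by
    rw [intervalIntegral.integral_of_le zero_le_one, integral_Ioc_eq_integral_Ioo]
    apply setIntegral_nonneg measurableSet_Ioo
    intro y hy
    exact mul_nonneg (sub_nonneg.mpr (hp y (Ioo_subset_Icc_self hy)))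
      (D_pos hc hp hpint y hy.1 hy.2.le).le
  rw [hid] at hnn
  (clear * - hS hnn; linarith)

/-- **Strict form of the one-dimensional lemma on `[0,1]`.** -/
theorem one_dim_S_strict {p : ℝ → ℝ} (hc : ConcaveOn ℝ (Icc 0 1) p)
    (hp : ∀ y ∈ Icc (0:ℝ) 1, √(1 - y ^ 2) ≤ p y)
    (hS : ∫ y in (0:ℝ)..1, p y ^ 4 ≤ 4 * ∫ y in (0:ℝ)..1, y ^ 2 * p y ^ 2)
    (hne : 2 / 3 < ∫ y in (0:ℝ)..1, p y ^ 2) :
    3 * π ^ 2 / 32 * (∫ y in (0:ℝ)..1, p y ^ 2) < (∫ y in (0:ℝ)..1, p y) ^ 2 := by
  obtain ⟨hint, hid⟩ := one_dim_identity hc hp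
  have hp0 : ∀ y ∈ Icc (0:ℝ) 1, 0 ≤ p y := fun y hy => (Real.sqrt_nonneg _).trans (hp y hy)
  have hpint : IntervalIntegrable p volume 0 1 := by
    refine intervalIntegrable_of_cont_bdd (C := 2 * p (1/2)) (concave_contOn hc) ?_
    intro y hy
    rw [abs_of_nonneg (hp0 y (Ioo_subset_Icc_self hy))]
    exact concave_bdd hc hp0 y (Ioo_subset_Icc_self hy)
  have hDpos : ∀ y ∈ Ioo (0:ℝ) 1, 0 < (π + 4 * (∫ s in (0:ℝ)..y, (p s - √(1 - s ^ 2))) -
      (p y + √(1 - y ^ 2)) * (3 * π ^ 2 / 16 - 1/5 + y ^ 2 - (p y) ^ 2 / 5)) :=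
    fun y hy => D_pos hc hp hpint y hy.1 hy.2.le
  -- a point where `p` is strictly above the half circle
  obtain ⟨y₀, hy₀, hlt⟩ : ∃ y ∈ Ioo (0:ℝ) 1, √(1 - y ^ 2) < p y := by
    by_contra hcon
    push Not at hcon
    have h1 : ∫ y in (0:ℝ)..1, p y ^ 2 = ∫ y in (0:ℝ)..1, (1 - y ^ 2) := by
      rw [intervalIntegral.integral_of_le zero_le_one, integral_Ioc_eq_integral_Ioo,
        intervalIntegral.integral_of_le zero_le_one, integral_Ioc_eq_integral_Ioo]
      refine setIntegral_congr_fun measurableSet_Ioo ?_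
      intro y hy
      simp only
      rw [le_antisymm (hcon y hy) (hp y (Ioo_subset_Icc_self hy))]
      exact Real.sq_sqrt (by nlinarith only [hy.1, hy.2])
    have h2 : ∫ y in (0:ℝ)..1, (1 - y ^ 2) = 2 / 3 := by
      rw [intervalIntegral.integral_sub (by simp) (by
        exact (continuous_pow 2).intervalIntegrable _ _)]
      simp only [intervalIntegral.integral_const, sub_zero, smul_eq_mul, mul_one, integral_pow, Nat.reduceAdd, one_pow, ne_eq, OfNat.ofNat_ne_zero, not_false_eq_true, zero_pow, Nat.cast_ofNat, one_div]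
      norm_num
    rw [h1, h2] at hne
    exact lt_irrefl _ hne
  have hpos : 0 < ∫ y in (0:ℝ)..1, (p y - √(1 - y ^ 2)) *
      (π + 4 * (∫ s in (0:ℝ)..y, (p s - √(1 - s ^ 2))) -
      (p y + √(1 - y ^ 2)) * (3 * π ^ 2 / 16 - 1/5 + y ^ 2 - (p y) ^ 2 / 5)) := by
    rw [intervalIntegral.integral_of_le zero_le_one, integral_Ioc_eq_integral_Ioo]
    rw [setIntegral_pos_iff_support_of_nonneg_ae]
    · have hcont : ContinuousOn (fun y => p y - √(1 - y ^ 2)) (Ioo 0 1) :=
        (concave_contOn hc).sub (by fun_prop)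
      have hopen : IsOpen (Ioo (0:ℝ) 1 ∩ (fun y => p y - √(1 - y ^ 2)) ⁻¹' (Ioi 0)) :=
        hcont.isOpen_inter_preimage isOpen_Ioo isOpen_Ioi
      refine lt_of_lt_of_le (hopen.measure_pos volume ⟨y₀, hy₀, ?_⟩) (measure_mono ?_)
      · simpa using hlt
      · intro y hy
        refine ⟨?_, hy.1⟩
        rw [Function.mem_support]
        have h1 : 0 < p y - √(1 - y ^ 2) := hy.2
        exact (mul_pos h1 (hDpos y hy.1)).ne'
    · rw [Filter.EventuallyLE, ae_restrict_iff' measurableSet_Ioo]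
      refine Filter.Eventually.of_forall fun y hy => ?_
      exact mul_nonneg (sub_nonneg.mpr (hp y (Ioo_subset_Icc_self hy))) (hDpos y hy).le
    · rw [intervalIntegrable_iff_integrableOn_Ioo_of_le zero_le_one] at hint
      exact hint
  rw [hid] at hpos
  linarith only [hS, hpos]

end

section even

theorem integral_even_eq {f : ℝ → ℝ} (he : ∀ y, f (-y) = f y) (hf : IntervalIntegrable f volume 0 1) :
    ∫ y in (-1:ℝ)..1, f y = 2 * ∫ y in (0:ℝ)..1, f y := by
  have h1 : ∫ y in (-1:ℝ)..0, f y = ∫ y in (0:ℝ)..1, f y := by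
    have := intervalIntegral.integral_comp_neg (a := (0:ℝ)) (b := 1) f
    simp only [he, neg_zero] at this
    exact this.symm
  have h2 : IntervalIntegrable f volume (-1) 0 := by
    have := (IntervalIntegrable.iff_comp_neg (f := f) (a := 0) (b := 1)).mp hf
    simp only [he, neg_zero] at this
    exact this.symm
  rw [← intervalIntegral.integral_add_adjacent_intervals h2 hf, h1]
  ring

variable {p : ℝ → ℝ}

theorem pow_intervalIntegrable (hc : ConcaveOn ℝ (Icc 0 1) p)
    (hp0 : ∀ y ∈ Icc (0:ℝ) 1, 0 ≤ p y) (n : ℕ) : IntervalIntegrable (fun y => p y ^ n) volume 0 1 := by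
  refine intervalIntegrable_of_cont_bdd (C := (2 * p (1/2)) ^ n) ((concave_contOn hc).pow n) ?_
  intro y hy
  have hy' := Ioo_subset_Icc_self hy
  rw [abs_of_nonneg (pow_nonneg (hp0 y hy') n)]
  exact pow_le_pow_left₀ (hp0 y hy') (concave_bdd hc hp0 y hy') n

/-- **One-dimensional lemma for even functions on `[-1,1]`.** -/
theorem one_dim_even (hc : ConcaveOn ℝ (Icc (-1) 1) p) (he : ∀ y, p (-y) = p y)
    (hge : ∀ y ∈ Icc (-1 : ℝ) 1, √(1 - y ^ 2) ≤ p y)
    (hm : ∫ y in (-1 : ℝ)..1, p y ^ 4 ≤ 4 * ∫ y in (-1 : ℝ)..1, y ^ 2 * p y ^ 2) :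
    3 * π ^ 2 / 16 * ∫ y in (-1 : ℝ)..1, p y ^ 2 ≤ (∫ y in (-1 : ℝ)..1, p y) ^ 2 := by
  have hc' : ConcaveOn ℝ (Icc 0 1) p :=
    hc.subset (Icc_subset_Icc_left (by norm_num)) (convex_Icc 0 1)
  have hp' : ∀ y ∈ Icc (0 : ℝ) 1, √(1 - y ^ 2) ≤ p y :=
    fun y hy => hge y ⟨by linarith only [hy.1], hy.2⟩
  have hp0 : ∀ y ∈ Icc (0:ℝ) 1, 0 ≤ p y := fun y hy => (Real.sqrt_nonneg _).trans (hp' y hy)
  have hint := pow_intervalIntegrable hc' hp0
  have hint1 : IntervalIntegrable p volume 0 1 := by simpa using hint 1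
  have hyp2 : IntervalIntegrable (fun y => y ^ 2 * p y ^ 2) volume 0 1 :=
    (hint 2).continuousOn_mul (by fun_prop)
  rw [integral_even_eq (by intro y; simp [he]) (hint 4),
    integral_even_eq (by intro y; simp only [even_two, Even.neg_pow, he]) hyp2] at hm
  rw [integral_even_eq (by intro y; simp [he]) (hint 2), integral_even_eq he hint1]
  have := one_dim_S hc' hp' (by linarith only [hm])
  linarith

/-- **Strict form for even functions on `[-1,1]`.** -/
theorem one_dim_even_strict (hc : ConcaveOn ℝ (Icc (-1) 1) p) (he : ∀ y, p (-y) = p y)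
    (hge : ∀ y ∈ Icc (-1 : ℝ) 1, √(1 - y ^ 2) ≤ p y)
    (hm : ∫ y in (-1 : ℝ)..1, p y ^ 4 ≤ 4 * ∫ y in (-1 : ℝ)..1, y ^ 2 * p y ^ 2)
    (hs : 4 / 3 < ∫ y in (-1 : ℝ)..1, p y ^ 2) :
    3 * π ^ 2 / 16 * ∫ y in (-1 : ℝ)..1, p y ^ 2 < (∫ y in (-1 : ℝ)..1, p y) ^ 2 := by
  have hc' : ConcaveOn ℝ (Icc 0 1) p :=
    hc.subset (Icc_subset_Icc_left (by norm_num)) (convex_Icc 0 1)
  have hp' : ∀ y ∈ Icc (0 : ℝ) 1, √(1 - y ^ 2) ≤ p y :=
    fun y hy => hge y ⟨by linarith only [hy.1], hy.2⟩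
  have hp0 : ∀ y ∈ Icc (0:ℝ) 1, 0 ≤ p y := fun y hy => (Real.sqrt_nonneg _).trans (hp' y hy)
  have hint := pow_intervalIntegrable hc' hp0
  have hint1 : IntervalIntegrable p volume 0 1 := by simpa using hint 1
  have hyp2 : IntervalIntegrable (fun y => y ^ 2 * p y ^ 2) volume 0 1 :=
    (hint 2).continuousOn_mul (by fun_prop)
  rw [integral_even_eq (by intro y; simp [he]) (hint 4),
    integral_even_eq (by intro y; simp only [even_two, Even.neg_pow, he]) hyp2] at hm
  rw [integral_even_eq (by intro y; simp [he]) (hint 2)] at hs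
  rw [integral_even_eq (by intro y; simp [he]) (hint 2), integral_even_eq he hint1]
  have := one_dim_S_strict hc' hp' (by linarith only [hm]) (by linarith)
  nlinarith only [this]

end even

end Vale.Agent.P237
end

section

end

section

/-!
# P237: the affine invariant functional of the projection-volume problem
-/

open MeasureTheory Metric Set Module

namespace Vale.Agent.P237

variable {V : Type*} [NormedAddCommGroup V] [InnerProductSpace ℝ V] [FiniteDimensional ℝ V]
  [MeasurableSpace V] [BorelSpace V]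

/-- The affine invariant functional `|Π K| / |K|^(n-1)`. -/
noncomputable def ratio (K : Set V) : ℝ := vol (projBody K) / vol K ^ (finrank ℝ V - 1)

end Vale.Agent.P237
end

section

/-!
# P237: invariance of the functional, existence of a global minimizer
-/

open MeasureTheory Metric Set Module
open scoped Pointwise

namespace Vale.Agent.P237

variable {V : Type*} [NormedAddCommGroup V] [InnerProductSpace ℝ V] [FiniteDimensional ℝ V]
  [MeasurableSpace V] [BorelSpace V]

omit [MeasurableSpace V] [BorelSpace V] in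
theorem IsSymBody.image (T : V ≃ₗ[ℝ] V) {K : Set V} (hK : IsSymBody K) : IsSymBody (T '' K) := by
  refine ⟨hK.toIsBody.image T, ?_⟩
  rintro _ ⟨x, hx, rfl⟩
  exact ⟨-x, hK.symm x hx, map_neg T x⟩

omit [FiniteDimensional ℝ V] [MeasurableSpace V] [BorelSpace V] in
theorem IsBody.translate {K : Set V} (hK : IsBody K) (c : V) :
    IsBody ((fun x => c + x) '' K) := by
  refine ⟨?_, hK.compact.image (by fun_prop), ?_⟩
  · exact hK.convex.translate c
  · obtain ⟨x, hx⟩ := hK.int
    refine ⟨c + x, ?_⟩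
    have h1 := (Homeomorph.addLeft c).image_interior K
    have h2 : (fun x => c + x) '' interior K = interior ((fun x => c + x) '' K) := h1
    rw [← h2]
    exact ⟨x, hx, rfl⟩

theorem shadow_translate (K : Set V) (c u : V) :
    shadow ((fun x => c + x) '' K) u = shadow K u := by
  unfold shadow
  have h1 : (ℝ ∙ u)ᗮ.orthogonalProjectionOnto '' ((fun x => c + x) '' K) =
      (fun x => (ℝ ∙ u)ᗮ.orthogonalProjectionOnto c + x) ''
        ((ℝ ∙ u)ᗮ.orthogonalProjectionOnto '' K) := by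
    rw [image_image, image_image]
    apply image_congr
    intro x _
    rw [map_add]
  rw [h1, volume_image_add_left]

theorem projBody_translate (K : Set V) (c : V) :
    projBody ((fun x => c + x) '' K) = projBody K := by
  unfold projBody
  simp only [shadow_translate]

theorem ratio_image (T : V ≃ₗ[ℝ] V) {K : Set V} (hK : IsBody K) (_hd : 0 < finrank ℝ V) :
    ratio (T '' K) = ratio K := by
  unfold ratio
  have hdet : LinearMap.det (T : V →ₗ[ℝ] V) ≠ 0 := (LinearEquiv.isUnit_det' T).ne_zero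
  have hD : 0 < |LinearMap.det (T : V →ₗ[ℝ] V)| := abs_pos.mpr hdet
  rw [vol_projBody_image T hK, vol_image_linearEquiv, mul_pow]
  exact mul_div_mul_left _ _ (pow_pos hD _).ne'

theorem ratio_translate (K : Set V) (c : V) : ratio ((fun x => c + x) '' K) = ratio K := by
  unfold ratio
  rw [projBody_translate, vol_image_add_left]

theorem exists_global_min (hd : 0 < finrank ℝ V) :
    ∃ K₀ : Set V, IsSymBody K₀ ∧ ∀ K : Set V, IsSymBody K → ratio K₀ ≤ ratio K := by
  obtain ⟨K₀, hK₀, -, -, hmin⟩ := exists_minimizer (V := V) hd (2 ^ finrank ℝ V)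
    (one_le_pow₀ (by norm_num))
  refine ⟨K₀, hK₀, fun K hK => ?_⟩
  obtain ⟨T, hT⟩ := exists_johnPos hK
  have hTK := hK.image T
  rw [← ratio_image T hK.toIsBody hd]
  exact hmin _ hTK hT.1 (johnPos_bounded hTK hT)

omit [FiniteDimensional ℝ V] [MeasurableSpace V] [BorelSpace V] in
theorem center_zero {K M : Set V} (hK : IsSymBody K) (hM : IsSymBody M) {c : V} {r : ℝ}
    (_hr : 0 < r) (h : M = (fun x => c + x) '' (r • K)) : c = 0 := by
  have hne : M.Nonempty := hM.int.mono interior_subset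
  obtain ⟨x, hx, hmax⟩ := hM.compact.exists_isMaxOn hne
    (f := fun y => inner ℝ y c) (by fun_prop)
  -- `M` is invariant under the translation by `2c`
  have h1 : c + (c + x) ∈ M := by
    have h2 : -x ∈ M := hM.symm x hx
    rw [h] at h2
    obtain ⟨_, ⟨k, hk, rfl⟩, h3⟩ := h2
    rw [h]
    refine ⟨r • (-k), smul_mem_smul_set (hK.symm k hk), ?_⟩
    simp only at h3 ⊢
    rw [smul_neg]
    have h4 : x = -(c + r • k) := by rw [h3, neg_neg]
    rw [h4]
    abel
  have h2 := hmax h1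
  simp only [mem_ofPred_eq, inner_add_left] at h2
  have h3 : inner ℝ c c = ‖c‖ ^ 2 := real_inner_self_eq_norm_sq c
  have h4 : ‖c‖ ^ 2 ≤ 0 := by
    rw [h3] at h2
    linarith
  have h5 : ‖c‖ = 0 := by
    have := sq_nonneg ‖c‖
    exact pow_eq_zero_iff (two_ne_zero) |>.1 (le_antisymm h4 this)
  exact norm_eq_zero.1 h5

end Vale.Agent.P237
end

section

/-!
# P237: the class-reduction inequality for the projection body operator and its equality case
-/

open MeasureTheory Metric Set Module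
open scoped Pointwise

namespace Vale.Agent.P237

variable {V : Type*} [NormedAddCommGroup V] [InnerProductSpace ℝ V] [FiniteDimensional ℝ V]
  [MeasurableSpace V] [BorelSpace V]

namespace Glue1

theorem bernoulli {a x : ℝ} (ha : 0 ≤ a) (hx : 0 ≤ x) (n : ℕ) :
    a ^ (n + 1) + (n + 1) * a ^ n * x ≤ (a + x) ^ (n + 1) := by
  induction n with
  | zero => simp
  | succ n ih =>
    have h1 : (a ^ (n + 1) + (n + 1) * a ^ n * x) * (a + x) ≤ (a + x) ^ (n + 1) * (a + x) :=
      mul_le_mul_of_nonneg_right ih (by positivity)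
    have h2 : (0 : ℝ) ≤ (n + 1) * a ^ n * x * x := by positivity
    push_cast
    calc a ^ (n + 1 + 1) + ((n : ℝ) + 1 + 1) * a ^ (n + 1) * x
        ≤ (a ^ (n + 1) + (n + 1) * a ^ n * x) * (a + x) := by
          have h3 : (a ^ (n + 1) + (n + 1) * a ^ n * x) * (a + x) =
            a ^ (n + 1 + 1) + ((n : ℝ) + 1 + 1) * a ^ (n + 1) * x + (n + 1) * a ^ n * x * x := by
            ring
          rw [h3]
          linarith only [h2]
      _ ≤ (a + x) ^ (n + 1) * (a + x) := h1
      _ = (a + x) ^ (n + 1 + 1) := by ring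

theorem limit_lemma {d : ℕ} (hd : 0 < d) {a b s A C : ℝ} (ha : 0 ≤ a) (hb : 0 ≤ b)
    (h : ∀ ε : ℝ, 0 < ε → ε ≤ 1 →
      (a + ε * b) ^ d ≤ a ^ d + ε * s * (1 + ε * C) ^ (d - 1) * (d * A)) :
    a ^ (d - 1) * b ≤ s * A := by
  obtain ⟨n, rfl⟩ : ∃ n, d = n + 1 := ⟨d - 1, by omega⟩
  simp only [Nat.add_sub_cancel] at h ⊢
  have h1 : ∀ ε : ℝ, 0 < ε → ε ≤ 1 → a ^ n * b ≤ s * (1 + ε * C) ^ n * A := by
    intro ε hε hε1
    have h2 := h ε hε hε1
    have h3 := bernoulli ha (mul_nonneg hε.le hb) n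
    have h4 : ((n : ℝ) + 1) * ε * (a ^ n * b) ≤ ((n : ℝ) + 1) * ε * (s * (1 + ε * C) ^ n * A) := by
      push_cast at h2
      have h5 := h3.trans h2
      have h6 : ((n : ℝ) + 1) * a ^ n * (ε * b) ≤ ε * s * (1 + ε * C) ^ n * (((n : ℝ) + 1) * A) := by
        linarith only [h3, h2]
      calc ((n : ℝ) + 1) * ε * (a ^ n * b) = ((n : ℝ) + 1) * a ^ n * (ε * b) := by ring
        _ ≤ _ := h6
        _ = _ := by ring
    exact le_of_mul_le_mul_left h4 (by positivity)
  have hlim : Filter.Tendsto (fun ε : ℝ => s * (1 + ε * C) ^ n * A) (nhdsWithin 0 (Ioi 0))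
      (nhds (s * (1 + 0 * C) ^ n * A)) := by
    apply Filter.Tendsto.mono_left _ nhdsWithin_le_nhds
    exact Continuous.tendsto (by fun_prop) 0
  have h2 : a ^ n * b ≤ s * (1 + 0 * C) ^ n * A := by
    apply ge_of_tendsto hlim
    have h3 : Ioc (0 : ℝ) 1 ∈ nhdsWithin (0 : ℝ) (Ioi 0) := Ioc_mem_nhdsGT one_pos
    filter_upwards [h3] with ε hε
    exact h1 ε hε.1 hε.2
  simpa only [ge_iff_le, zero_mul, add_zero, one_pow, mul_one] using h2

theorem rpow_pow {x : ℝ} (hx : 0 ≤ x) {d : ℕ} (hd : 0 < d) :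
    (x ^ ((1 : ℝ) / d)) ^ d = x := by
  rw [one_div]
  exact Real.rpow_inv_natCast_pow hx hd.ne'

/-- the derivative bound. -/
theorem core {K : Set V} (hK : IsBody K) (h0 : (0 : V) ∈ interior K) (hd : 0 < finrank ℝ V)
    {t : ℝ} (ht : 0 ≤ t) :
    (vol K ^ ((1 : ℝ) / finrank ℝ V)) ^ (finrank ℝ V - 1) *
      (vol (K + t • projBody (projBody K)) ^ ((1 : ℝ) / finrank ℝ V) -
        vol K ^ ((1 : ℝ) / finrank ℝ V)) ≤ t * vol (projBody K) := by
  have hN := projBody_isSymBody hK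
  have hM := projBody_isSymBody hN.toIsBody
  obtain ⟨C, hC, hbound⟩ := mixed_bound hK h0 hN hM.compact hM.convex
    (hM.int.mono interior_subset)
    (fun v => (supp_projBody hK v).ge) (fun v => (supp_projBody hN.toIsBody v).le)
  set M := projBody (projBody K) with hMdef
  have hKne : K.Nonempty := hK.int.mono interior_subset
  have hMne : M.Nonempty := hM.int.mono interior_subset
  have htM : IsCompact (t • M) := hM.compact.smul t
  have htMne : (t • M).Nonempty := hMne.smul_set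
  have hKtM : IsCompact (K + t • M) := hK.compact.add htM
  set a := vol K ^ ((1 : ℝ) / finrank ℝ V) with ha
  set g := vol (K + t • M) ^ ((1 : ℝ) / finrank ℝ V) with hg
  have ha0 : 0 ≤ a := Real.rpow_nonneg (vol_nonneg K) _
  have hag : a ≤ g := by
    have h1 := brunn_minkowski hK.compact htM hKne htMne hd
    have h2 : 0 ≤ vol (t • M) ^ ((1 : ℝ) / finrank ℝ V) := Real.rpow_nonneg (vol_nonneg _) _
    (clear h0 ht hN C hC hbound hMdef hKtM ha hg ha0; linarith)
  apply limit_lemma hd (C := t * C) ha0 (sub_nonneg.2 hag)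
  intro ε hε hε1
  -- inclusion
  have hincl : (1 - ε) • K + ε • (K + t • M) ⊆ K + (ε * t) • M := by
    rintro _ ⟨_, ⟨k, hk, rfl⟩, _, ⟨_, ⟨k', hk', _, ⟨m, hm, rfl⟩, rfl⟩, rfl⟩, rfl⟩
    refine ⟨(1 - ε) • k + ε • k', ?_, (ε * t) • m, ⟨m, hm, rfl⟩, ?_⟩
    · exact hK.convex hk hk' (by linarith only [hε1]) hε.le (by ring)
    · simp only [smul_add, mul_smul]
      abel
  have hcs : ∀ {s : ℝ} {S : Set V}, 0 ≤ s →
      vol (s • S) ^ ((1 : ℝ) / finrank ℝ V) = s * vol S ^ ((1 : ℝ) / finrank ℝ V) := by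
    intro s S hs
    rw [vol_smul_set_of_nonneg hs, Real.mul_rpow (by (clear * - hs; positivity)) (vol_nonneg S), one_div,
      Real.pow_rpow_inv_natCast hs hd.ne']
  have hbm := brunn_minkowski (K := (1 - ε) • K) (L := ε • (K + t • M))
    (hK.compact.smul _) (hKtM.smul _) hKne.smul_set (hKne.add htMne).smul_set hd
  rw [hcs (by linarith only [hε1]), hcs hε.le, ← ha, ← hg] at hbm
  have hmono : vol ((1 - ε) • K + ε • (K + t • M)) ≤ vol (K + (ε * t) • M) :=
    vol_mono (hK.compact.add (hM.compact.smul _)) hincl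
  have h3 : a + ε * (g - a) ≤ vol (K + (ε * t) • M) ^ ((1 : ℝ) / finrank ℝ V) := by
    have h4 := Real.rpow_le_rpow (vol_nonneg _) hmono
      (show (0 : ℝ) ≤ (1 : ℝ) / finrank ℝ V by positivity)
    calc a + ε * (g - a) = (1 - ε) * a + ε * g := by ring
      _ ≤ _ := hbm.trans h4
  have h5 : (a + ε * (g - a)) ^ finrank ℝ V ≤ vol (K + (ε * t) • M) := by
    have h6 := pow_le_pow_left₀ (add_nonneg ha0 (mul_nonneg hε.le (sub_nonneg.2 hag))) h3
      (finrank ℝ V)
    rwa [rpow_pow (vol_nonneg _) hd] at h6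
  have h7 := hbound (ε * t) (mul_nonneg hε.le ht)
  rw [ha, rpow_pow (vol_nonneg K) hd, ← ha, ← mul_assoc ε t C]
  exact h5.trans h7

omit [FiniteDimensional ℝ V] [MeasurableSpace V] [BorelSpace V] in
/-- Reduction to bodies with `0` in the interior. -/
theorem exists_translate {K : Set V} (hK : IsBody K) : ∃ c : V,
    IsBody ((fun x => c + x) '' K) ∧ (0 : V) ∈ interior ((fun x => c + x) '' K) := by
  obtain ⟨x, hx⟩ := hK.int
  refine ⟨-x, hK.translate (-x), ?_⟩
  have h1 := (Homeomorph.addLeft (-x)).image_interior K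
  have h2 : (fun y => -x + y) '' interior K = interior ((fun y => -x + y) '' K) := h1
  rw [← h2]
  exact ⟨x, hx, by simp⟩

theorem contract0 {K : Set V} (hK : IsBody K) (h0 : (0 : V) ∈ interior K)
    (hd : 0 < finrank ℝ V) :
    vol K ^ (finrank ℝ V - 1) * vol (projBody (projBody K)) ≤
      vol (projBody K) ^ finrank ℝ V := by
  have hN := projBody_isSymBody hK
  have hM := projBody_isSymBody hN.toIsBody
  have h1 := core hK h0 hd zero_le_one
  rw [one_smul, one_mul] at h1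
  have h2 := brunn_minkowski hK.compact hM.compact (hK.int.mono interior_subset)
    (hM.int.mono interior_subset) hd
  set a := vol K ^ ((1 : ℝ) / finrank ℝ V) with ha
  set m := vol (projBody (projBody K)) ^ ((1 : ℝ) / finrank ℝ V) with hm
  have ha0 : 0 ≤ a := Real.rpow_nonneg (vol_nonneg K) _
  have hm0 : 0 ≤ m := Real.rpow_nonneg (vol_nonneg _) _
  have h3 : a ^ (finrank ℝ V - 1) * m ≤ vol (projBody K) := by
    refine le_trans ?_ h1
    apply mul_le_mul_of_nonneg_left _ (by (clear * - ha0; positivity))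
    (clear hK h0 hd hN hM h1 ha hm ha0 hm0; linarith)
  have h4 := pow_le_pow_left₀ (by (clear * - ha0 hm0; positivity)) h3 (finrank ℝ V)
  rw [mul_pow, hm, rpow_pow (vol_nonneg _) hd, ← pow_mul, mul_comm (finrank ℝ V - 1), pow_mul, ha,
    rpow_pow (vol_nonneg _) hd] at h4
  exact h4

theorem contract0_eq {K : Set V} (hK : IsBody K) (h0 : (0 : V) ∈ interior K)
    (hd : 0 < finrank ℝ V)
    (h : vol (projBody K) ^ finrank ℝ V ≤
      vol K ^ (finrank ℝ V - 1) * vol (projBody (projBody K))) :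
    ∃ (c : V) (r : ℝ), 0 < r ∧ projBody (projBody K) = (fun x => c + x) '' (r • K) := by
  have hN := projBody_isSymBody hK
  have hM := projBody_isSymBody hN.toIsBody
  set M := projBody (projBody K) with hMdef
  set a := vol K ^ ((1 : ℝ) / finrank ℝ V) with ha
  set m := vol M ^ ((1 : ℝ) / finrank ℝ V) with hm
  have hvK : 0 < vol K := ZA.vol_pos hK
  have hvM : 0 < vol M := ZA.vol_pos hM.toIsBody
  have ha0 : 0 < a := Real.rpow_pos_of_pos hvK _
  have hm0 : 0 < m := Real.rpow_pos_of_pos hvM _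
  have had : a ^ finrank ℝ V = vol K := rpow_pow (vol_nonneg _) hd
  have hmd : m ^ finrank ℝ V = vol M := rpow_pow (vol_nonneg _) hd
  -- `vol N ≤ a^(d-1) m`
  have h1 : vol (projBody K) ≤ a ^ (finrank ℝ V - 1) * m := by
    apply le_of_pow_le_pow_left₀ hd.ne' (by (clear h0 hd hN h hMdef ha hm ha0 hm0 had hmd; positivity))
    rw [mul_pow, ← pow_mul, mul_comm (finrank ℝ V - 1), pow_mul, had, hmd]
    exact h
  set t := a / m with ht
  have ht0 : 0 < t := div_pos ha0 hm0
  have htm : t * m = a := div_mul_cancel₀ a hm0.ne'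
  have h2 := core hK h0 hd ht0.le
  rw [← hMdef, ← ha] at h2
  set g := vol (K + t • M) ^ ((1 : ℝ) / finrank ℝ V) with hg
  have h3 : g - a ≤ a := by
    have h4 : a ^ (finrank ℝ V - 1) * (g - a) ≤ a ^ (finrank ℝ V - 1) * a := by
      calc a ^ (finrank ℝ V - 1) * (g - a) ≤ t * vol (projBody K) := h2
        _ ≤ t * (a ^ (finrank ℝ V - 1) * m) := mul_le_mul_of_nonneg_left h1 ht0.le
        _ = a ^ (finrank ℝ V - 1) * (t * m) := by ring
        _ = a ^ (finrank ℝ V - 1) * a := by rw [htm]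
    exact le_of_mul_le_mul_left h4 (by (clear h0 hd hN M h hM hMdef ha m hm hvM ha0 hm0 had hmd h1 t ht ht0 htm g h2 hg h4; positivity))
  have hvtM : vol (t • M) = vol K := by
    rw [vol_smul_set_of_nonneg ht0.le, ← hmd, ← mul_pow, htm, had]
  have hvtM' : vol (t • M) ^ ((1 : ℝ) / finrank ℝ V) = a := by rw [hvtM]
  have hbm := brunn_minkowski hK.compact (hM.compact.smul t) (hK.int.mono interior_subset)
    (hM.int.mono interior_subset).smul_set hd
  rw [hvtM', ← ha, ← hg] at hbm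
  have hg2 : g = 2 * a := by linarith only [hbm, h3]
  have hvol : vol (K + t • M) = 2 ^ finrank ℝ V * vol K := by
    have h4 : g ^ finrank ℝ V = vol (K + t • M) := rpow_pow (vol_nonneg _) hd
    rw [← h4, hg2, mul_pow, had]
  have hhalf : vol ((2⁻¹ : ℝ) • (K + t • M)) = vol K := by
    rw [vol_smul_set_of_nonneg (by norm_num), hvol, ← mul_assoc, ← mul_pow]
    norm_num
  have htMbody : IsBody (t • M) := by
    have h4 := hM.toIsBody.image (LinearEquiv.smulOfNeZero ℝ V t ht0.ne')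
    exact h4
  obtain ⟨c, hc⟩ := bm_equality hK htMbody hvtM.symm hhalf
  refine ⟨t⁻¹ • c, t⁻¹, inv_pos.2 ht0, ?_⟩
  have h5 : M = t⁻¹ • (t • M) := by rw [inv_smul_smul₀ ht0.ne']
  rw [h5, hc]
  ext x
  constructor
  · rintro ⟨_, ⟨k, hk, rfl⟩, rfl⟩
    exact ⟨t⁻¹ • k, smul_mem_smul_set hk, by simp only [smul_add]⟩
  · rintro ⟨_, ⟨k, hk, rfl⟩, rfl⟩
    exact ⟨c + k, ⟨k, hk, rfl⟩, by simp only [smul_add]⟩

end Glue1

theorem petty_contract {K : Set V} (hK : IsBody K) (hd : 0 < finrank ℝ V) :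
    vol K ^ (finrank ℝ V - 1) * vol (projBody (projBody K)) ≤
      vol (projBody K) ^ finrank ℝ V := by
  obtain ⟨c, hc, hc0⟩ := Glue1.exists_translate hK
  have h1 := Glue1.contract0 hc hc0 hd
  rwa [projBody_translate, vol_image_add_left] at h1

theorem petty_contract_eq {K : Set V} (hK : IsBody K) (hd : 0 < finrank ℝ V)
    (h : vol (projBody K) ^ finrank ℝ V ≤
      vol K ^ (finrank ℝ V - 1) * vol (projBody (projBody K))) :
    ∃ (c : V) (r : ℝ), 0 < r ∧ projBody (projBody K) = (fun x => c + x) '' (r • K) := by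
  obtain ⟨c, hc, hc0⟩ := Glue1.exists_translate hK
  obtain ⟨c', r, hr, h1⟩ := Glue1.contract0_eq hc hc0 hd (by
    rwa [projBody_translate, vol_image_add_left])
  rw [projBody_translate] at h1
  refine ⟨c' + r • c, r, hr, ?_⟩
  rw [h1]
  ext x
  constructor
  · rintro ⟨_, ⟨_, ⟨k, hk, rfl⟩, rfl⟩, rfl⟩
    exact ⟨r • k, smul_mem_smul_set hk, by simp only [smul_add]; abel⟩
  · rintro ⟨_, ⟨k, hk, rfl⟩, rfl⟩
    exact ⟨r • (c + k), smul_mem_smul_set ⟨k, hk, rfl⟩, by simp only [smul_add]; abel⟩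

end Vale.Agent.P237
end

section

/-!
# P237: second moments of slices and the final slice estimate
-/

open MeasureTheory Metric Set Module
open scoped Pointwise

namespace Vale.Agent.P237

section Plane

variable {W : Type*} [NormedAddCommGroup W] [InnerProductSpace ℝ W] [FiniteDimensional ℝ W]
  [MeasurableSpace W] [BorelSpace W]

theorem volume_ball_plane (h2 : finrank ℝ W = 2) : (volume : Measure W).real (ball 0 1) = Real.pi := by
  have : Nontrivial W := Module.nontrivial_of_finrank_pos (R := ℝ) (by omega)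
  unfold Measure.real
  rw [InnerProductSpace.volume_ball_of_dim_even (k := 1) (by omega), h2]
  simp only [ENNReal.ofReal_one, one_pow, pow_one, Nat.factorial_one, Nat.cast_one, div_one, one_mul, Real.pi_pos.le, ENNReal.toReal_ofReal]

/-- Integral of `min (‖z‖² - r², 0)` in the plane. -/
theorem integral_min_plane (h2 : finrank ℝ W = 2) {r : ℝ} (hr : 0 ≤ r) :
    ∫ z : W, min (‖z‖ ^ 2 - r ^ 2) 0 = - (Real.pi * r ^ 4 / 2) := by
  have : Nontrivial W := Module.nontrivial_of_finrank_pos (R := ℝ) (by omega)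
  have h := integral_fun_norm_addHaar (volume : Measure W) (fun s : ℝ => min (s ^ 2 - r ^ 2) 0)
  rw [h, h2, volume_ball_plane h2]
  have h3 : ∫ y in Ioi (0:ℝ), y ^ (2 - 1) • min (y ^ 2 - r ^ 2) 0 = - (r ^ 4 / 4) := by
    have e1 : ∫ y in Ioi (0:ℝ), y ^ (2 - 1) • min (y ^ 2 - r ^ 2) 0 =
        ∫ y in Ioc (0:ℝ) r, y * (y ^ 2 - r ^ 2) := by
      rw [← integral_indicator measurableSet_Ioi, ← integral_indicator measurableSet_Ioc]
      congr 1
      funext y
      by_cases hy : 0 < y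
      · rw [indicator_of_mem (show y ∈ Ioi (0:ℝ) from hy)]
        by_cases hy2 : y ≤ r
        · rw [indicator_of_mem (show y ∈ Ioc (0:ℝ) r from ⟨hy, hy2⟩), min_eq_left]
          · simp
          · nlinarith only [hy2, hy]
        · rw [indicator_of_notMem (show y ∉ Ioc (0:ℝ) r from fun h => hy2 h.2), min_eq_right]
          · simp
          · push Not at hy2
            nlinarith only [hr, hy2]
      · rw [indicator_of_notMem (show y ∉ Ioi (0:ℝ) from hy),
          indicator_of_notMem (show y ∉ Ioc (0:ℝ) r from fun h => hy h.1)]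
    rw [e1, ← intervalIntegral.integral_of_le hr]
    have hder : ∀ y ∈ uIcc 0 r, HasDerivAt (fun y : ℝ => y ^ 4 / 4 - r ^ 2 * y ^ 2 / 2)
        (y * (y ^ 2 - r ^ 2)) y := by
      intro y _
      have := ((hasDerivAt_pow 4 y).div_const 4).sub
        (((hasDerivAt_pow 2 y).const_mul (r ^ 2)).div_const 2)
      refine this.congr_deriv ?_
      simp only [Nat.cast_ofNat, Nat.add_one_sub_one, ne_eq, OfNat.ofNat_ne_zero, not_false_eq_true, mul_div_cancel_left₀, pow_one]
      ring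
    rw [intervalIntegral.integral_eq_sub_of_hasDerivAt hder (by
      have : Continuous (fun y : ℝ => y * (y ^ 2 - r ^ 2)) := by fun_prop
      exact this.intervalIntegrable _ _)]
    ring
  rw [h3]
  simp only [smul_eq_mul, mul_neg, smul_neg, nsmul_eq_mul, Nat.cast_ofNat, neg_inj]
  ring

/-- Among planar sets of given area the disc has the least second moment. -/
theorem moment_plane (h2 : finrank ℝ W = 2) {S : Set W} (hS : IsCompact S) :
    vol S ^ 2 / (2 * Real.pi) ≤ ∫ z in S, ‖z‖ ^ 2 := by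
  have hpi := Real.pi_pos
  have hv : 0 ≤ vol S := ENNReal.toReal_nonneg
  set r : ℝ := √(vol S / Real.pi) with hr
  have hr0 : 0 ≤ r := Real.sqrt_nonneg _
  have hr2 : r ^ 2 = vol S / Real.pi := Real.sq_sqrt (by (clear h2 hS hpi r hr hr0; positivity))
  have hI := integral_min_plane (W := W) h2 hr0
  have hcont : Continuous (fun z : W => min (‖z‖ ^ 2 - r ^ 2) 0) := by fun_prop
  have hint : Integrable (fun z : W => min (‖z‖ ^ 2 - r ^ 2) 0) := by
    refine hcont.integrable_of_hasCompactSupport ?_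
    refine HasCompactSupport.intro (isCompact_closedBall (0 : W) r) ?_
    intro z hz
    rw [mem_closedBall_zero_iff, not_le] at hz
    apply min_eq_right
    nlinarith only [hr0, hz]
  have h1 : ∫ z : W, min (‖z‖ ^ 2 - r ^ 2) 0 ≤ ∫ z in S, min (‖z‖ ^ 2 - r ^ 2) 0 := by
    rw [← integral_indicator hS.measurableSet]
    refine integral_mono hint (hint.indicator hS.measurableSet) ?_
    intro z
    by_cases hz : z ∈ S
    · simp only [indicator_of_mem hz]; exact le_rfl
    · simp only [indicator_of_notMem hz]; exact min_le_right _ _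
  have hc1 : IntegrableOn (fun z : W => ‖z‖ ^ 2) S :=
    (by fun_prop : Continuous (fun z : W => ‖z‖ ^ 2)).continuousOn.integrableOn_compact hS
  have hc2 : IntegrableOn (fun _ : W => r ^ 2) S :=
    continuousOn_const.integrableOn_compact hS
  have h2 : ∫ z in S, min (‖z‖ ^ 2 - r ^ 2) 0 ≤ ∫ z in S, (‖z‖ ^ 2 - r ^ 2) :=
    integral_mono hint.integrableOn (hc1.sub hc2) fun z => min_le_left _ _
  rw [integral_sub hc1 hc2, setIntegral_const, smul_eq_mul] at h2
  have h3 : (volume : Measure W).real S = vol S := rfl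
  rw [h3] at h2
  rw [hI] at h1
  have h4 : r ^ 4 = (vol S / Real.pi) ^ 2 := by rw [← hr2]; ring
  rw [h4] at h1
  have e1 : Real.pi * (vol S / Real.pi) ^ 2 / 2 = vol S ^ 2 / (2 * Real.pi) := by
    (clear hS hpi hv r hr hr0 hr2 hI hcont hint h1 hc1 hc2 h2 h3 h4; field_simp)
  have e2 : vol S * r ^ 2 = 2 * (vol S ^ 2 / (2 * Real.pi)) := by
    rw [hr2]
    (clear hS hpi hv r hr hr0 hr2 hI hcont hint h1 hc1 hc2 h2 h3 h4 e1; field_simp)
  rw [e1] at h1
  rw [e2] at h2
  (clear hS hpi hv hr hr0 hr2 hI hcont hint hc1 hc2 h3 h4 e1 e2; linarith)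

end Plane

section Space

variable {V : Type*} [NormedAddCommGroup V] [InnerProductSpace ℝ V] [FiniteDimensional ℝ V]
  [MeasurableSpace V] [BorelSpace V]

omit [FiniteDimensional ℝ V] [MeasurableSpace V] [BorelSpace V] in
theorem norm_sq_prod_point {u : V} (hu : ‖u‖ = 1) (z : ((ℝ ∙ u)ᗮ : Submodule ℝ V)) (y : ℝ) :
    ‖(z : V) + y • u‖ ^ 2 = ‖z‖ ^ 2 + y ^ 2 := by
  have h1 : inner ℝ (z : V) u = 0 := by
    rw [real_inner_comm]
    exact Submodule.mem_orthogonal_singleton_iff_inner_right.mp z.2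
  have h2 := norm_add_sq_real (z : V) (y • u)
  rw [h2, inner_smul_right, h1, norm_smul, hu]
  simp

/-- The areas of the slices are bounded. -/
theorem exists_vol_slice_le {K : Set V} (hK : IsCompact K) {u : V} (hu : ‖u‖ = 1) :
    ∃ C : ℝ, 0 ≤ C ∧ ∀ y, vol (slice K u y) ≤ C := by
  obtain ⟨R, hR⟩ := hK.isBounded.subset_closedBall (0 : V)
  refine ⟨vol (closedBall (0 : ((ℝ ∙ u)ᗮ : Submodule ℝ V)) R), ENNReal.toReal_nonneg, fun y => ?_⟩
  refine ENNReal.toReal_mono (isCompact_closedBall _ _).measure_lt_top.ne (measure_mono ?_)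
  intro z hz
  have h1 := hR (show (z : V) + y • u ∈ K from hz)
  rw [mem_closedBall_zero_iff] at h1 ⊢
  have h2 := norm_sq_prod_point hu z y
  have h3 : ‖z‖ ^ 2 ≤ ‖(z : V) + y • u‖ ^ 2 := by rw [h2]; nlinarith only []
  exact (abs_le_of_sq_le_sq' h3 (norm_nonneg _)).2.trans h1

theorem integrable_vol_slice_sq {K : Set V} (hK : IsCompact K) {u : V} (hu : ‖u‖ = 1) :
    Integrable (fun y : ℝ => vol (slice K u y) ^ 2) := by
  obtain ⟨C, hC, hb⟩ := exists_vol_slice_le hK hu
  have h := integrable_vol_slice hK hu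
  have h2 := h.mul_bdd (c := C) h.aestronglyMeasurable (Filter.Eventually.of_forall fun y => by
    rw [Real.norm_eq_abs, abs_of_nonneg (show 0 ≤ vol (slice K u y) from ENNReal.toReal_nonneg)]
    exact hb y)
  refine h2.congr (Filter.Eventually.of_forall fun y => ?_)
  simp only [sq]

/-- Fubini for continuous functions on a compact set. -/
theorem slice_fubini {K : Set V} (hK : IsCompact K) {u : V} (hu : ‖u‖ = 1) (g : V → ℝ)
    (hg : Continuous g) :
    Integrable (fun y : ℝ => ∫ z in slice K u y, g ((z : V) + y • u)) ∧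
    ∫ x in K, g x = ∫ y : ℝ, (∫ z in slice K u y, g ((z : V) + y • u)) := by
  have hm : MeasurableSet K := hK.measurableSet
  have hint : Integrable (fun x : V => K.indicator g x) := by
    rw [integrable_indicator_iff hm]
    exact hg.continuousOn.integrableOn_compact hK
  have hint2 : Integrable (fun p : ℝ × ((ℝ ∙ u)ᗮ : Submodule ℝ V) =>
      K.indicator g ((p.2 : V) + p.1 • u)) := by
    have := ((prodEquiv_measurePreserving u hu).integrable_comp_emb
      (prodEquiv u hu).measurableEmbedding).2 hint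
    refine this.congr (Filter.Eventually.of_forall fun p => ?_)
    simp only [Function.comp, prodEquiv_apply]
  have hpt : ∀ y : ℝ, ∫ z : ((ℝ ∙ u)ᗮ : Submodule ℝ V), K.indicator g ((z : V) + y • u)
      = ∫ z in slice K u y, g ((z : V) + y • u) := by
    intro y
    rw [← integral_indicator (slice_isCompact hK u y).measurableSet]
    congr 1
  rw [Measure.volume_eq_prod] at hint2
  constructor
  · refine hint2.integral_prod_left.congr (Filter.Eventually.of_forall fun y => ?_)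
    exact hpt y
  · rw [← integral_indicator hm, integral_eq_integral_prod u hu, Measure.volume_eq_prod,
      integral_prod _ hint2]
    exact integral_congr_ae (Filter.Eventually.of_forall fun y => hpt y)

theorem slice_moment (hd : finrank ℝ V = 3) {K : Set V} (hK : IsCompact K) {u : V}
    (hu : ‖u‖ = 1) :
    (∫ x in K, (inner ℝ x u) ^ 2) + (∫ y : ℝ, vol (slice K u y) ^ 2) / (2 * Real.pi) ≤
      ∫ x in K, ‖x‖ ^ 2 := by
  have h2 := finrank_perp hd hu
  obtain ⟨i1, e1⟩ := slice_fubini hK hu (fun x => ‖x‖ ^ 2) (by fun_prop)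
  obtain ⟨i2, e2⟩ := slice_fubini hK hu (fun x => (inner ℝ x u) ^ 2)
    ((continuous_id.inner continuous_const).pow 2)
  rw [e1, e2, ← integral_div, ← integral_add i2 ((integrable_vol_slice_sq hK hu).div_const _)]
  refine integral_mono (i2.add ((integrable_vol_slice_sq hK hu).div_const _)) i1 ?_
  intro y
  have hS := slice_isCompact hK u y
  have h3 := moment_plane h2 hS
  simp only [inner_prod_point hu, norm_sq_prod_point hu]
  have hc1 : IntegrableOn (fun z : ((ℝ ∙ u)ᗮ : Submodule ℝ V) => ‖z‖ ^ 2) (slice K u y) :=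
    (by fun_prop : Continuous (fun z : ((ℝ ∙ u)ᗮ : Submodule ℝ V) =>
      ‖z‖ ^ 2)).continuousOn.integrableOn_compact hS
  have hc2 : IntegrableOn (fun _ : ((ℝ ∙ u)ᗮ : Submodule ℝ V) => y ^ 2) (slice K u y) :=
    continuousOn_const.integrableOn_compact hS
  rw [integral_add hc1 hc2]
  linarith

/-- The slices are empty for `|y| > 1`. -/
theorem vol_slice_eq_zero {K : Set V} (hs : ∀ x ∈ K, -x ∈ K) {u : V} (hu : ‖u‖ = 1)
    (hc : ∀ x ∈ K, inner ℝ x u ≤ 1) {y : ℝ} (hy : 1 < |y|) : vol (slice K u y) = 0 := by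
  have : slice K u y = ∅ := by
    rw [eq_empty_iff_forall_notMem]
    intro z hz
    have h1 := hc _ hz
    have h2 := hc _ (hs _ hz)
    rw [inner_neg_left, inner_prod_point hu] at h2
    rw [inner_prod_point hu] at h1
    rcases lt_abs.mp hy with h | h <;> linarith
  rw [this]
  simp [vol]

theorem integral_eq_of_support {f : ℝ → ℝ} (hf : ∀ y, 1 < |y| → f y = 0) :
    ∫ y : ℝ, f y = ∫ y in (-1:ℝ)..1, f y := by
  rw [intervalIntegral.integral_of_le (by norm_num), ← integral_Icc_eq_integral_Ioc]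
  symm
  refine setIntegral_eq_integral_of_forall_compl_eq_zero ?_
  intro y hy
  apply hf
  rw [mem_Icc, ← abs_le, not_le] at hy
  exact hy

/-- **Slice estimate**: the contact direction of the moment inequality. -/
theorem sqrt_slice_bound (hd : finrank ℝ V = 3) {K : Set V} (hK : IsSymBody K)
    (hb : closedBall (0 : V) 1 ⊆ K) {u : V} (hu : ‖u‖ = 1)
    (hc : ∀ x ∈ K, inner ℝ x u ≤ 1)
    (hm : (∫ x in K, ‖x‖ ^ 2) ≤ 3 * ∫ x in K, (inner ℝ x u) ^ 2) :
    3 * Real.pi ^ 2 / 16 * vol K ≤ (∫ y : ℝ, √(vol (slice K u y))) ^ 2 ∧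
    (4 * Real.pi / 3 < vol K →
      3 * Real.pi ^ 2 / 16 * vol K < (∫ y : ℝ, √(vol (slice K u y))) ^ 2) := by
  have hpi := Real.pi_pos
  have hKc := hK.compact
  set A : ℝ → ℝ := fun y => vol (slice K u y) with hA
  have hA0 : ∀ y, 0 ≤ A y := fun y => ENNReal.toReal_nonneg
  have hAz : ∀ y, 1 < |y| → A y = 0 := fun y hy => vol_slice_eq_zero hK.symm hu hc hy
  set p : ℝ → ℝ := fun y => √(A y / Real.pi) with hp
  have hp2 : ∀ y, p y ^ 2 = A y / Real.pi := fun y => Real.sq_sqrt (div_nonneg (hA0 y) hpi.le)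
  have hpe : ∀ y, p y = (√Real.pi)⁻¹ * √(A y) := fun y => by
    simp only [hp]
    rw [Real.sqrt_div' _ hpi.le, div_eq_inv_mul]
  have hconc : ConcaveOn ℝ (Icc (-1) 1) p := by
    have h1 := slice_sqrt_concave hd hK.toIsBody hb hu
    have h2 := h1.smul (inv_nonneg.mpr (Real.sqrt_nonneg Real.pi))
    refine h2.congr ?_
    intro y _
    simp only [smul_eq_mul, hpe, hA]
  have heven : ∀ y, p (-y) = p y := fun y => by
    simp only [hp, hA, slice_vol_even hK hu]
  have hge : ∀ y ∈ Icc (-1 : ℝ) 1, √(1 - y ^ 2) ≤ p y := by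
    intro y hy
    apply Real.sqrt_le_sqrt
    rw [le_div_iff₀ hpi, mul_comm]
    exact slice_ge hd hK.toIsBody hb hu (abs_le.mpr hy)
  -- transfer of the moment inequality
  have hmom := slice_moment hd hKc hu
  have hin : ∫ x in K, (inner ℝ x u) ^ 2 = ∫ y : ℝ, y ^ 2 * A y :=
    integral_slice hKc hu (fun t => t ^ 2) (by fun_prop)
  have e4 : ∫ y in (-1:ℝ)..1, p y ^ 4 = (∫ y : ℝ, A y ^ 2) / Real.pi ^ 2 := by
    rw [integral_eq_of_support (f := fun y => A y ^ 2) (fun y hy => by rw [hAz y hy]; ring),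
      ← intervalIntegral.integral_div]
    congr 1
    funext y
    rw [show p y ^ 4 = (p y ^ 2) ^ 2 by ring, hp2, div_pow]
  have e3 : ∫ y in (-1:ℝ)..1, y ^ 2 * p y ^ 2 = (∫ y : ℝ, y ^ 2 * A y) / Real.pi := by
    rw [integral_eq_of_support (f := fun y => y ^ 2 * A y) (fun y hy => by rw [hAz y hy]; ring),
      ← intervalIntegral.integral_div]
    congr 1
    funext y
    rw [hp2, mul_div_assoc]
  have e2 : ∫ y in (-1:ℝ)..1, p y ^ 2 = vol K / Real.pi := by
    rw [vol_eq_integral_slice hKc hu, integral_eq_of_support (f := fun y => vol (slice K u y)) hAz,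
      ← intervalIntegral.integral_div]
    congr 1
    funext y
    rw [hp2]
  have e1 : ∫ y in (-1:ℝ)..1, p y = (√Real.pi)⁻¹ * ∫ y : ℝ, √(A y) := by
    rw [integral_eq_of_support (f := fun y => √(A y)) (fun y hy => by rw [hAz y hy]; simp),
      ← intervalIntegral.integral_const_mul]
    congr 1
    funext y
    rw [hpe]
  have hS : ∫ y in (-1:ℝ)..1, p y ^ 4 ≤ 4 * ∫ y in (-1:ℝ)..1, y ^ 2 * p y ^ 2 := by
    rw [e4, e3]
    rw [hin] at hm hmom
    have h1 : (∫ y : ℝ, A y ^ 2) / (2 * Real.pi) ≤ 2 * ∫ y : ℝ, y ^ 2 * A y := by (clear hd hK hb hu hc hpi hKc hA hA0 hAz p hp hp2 hpe hconc heven hge hin e4 e3 e2 e1; linarith)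
    rw [div_le_iff₀ (by positivity)] at h1
    rw [div_le_iff₀ (by positivity)]
    have h3 : 4 * ((∫ y : ℝ, y ^ 2 * A y) / Real.pi) * Real.pi ^ 2 =
        2 * (∫ y : ℝ, y ^ 2 * A y) * (2 * Real.pi) := by
      field_simp
      ring
    rw [h3]
    exact h1
  have hsq : (√Real.pi)⁻¹ ^ 2 = Real.pi⁻¹ := by
    rw [inv_pow, Real.sq_sqrt hpi.le]
  constructor
  · have h := one_dim_even hconc heven hge hS
    rw [e2, e1, mul_pow, hsq] at h
    have h' := mul_le_mul_of_nonneg_left h hpi.le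
    have t1 : Real.pi * (3 * Real.pi ^ 2 / 16 * (vol K / Real.pi)) =
        3 * Real.pi ^ 2 / 16 * vol K := by (clear hd hK hb u hu hc hm hpi hKc A hA hA0 hAz p hp hp2 hpe hconc heven hge hmom hin e4 e3 e2 e1 hS hsq h h'; field_simp)
    have t2 : Real.pi * (Real.pi⁻¹ * (∫ y : ℝ, √(A y)) ^ 2) = (∫ y : ℝ, √(A y)) ^ 2 := by
      (clear * -; field_simp)
    rw [t1, t2] at h'
    exact h'
  · intro hv
    have hv' : 4 / 3 < ∫ y in (-1:ℝ)..1, p y ^ 2 := by
      rw [e2, lt_div_iff₀ hpi]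
      (clear hd hK hb u hu hc hm hpi hKc A hA hA0 hAz p hp hp2 hpe hconc heven hge hmom hin e4 e3 e2 e1 hS hsq; linarith)
    have h := one_dim_even_strict hconc heven hge hS hv'
    rw [e2, e1, mul_pow, hsq] at h
    have h' := mul_lt_mul_of_pos_left h hpi
    have t1 : Real.pi * (3 * Real.pi ^ 2 / 16 * (vol K / Real.pi)) =
        3 * Real.pi ^ 2 / 16 * vol K := by (clear hd hK hb u hu hc hm hpi hKc A hA hA0 hAz p hp hp2 hpe hconc heven hge hmom hin e4 e3 e2 e1 hS hsq hv hv' h h'; field_simp)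
    have t2 : Real.pi * (Real.pi⁻¹ * (∫ y : ℝ, √(A y)) ^ 2) = (∫ y : ℝ, √(A y)) ^ 2 := by
      (clear * -; field_simp)
    rw [t1, t2] at h'
    exact h'

end Space

end Vale.Agent.P237
end

section

/-!
# P237: the fixed point bound in dimension three
-/

open MeasureTheory Metric Set Module
open scoped Pointwise

namespace Vale.Agent.P237

variable {V : Type*} [NormedAddCommGroup V] [InnerProductSpace ℝ V] [FiniteDimensional ℝ V]
  [MeasurableSpace V] [BorelSpace V]

namespace Glue3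

/-- In a contact direction of the John ellipsoid the second projection body is as large as
the factor `μ`. -/
theorem mu_eq_shadow {K : Set V} (hK : IsSymBody K) (hb : closedBall (0 : V) 1 ⊆ K) {μ : ℝ}
    (hμ0 : 0 < μ) (hμ : projBody (projBody K) = μ • K) {u : V} (hu : ‖u‖ = 1)
    (hc : ∀ x ∈ K, inner ℝ x u ≤ 1) : shadow (projBody K) u = μ := by
  have hPi := projBody_isSymBody hK.toIsBody
  have h1 : supp (projBody (projBody K)) u = beta (projBody K) u :=
    supp_projBody hPi.toIsBody u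
  rw [beta_unit hPi.compact hPi.convex hu] at h1
  have h2 : supp K u = 1 := by
    have huK : u ∈ K := hb (by rw [mem_closedBall, dist_zero_right, hu])
    apply le_antisymm
    · obtain ⟨x, hx, hxe⟩ := exists_supp hK.compact ⟨u, huK⟩ u
      rw [← hxe]
      exact hc x hx
    · have h3 := le_supp hK.compact u huK
      rwa [real_inner_self_eq_norm_sq, hu, one_pow] at h3
  have h3 : supp (μ • K) u = μ * supp K u := by
    unfold supp
    have h4 : (fun x : V => inner ℝ x u) '' (μ • K) = μ • ((fun x : V => inner ℝ x u) '' K) := by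
      rw [← Set.image_smul, ← Set.image_smul, image_image, image_image]
      simp only [real_inner_smul_left, smul_eq_mul]
    rw [h4, Real.sSup_smul_of_nonneg hμ0.le, smul_eq_mul]
  rw [← h1, hμ, h3, h2, mul_one]

theorem main (hd : finrank ℝ V = 3) {K : Set V} (hK : IsSymBody K)
    (hJ : JohnPos K) {μ : ℝ} (hμ0 : 0 < μ) (hμ : projBody (projBody K) = μ • K) :
    3 * Real.pi ^ 2 / 4 * vol K ≤ μ ∧
      (4 * Real.pi / 3 < vol K → 3 * Real.pi ^ 2 / 4 * vol K < μ) := by
  obtain ⟨u, hu, hc, hm⟩ := john_contact hK hJ (by rw [hd]; norm_num)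
  rw [hd] at hm
  have hS := sqrt_slice_bound hd hK hJ.1 hu hc (by exact_mod_cast hm)
  have hG := shadow_projBody_ge hd hK hu
  rw [mu_eq_shadow hK hJ.1 hμ0 hμ hu hc] at hG
  refine ⟨by linarith [hS.1], fun h => by (clear hμ0 hμ; linarith [hS.2 h])⟩

end Glue3

theorem fixed_point_bound (hd : finrank ℝ V = 3) {K : Set V} (hK : IsSymBody K)
    (hJ : JohnPos K) {μ : ℝ} (hμ0 : 0 < μ) (hμ : projBody (projBody K) = μ • K) :
    3 * Real.pi ^ 2 / 4 * vol K ≤ μ :=
  (Glue3.main hd hK hJ hμ0 hμ).1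

theorem fixed_point_eq (hd : finrank ℝ V = 3) {K : Set V} (hK : IsSymBody K)
    (hJ : JohnPos K) {μ : ℝ} (hμ0 : 0 < μ) (hμ : projBody (projBody K) = μ • K)
    (h : μ ≤ 3 * Real.pi ^ 2 / 4 * vol K) :
    vol K ≤ 4 * Real.pi / 3 := by
  by_contra hcon
  push Not at hcon
  exact absurd h (not_le.mpr ((Glue3.main hd hK hJ hμ0 hμ).2 hcon))

end Vale.Agent.P237
end

section

/-!
# P237: the Euclidean ball
-/

open MeasureTheory Metric Set Module
open scoped Pointwise

namespace Vale.Agent.P237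

variable {V : Type*} [NormedAddCommGroup V] [InnerProductSpace ℝ V] [FiniteDimensional ℝ V]
  [MeasurableSpace V] [BorelSpace V]

theorem vol_ball3 (hd : finrank ℝ V = 3) : vol (closedBall (0 : V) 1) = 4 * Real.pi / 3 := by
  unfold vol
  rw [InnerProductSpace.volume_closedBall_of_dim_odd (k := 1) (by omega) (0 : V) 1, hd]
  have h0 : (0 : ℝ) ≤ Real.pi ^ 1 * 2 ^ (1 + 1) / ((Nat.doubleFactorial 3 : ℕ) : ℝ) := by positivity
  simp only [ENNReal.ofReal_one, one_pow, one_mul]
  rw [ENNReal.toReal_ofReal h0]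
  norm_num [Nat.doubleFactorial]
  ring

theorem vol_ball2 (hd : finrank ℝ V = 2) : vol (closedBall (0 : V) 1) = Real.pi := by
  haveI : Nontrivial V := Module.nontrivial_of_finrank_pos (R := ℝ) (by omega)
  unfold vol
  rw [InnerProductSpace.volume_closedBall_of_dim_even (k := 1) (by omega) (0 : V) 1, hd]
  have h0 : (0 : ℝ) ≤ Real.pi ^ 1 / ((Nat.factorial 1 : ℕ) : ℝ) := by positivity
  simp only [ENNReal.ofReal_one, one_pow, one_mul]
  rw [ENNReal.toReal_ofReal h0]
  simp

omit [MeasurableSpace V] [BorelSpace V] in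
theorem isSymBody_ball : IsSymBody (closedBall (0 : V) 1) where
  convex := convex_closedBall _ _
  compact := isCompact_closedBall _ _
  int := ⟨0, mem_interior.2 ⟨ball 0 1, ball_subset_closedBall, isOpen_ball, mem_ball_self one_pos⟩⟩
  symm := fun x hx => by simpa only [mem_closedBall, dist_zero_right, norm_neg] using hx

omit [MeasurableSpace V] [BorelSpace V] in
theorem proj_ball (u : V) :
    ((ℝ ∙ u)ᗮ : Submodule ℝ V).orthogonalProjectionOnto '' closedBall (0 : V) 1 =
      closedBall (0 : ((ℝ ∙ u)ᗮ : Submodule ℝ V)) 1 := by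
  apply Subset.antisymm
  · rintro _ ⟨x, hx, rfl⟩
    rw [mem_closedBall_zero_iff] at hx ⊢
    exact (Submodule.norm_orthogonalProjectionOnto_apply_le _ x).trans hx
  · intro z hz
    refine ⟨(z : V), ?_, ?_⟩
    · rw [mem_closedBall_zero_iff] at hz ⊢
      exact hz
    · simp

theorem shadow_ball (u : V) :
    shadow (closedBall (0 : V) 1) u = vol (closedBall (0 : ((ℝ ∙ u)ᗮ : Submodule ℝ V)) 1) := by
  unfold shadow vol
  rw [proj_ball]

theorem projBody_ball_of {c : ℝ} (hc : 0 ≤ c)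
    (h : ∀ u : V, ‖u‖ = 1 → shadow (closedBall (0 : V) 1) u = c) :
    projBody (closedBall (0 : V) 1) = closedBall 0 c := by
  ext y
  rw [mem_closedBall_zero_iff]
  constructor
  · intro hy
    by_cases h0 : y = 0
    · rw [h0, norm_zero]; exact hc
    · have h1 := hy (‖y‖⁻¹ • y) (norm_unit h0)
      rw [h _ (norm_unit h0), inner_smul_right, real_inner_self_eq_norm_sq] at h1
      have hn : ‖y‖ ≠ 0 := norm_ne_zero_iff.2 h0
      calc ‖y‖ = ‖y‖⁻¹ * ‖y‖ ^ 2 := by field_simp
        _ ≤ c := h1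
  · intro hy u hu
    rw [h u hu]
    calc inner ℝ y u ≤ ‖y‖ * ‖u‖ := real_inner_le_norm _ _
      _ = ‖y‖ := by rw [hu, mul_one]
      _ ≤ c := hy

theorem projBody_ball3 (hd : finrank ℝ V = 3) :
    projBody (closedBall (0 : V) 1) = closedBall 0 Real.pi := by
  refine projBody_ball_of Real.pi_pos.le fun u hu => ?_
  rw [shadow_ball, vol_ball2 (finrank_perp hd hu)]

theorem ratio_ball3 (hd : finrank ℝ V = 3) :
    ratio (closedBall (0 : V) 1) = 3 * Real.pi ^ 2 / 4 := by
  unfold ratio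
  have h1 : (closedBall (0 : V) Real.pi) = Real.pi • closedBall (0 : V) 1 := by
    rw [_root_.smul_closedBall _ _ zero_le_one, smul_zero, Real.norm_eq_abs, abs_of_pos Real.pi_pos,
      mul_one]
  rw [projBody_ball3 hd, h1, vol_smul_set, hd, vol_ball3 hd, abs_of_pos Real.pi_pos]
  have := Real.pi_pos
  norm_num
  field_simp

/-- A body containing the unit ball with at most the volume of the unit ball is the unit ball. -/
theorem eq_ball_of_vol {K : Set V} (hK : IsBody K) (h1 : closedBall (0 : V) 1 ⊆ K)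
    (h : vol K ≤ vol (closedBall (0 : V) 1)) : K = closedBall (0 : V) 1 := by
  have hfin : volume K ≠ ⊤ := hK.compact.measure_lt_top.ne
  have hfinB : volume (closedBall (0 : V) 1) ≠ ⊤ := measure_closedBall_lt_top.ne
  have hle : volume K ≤ volume (closedBall (0 : V) 1) := (ENNReal.toReal_le_toReal hfin hfinB).1 h
  -- the open set `interior K \ B` is null
  have hnull : volume (interior K \ closedBall (0 : V) 1) = 0 := by
    have h2 : volume (K \ closedBall (0 : V) 1) = 0 := by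
      rw [measure_sdiff h1 measurableSet_closedBall.nullMeasurableSet hfinB]
      exact tsub_eq_zero_of_le hle
    exact measure_mono_null (sdiff_subset_sdiff_left interior_subset) h2
  have hopen : IsOpen (interior K \ closedBall (0 : V) 1) :=
    isOpen_interior.sdiff isClosed_closedBall
  have hempty : interior K \ closedBall (0 : V) 1 = ∅ := by
    by_contra hne
    exact (hopen.measure_pos _ (nonempty_iff_ne_empty.2 hne)).ne' hnull
  have hint : interior K ⊆ closedBall (0 : V) 1 := sdiff_eq_empty.1 hempty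
  apply Subset.antisymm _ h1
  have hcl : closure (interior K) = closure K := hK.convex.closure_interior_eq_closure_of_nonempty_interior hK.int
  calc K ⊆ closure K := subset_closure
    _ = closure (interior K) := hcl.symm
    _ ⊆ closedBall (0 : V) 1 := closure_minimal hint isClosed_closedBall

end Vale.Agent.P237
end
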