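import Vale.Agent.P237.Bdl.B3
import Vale.Agent.P237.Bdl.B2

section

/-!
# P237: Petty's projection-volume inequality in dimension three, with equality cases
-/

open MeasureTheory Metric Set Module
open scoped Pointwise

namespace Vale.Agent.P237

variable {V : Type*} [NormedAddCommGroup V] [InnerProductSpace ℝ V] [FiniteDimensional ℝ V]
  [MeasurableSpace V] [BorelSpace V]

namespace Main

theorem vol_pos {K : Set V} (hK : IsBody K) : 0 < vol K := by
  have h1 : 0 < volume K := lt_of_lt_of_le (isOpen_interior.measure_pos _ hK.int)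
    (measure_mono interior_subset)
  exact ENNReal.toReal_pos h1.ne' hK.compact.measure_lt_top.ne

theorem projBody_isBody {K : Set V} (hK : IsBody K) : IsBody (projBody K) :=
  (projBody_isSymBody hK).toIsBody

/-- The ratio of the projection body is at most the ratio. -/
theorem ratio_projBody_le {K : Set V} (hK : IsBody K) (hd : 0 < finrank ℝ V) :
    ratio (projBody K) ≤ ratio K := by
  have h := petty_contract hK hd
  have p1 := vol_pos hK
  have p2 := vol_pos (projBody_isBody hK)
  unfold ratio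
  obtain ⟨m, hm⟩ : ∃ m, finrank ℝ V = m + 1 := ⟨finrank ℝ V - 1, by omega⟩
  rw [hm] at h ⊢
  simp only [Nat.add_sub_cancel] at h ⊢
  rw [div_le_div_iff₀ (by positivity) (by positivity)]
  calc vol (projBody (projBody K)) * vol K ^ m = vol K ^ m * vol (projBody (projBody K)) := by ring
    _ ≤ vol (projBody K) ^ (m + 1) := h
    _ = vol (projBody K) * vol (projBody K) ^ m := by ring

theorem petty_contract_eq_of_ratio {K : Set V} (hK : IsBody K) (hd : 0 < finrank ℝ V)
    (h : ratio K ≤ ratio (projBody K)) :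
    ∃ (c : V) (r : ℝ), 0 < r ∧ projBody (projBody K) = (fun x => c + x) '' (r • K) := by
  refine petty_contract_eq hK hd ?_
  have p1 := vol_pos hK
  have p2 := vol_pos (projBody_isBody hK)
  unfold ratio at h
  obtain ⟨m, hm⟩ : ∃ m, finrank ℝ V = m + 1 := ⟨finrank ℝ V - 1, by omega⟩
  rw [hm] at h ⊢
  simp only [Nat.add_sub_cancel] at h ⊢
  rw [div_le_div_iff₀ (by positivity) (by positivity)] at h
  calc vol (projBody K) ^ (m + 1) = vol (projBody K) * vol (projBody K) ^ m := by ring
    _ ≤ vol (projBody (projBody K)) * vol K ^ m := h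
    _ = vol K ^ m * vol (projBody (projBody K)) := by ring

theorem image_add_zero (S : Set V) : (fun x => (0 : V) + x) '' S = S := by
  simp

/-- A symmetric body which does not lose in the first step is a fixed point of the squared
projection body operator up to dilation. -/
theorem fixed_of_ratio_le {K : Set V} (hK : IsSymBody K) (hd : 0 < finrank ℝ V)
    (h : ratio K ≤ ratio (projBody K)) :
    ∃ r : ℝ, 0 < r ∧ projBody (projBody K) = r • K ∧ vol (projBody K) = r * vol K := by
  obtain ⟨c, r, hr, hcr⟩ := petty_contract_eq_of_ratio hK.toIsBody hd h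
  have hc : c = 0 := center_zero hK (projBody_isSymBody (projBody_isBody hK.toIsBody)) hr hcr
  have hM : projBody (projBody K) = r • K := by
    rw [hcr, hc, image_add_zero]
  refine ⟨r, hr, hM, ?_⟩
  have p1 := vol_pos hK.toIsBody
  have p2 := vol_pos (projBody_isBody hK.toIsBody)
  have h1 := ratio_projBody_le hK.toIsBody hd
  have heq : ratio K = ratio (projBody K) := le_antisymm h h1
  obtain ⟨m, hm⟩ : ∃ m, finrank ℝ V = m + 1 := ⟨finrank ℝ V - 1, by omega⟩
  have hv : vol (projBody (projBody K)) = r ^ (m + 1) * vol K := by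
    rw [hM, vol_smul_set, hm, abs_of_pos hr]
  unfold ratio at heq
  rw [hv, hm] at heq
  simp only [Nat.add_sub_cancel] at heq
  rw [div_eq_div_iff (by positivity) (by positivity)] at heq
  have h3 : vol (projBody K) ^ (m + 1) = (r * vol K) ^ (m + 1) := by
    calc vol (projBody K) ^ (m + 1) = vol (projBody K) * vol (projBody K) ^ m := by ring
      _ = r ^ (m + 1) * vol K * vol K ^ m := heq
      _ = (r * vol K) ^ (m + 1) := by ring
  exact (pow_left_inj₀ p2.le (by positivity) (by omega)).1 h3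

/-- In dimension three, a symmetric body with `ratio K ≤ ratio (Π K)` satisfies Petty's bound. -/
theorem ratio_ge_of_fixed (hd : finrank ℝ V = 3) {K : Set V} (hK : IsSymBody K)
    (hmin : ∀ L : Set V, IsSymBody L → ratio K ≤ ratio L) :
    3 * Real.pi ^ 2 / 4 ≤ ratio K := by
  have hd0 : 0 < finrank ℝ V := by omega
  obtain ⟨T, hT⟩ := exists_johnPos hK
  have hK1 : IsSymBody (T '' K) := IsSymBody.image T hK
  have hR : ratio (T '' K) = ratio K := ratio_image T hK.toIsBody hd0
  have hle : ratio (T '' K) ≤ ratio (projBody (T '' K)) := by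
    rw [hR]; exact hmin _ (projBody_isSymBody hK1.toIsBody)
  obtain ⟨r, hr, hM, hv⟩ := fixed_of_ratio_le hK1 hd0 hle
  have hb := fixed_point_bound hd hK1 hT hr hM
  have p1 := vol_pos hK1.toIsBody
  rw [← hR]
  unfold ratio
  rw [hv, hd, le_div_iff₀ (by positivity)]
  calc 3 * Real.pi ^ 2 / 4 * vol (T '' K) ^ (3 - 1)
      = (3 * Real.pi ^ 2 / 4 * vol (T '' K)) * vol (T '' K) := by norm_num; ring
    _ ≤ r * vol (T '' K) := mul_le_mul_of_nonneg_right hb p1.le

/-- Petty's inequality in dimension three, ratio form. -/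
theorem petty_ratio (hd : finrank ℝ V = 3) {K : Set V} (hK : IsBody K) :
    3 * Real.pi ^ 2 / 4 ≤ ratio K := by
  have hd0 : 0 < finrank ℝ V := by omega
  obtain ⟨K₀, hK₀, hmin⟩ := exists_global_min (V := V) hd0
  calc 3 * Real.pi ^ 2 / 4 ≤ ratio K₀ := ratio_ge_of_fixed hd hK₀ hmin
    _ ≤ ratio (projBody K) := hmin _ (projBody_isSymBody hK)
    _ ≤ ratio K := ratio_projBody_le hK hd0

/-- An extremal symmetric body is an ellipsoid. -/
theorem sym_eq (hd : finrank ℝ V = 3) {K : Set V} (hK : IsSymBody K)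
    (h : ratio K ≤ 3 * Real.pi ^ 2 / 4) :
    ∃ T : V ≃ₗ[ℝ] V, K = T '' closedBall (0 : V) 1 := by
  have hd0 : 0 < finrank ℝ V := by omega
  obtain ⟨T, hT⟩ := exists_johnPos hK
  have hK1 : IsSymBody (T '' K) := IsSymBody.image T hK
  have hR : ratio (T '' K) = ratio K := ratio_image T hK.toIsBody hd0
  have hle : ratio (T '' K) ≤ ratio (projBody (T '' K)) := by
    rw [hR]; exact h.trans (petty_ratio hd (projBody_isBody hK1.toIsBody))
  obtain ⟨r, hr, hM, hv⟩ := fixed_of_ratio_le hK1 hd0 hle
  have p1 := vol_pos hK1.toIsBody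
  have hr2 : r ≤ 3 * Real.pi ^ 2 / 4 * vol (T '' K) := by
    have h1 : ratio (T '' K) ≤ 3 * Real.pi ^ 2 / 4 := by rw [hR]; exact h
    unfold ratio at h1
    rw [hv, hd, div_le_iff₀ (by positivity)] at h1
    have h2 : r * vol (T '' K) ≤ (3 * Real.pi ^ 2 / 4 * vol (T '' K)) * vol (T '' K) := by
      calc r * vol (T '' K) ≤ 3 * Real.pi ^ 2 / 4 * vol (T '' K) ^ (3 - 1) := h1
        _ = (3 * Real.pi ^ 2 / 4 * vol (T '' K)) * vol (T '' K) := by norm_num; ring
    exact le_of_mul_le_mul_right h2 p1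
  have hvol := fixed_point_eq hd hK1 hT hr hM hr2
  have hball : T '' K = closedBall (0 : V) 1 := by
    refine eq_ball_of_vol hK1.toIsBody hT.1 ?_
    rw [vol_ball3 hd]; exact hvol
  refine ⟨T.symm, ?_⟩
  rw [← hball, ← image_comp]
  simp

/-- Petty's inequality in dimension three. -/
theorem petty3 (hd : finrank ℝ V = 3) {K : Set V} (hK : IsBody K) :
    3 * Real.pi ^ 2 / 4 * vol K ^ 2 ≤ vol (projBody K) := by
  have h := petty_ratio hd hK
  have p1 := vol_pos hK
  unfold ratio at h
  rw [hd, le_div_iff₀ (by positivity)] at h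
  simpa using h

/-- An extremal body is an ellipsoid. -/
theorem petty3_eq (hd : finrank ℝ V = 3) {K : Set V} (hK : IsBody K)
    (h : vol (projBody K) = 3 * Real.pi ^ 2 / 4 * vol K ^ 2) :
    ∃ (a : V) (T : V ≃ₗ[ℝ] V), K = (fun x => a + T x) '' closedBall (0 : V) 1 := by
  have hd0 : 0 < finrank ℝ V := by omega
  have p1 := vol_pos hK
  have hR : ratio K = 3 * Real.pi ^ 2 / 4 := by
    unfold ratio
    rw [hd, h, div_eq_iff (by positivity)]
  obtain ⟨c, r, hr, hcr⟩ := petty_contract_eq_of_ratio hK hd0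
    (by rw [hR]; exact petty_ratio hd (projBody_isBody hK))
  -- the translate `K' = r⁻¹ • Π² K` of `K`
  have hM : IsSymBody (projBody (projBody K)) := projBody_isSymBody (projBody_isBody hK)
  have hK' : (fun x => (r⁻¹ • c) + x) '' K = r⁻¹ • projBody (projBody K) := by
    rw [hcr]
    ext y
    simp only [mem_image, mem_smul_set]
    constructor
    · rintro ⟨x, hx, rfl⟩
      exact ⟨c + r • x, ⟨r • x, ⟨x, hx, rfl⟩, rfl⟩, by
        rw [smul_add, smul_smul, inv_mul_cancel₀ hr.ne', one_smul]⟩
    · rintro ⟨z, ⟨w, ⟨x, hx, rfl⟩, rfl⟩, rfl⟩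
      exact ⟨x, hx, by rw [smul_add, smul_smul, inv_mul_cancel₀ hr.ne', one_smul]⟩
  have hsym : IsSymBody ((fun x => (r⁻¹ • c) + x) '' K) := by
    have hb : IsBody ((fun x => (r⁻¹ • c) + x) '' K) := IsBody.translate hK _
    refine ⟨hb, ?_⟩
    intro x hx
    rw [hK'] at hx ⊢
    obtain ⟨z, hz, rfl⟩ := hx
    exact ⟨-z, hM.symm z hz, by simp⟩
  obtain ⟨T, hT⟩ := sym_eq hd hsym (by rw [ratio_translate, hR])
  refine ⟨-(r⁻¹ • c), T, ?_⟩
  have h2 : (fun x => -(r⁻¹ • c) + x) '' ((fun x => (r⁻¹ • c) + x) '' K) = K := by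
    rw [← image_comp]
    simp
  rw [← h2, hT, ← image_comp]
  rfl

/-- Ellipsoids attain equality. -/
theorem petty3_ellipsoid (hd : finrank ℝ V = 3) (a : V) (T : V ≃ₗ[ℝ] V) :
    vol (projBody ((fun x => a + T x) '' closedBall (0 : V) 1)) =
      3 * Real.pi ^ 2 / 4 * vol ((fun x => a + T x) '' closedBall (0 : V) 1) ^ 2 := by
  have hd0 : 0 < finrank ℝ V := by omega
  have hB : IsSymBody (closedBall (0 : V) 1) := isSymBody_ball
  have he : (fun x => a + T x) '' closedBall (0 : V) 1 =
      (fun x => a + x) '' (T '' closedBall (0 : V) 1) := by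
    rw [← image_comp]; rfl
  have hbody : IsBody ((fun x => a + T x) '' closedBall (0 : V) 1) := by
    rw [he]; exact IsBody.translate (IsSymBody.image T hB).toIsBody a
  have hR : ratio ((fun x => a + T x) '' closedBall (0 : V) 1) = 3 * Real.pi ^ 2 / 4 := by
    rw [he, ratio_translate, ratio_image T hB.toIsBody hd0, ratio_ball3 hd]
  have p1 := vol_pos hbody
  unfold ratio at hR
  rw [hd, div_eq_iff (by positivity)] at hR
  exact hR

end Main

end Vale.Agent.P237
end
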